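import Vale.Agent.P165.Defs

/-!
# P165: invariance of the percolation measure under graph automorphisms
-/

open Finset MeasureTheory

namespace Vale.Agent.P165
namespace Aut

variable {V : Type*}

/-- invariance of the product measure under permutations of the pairs -/
theorem perc_preimage (p : unitInterval) (σ : Equiv.Perm (Sym2 V)) (A : Set (Sym2 V → Bool)) :
    perc V p ((fun ω e => ω (σ e)) ⁻¹' A) = perc V p A := by
  have h := Measure.infinitePi_map_piCongrLeft (μ := fun _ : Sym2 V => bern p) σ.symm
  have h1 : (perc V p).map (MeasurableEquiv.piCongrLeft (fun _ : Sym2 V => Bool) σ.symm)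
      = perc V p := h
  have h2 : ⇑(MeasurableEquiv.piCongrLeft (fun _ : Sym2 V => Bool) σ.symm)
      = fun (ω : Sym2 V → Bool) e => ω (σ e) := by
    funext ω e
    rw [MeasurableEquiv.coe_piCongrLeft]
    have := Equiv.piCongrLeft_apply_apply (fun _ : Sym2 V => Bool) σ.symm ω (σ e)
    simpa using this
  rw [← h2, ← MeasurableEquiv.map_apply, h1]

/-- the open subgraph of the moved configuration -/
def opnIso (G : SimpleGraph V) (f : G ≃g G) (ω : Sym2 V → Bool) :
    opn G (fun e => ω (Sym2.map f e)) ≃g opn G ω where
  toEquiv := f.toEquiv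
  map_rel_iff' := by
    intro a b
    constructor
    · rintro ⟨h1, h2⟩
      refine ⟨f.map_rel_iff'.mp h1, ?_⟩
      simpa using h2
    · rintro ⟨h1, h2⟩
      refine ⟨f.map_rel_iff'.mpr h1, ?_⟩
      simpa using h2

/-- the cluster of `x` is infinite -/
def Inf (G : SimpleGraph V) (x : V) : Set (Sym2 V → Bool) :=
  {ω | {y | (opn G ω).Reachable x y}.Infinite}

theorem inf_iff (G : SimpleGraph V) (f : G ≃g G) (x : V) (ω : Sym2 V → Bool) :
    (fun e => ω (Sym2.map f e)) ∈ Inf G x ↔ ω ∈ Inf G (f x) := by
  unfold Inf
  simp only [Set.mem_ofPred_eq]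
  have h : {y | (opn G ω).Reachable (f x) y}
      = f '' {y | (opn G (fun e => ω (Sym2.map f e))).Reachable x y} := by
    ext y
    constructor
    · intro hy
      refine ⟨f.symm y, ?_, by simp⟩
      have := (opnIso G f ω).symm.toHom
      have h2 := SimpleGraph.Reachable.map this hy
      have h3 : ((opnIso G f ω).symm (f x)) = x := f.symm_apply_apply x
      have h4 : ((opnIso G f ω).symm y) = f.symm y := rfl
      change (opn G (fun e => ω (Sym2.map f e))).Reachable x (f.symm y)
      rw [← h4, ← h3]
      exact (opnIso G f ω).symm.reachable_iff.mpr hy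
    · rintro ⟨z, hz, rfl⟩
      exact (opnIso G f ω).reachable_iff.mpr hz
  rw [h, Set.infinite_image_iff (fun a _ b _ hab => f.injective hab)]

theorem perc_inf (p : unitInterval) (G : SimpleGraph V) (f : G ≃g G) (x : V) :
    perc V p (Inf G (f x)) = perc V p (Inf G x) := by
  let σ : Equiv.Perm (Sym2 V) :=
    { toFun := Sym2.map f
      invFun := Sym2.map f.symm
      left_inv := fun e => by
        rw [Sym2.map_map]
        have : (f.symm : V → V) ∘ (f : V → V) = id := by
          funext a; simp
        rw [this, Sym2.map_id, id]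
      right_inv := fun e => by
        rw [Sym2.map_map]
        have : (f : V → V) ∘ (f.symm : V → V) = id := by
          funext a; simp
        rw [this, Sym2.map_id, id] }
  rw [← perc_preimage p σ (Inf G x)]
  congr 1
  ext ω
  rw [Set.mem_preimage]
  exact (inf_iff G f x ω).symm

end Aut
end Vale.Agent.P165
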