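import Mathlib

/-!
P165: definitions.

Finite volume: `ex p F f` is the expectation of `f ω`, where `ω ⊆ F` contains every element of
`F` independently with probability `p`; `pr p F A` is the probability of the event `A`.
Infinite volume: `perc p` is the product Bernoulli measure on configurations
`Sym2 V → Bool`; the open subgraph `opn G ω` consists of the edges of `G` declared open.
-/

open Finset MeasureTheory

namespace Vale.Agent.P165

open Classical in
/-- indicator of a proposition -/
noncomputable def ind (P : Prop) : ℝ := if P then 1 else 0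

/-- expectation of `f ω`, `ω ⊆ F` a random subset containing each element independently with
probability `p` -/
noncomputable def ex {α : Type*} (p : ℝ) (F : Finset α) (f : Finset α → ℝ) : ℝ :=
  ∑ ω ∈ F.powerset, p ^ ω.card * (1 - p) ^ (F.card - ω.card) * f ω

/-- probability of the event `A` -/
noncomputable def pr {α : Type*} (p : ℝ) (F : Finset α) (A : Finset α → Prop) : ℝ :=
  ex p F (fun ω => ind (A ω))

variable {V : Type*}

/-- `Cn ω S x y`: `x` and `y` are joined by a path with all vertices in `S` and all edges in
`ω`. -/
def Cn (ω : Finset (Sym2 V)) (S : Finset V) (x y : V) : Prop :=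
  x ∈ S ∧ Relation.ReflTransGen (fun a b => s(a, b) ∈ ω ∧ b ∈ S) x y

/-- `Exit ω S x`: `x` is joined inside `S` by edges of `ω` to a vertex of `S` with an edge of
`ω` leaving `S`. -/
def Exit (ω : Finset (Sym2 V)) (S : Finset V) (x : V) : Prop :=
  ∃ y z, Cn ω S x y ∧ z ∉ S ∧ s(y, z) ∈ ω

open Classical in
/-- the edges of `G` with both ends in `S` -/
noncomputable def ed (G : SimpleGraph V) (S : Finset V) : Finset (Sym2 V) :=
  S.sym2.filter (fun e => e ∈ G.edgeSet)

/-- the edges of `G` with at least one end in `S` -/
def edT [DecidableEq V] (G : SimpleGraph V) [G.LocallyFinite] (S : Finset V) :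
    Finset (Sym2 V) :=
  S.biUnion (fun x => (G.neighborFinset x).image (fun z => s(x, z)))

/-- probability that `x` and `y` are joined inside `S` -/
noncomputable def tau (G : SimpleGraph V) (p : ℝ) (S : Finset V) (x y : V) : ℝ :=
  pr p (ed G S) (fun ω => Cn ω S x y)

/-- expected size of the cluster of `x` inside `S` -/
noncomputable def chi (G : SimpleGraph V) (p : ℝ) (S : Finset V) (x : V) : ℝ :=
  ∑ y ∈ S, tau G p S x y

/-- probability that `x` is joined to the complement of `S` -/
noncomputable def theta [DecidableEq V] (G : SimpleGraph V) [G.LocallyFinite] (p : ℝ)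
    (S : Finset V) (x : V) : ℝ :=
  pr p (edT G S) (fun ω => Exit ω S x)

/-- the functional of Duminil-Copin and Tassion -/
noncomputable def phi [DecidableEq V] (G : SimpleGraph V) [G.LocallyFinite] (p : ℝ)
    (S : Finset V) (o : V) : ℝ :=
  p * ∑ x ∈ S, ∑ _z ∈ G.neighborFinset x \ S, tau G p S o x

/-- number of walks of length `k` from `x` to `y` -/
noncomputable def nw [DecidableEq V] (G : SimpleGraph V) [G.LocallyFinite] :
    ℕ → V → V → ℝ
  | 0, x, y => if x = y then 1 else 0
  | k + 1, x, y => ∑ z ∈ G.neighborFinset x, nw G k z y

/-- the Green function with weight `p` per step -/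
noncomputable def gr [DecidableEq V] (G : SimpleGraph V) [G.LocallyFinite] (p : ℝ)
    (x y : V) : ℝ :=
  ∑' k, p ^ k * nw G k x y

/-- the series of the criterion -/
noncomputable def crit [DecidableEq V] (G : SimpleGraph V) [G.LocallyFinite] (p : ℝ)
    (o : V) : ℝ :=
  ∑' k : ℕ, ((k : ℝ) + 3) / 2 * (p ^ (k + 2) * nw G (k + 2) o o)

/-- number of edges of `G` from `A` to its complement -/
def ebd [DecidableEq V] (G : SimpleGraph V) [G.LocallyFinite] (A : Finset V) : ℕ :=
  ∑ x ∈ A, (G.neighborFinset x \ A).card

/-! ### Infinite volume -/

/-- Bernoulli measure: `true` (open) with probability `p` -/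
noncomputable def bern (p : unitInterval) : Measure Bool :=
  ENNReal.ofReal (p : ℝ) • Measure.dirac true + ENNReal.ofReal (1 - (p : ℝ)) • Measure.dirac false

instance (p : unitInterval) : IsProbabilityMeasure (bern p) := by
  constructor
  simp only [bern, Measure.add_apply, Measure.smul_apply, measure_univ, smul_eq_mul, mul_one]
  rw [← ENNReal.ofReal_add p.2.1 (by linarith [p.2.2])]
  simp

/-- Bernoulli percolation measure: every pair `e` is open independently with probability `p` -/
noncomputable def perc (V : Type*) (p : unitInterval) : Measure (Sym2 V → Bool) :=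
  Measure.infinitePi (fun _ => bern p)

instance (p : unitInterval) : IsProbabilityMeasure (perc V p) := by
  unfold perc; infer_instance

/-- the open subgraph of `G`: the edges of `G` that are open in `ω` -/
def opn (G : SimpleGraph V) (ω : Sym2 V → Bool) : SimpleGraph V where
  Adj x y := G.Adj x y ∧ ω s(x, y) = true
  symm := ⟨fun x y h => ⟨h.1.symm, by rw [Sym2.eq_swap]; exact h.2⟩⟩
  loopless := ⟨fun x h => G.loopless.1 x h.1⟩

/-- the critical probability: infimum of the `p` for which there is an infinite cluster with
positive probability -/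
noncomputable def pc (G : SimpleGraph V) : ℝ :=
  sInf {q : ℝ | ∃ p : unitInterval, (p : ℝ) = q ∧
    0 < perc V p {ω | ∃ C : (opn G ω).ConnectedComponent, C.supp.Infinite}}

/-- the uniqueness threshold: infimum of the `p` for which almost surely there is exactly one
infinite cluster -/
noncomputable def pu (G : SimpleGraph V) : ℝ :=
  sInf {q : ℝ | ∃ p : unitInterval, (p : ℝ) = q ∧
    ∀ᵐ ω ∂(perc V p), ∃! C : (opn G ω).ConnectedComponent, C.supp.Infinite}

end Vale.Agent.P165
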