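import Mathlib
import Vale.Agent.P165.Defs

/-!
# P165: finite Bernoulli percolation as a finite sum; independence and the derivative (Russo)
-/

namespace Vale.Agent.P165

open Finset

set_option linter.unusedSectionVars false

variable {ι : Type*} [DecidableEq ι]

theorem ex_empty (p : ℝ) (f : Finset ι → ℝ) : ex p ∅ f = f ∅ := by
  simp [ex]

theorem ex_insert (p : ℝ) {E : Finset ι} {e : ι} (he : e ∉ E) (f : Finset ι → ℝ) :
    ex p (insert e E) f = p * ex p E (fun ω => f (insert e ω)) + (1 - p) * ex p E f := by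
  unfold ex
  rw [sum_powerset_insert he, mul_sum, mul_sum, add_comm]
  congr 1
  · refine sum_congr rfl fun ω hω => ?_
    have heω : e ∉ ω := fun h => he (mem_powerset.1 hω h)
    rw [card_insert_of_notMem he, card_insert_of_notMem heω, Nat.add_sub_add_right, pow_succ]
    ring
  · refine sum_congr rfl fun ω hω => ?_
    have hc := card_le_card (mem_powerset.1 hω)
    rw [card_insert_of_notMem he, Nat.sub_add_comm hc, pow_succ]
    ring

theorem ex_congr (p : ℝ) {E : Finset ι} {f g : Finset ι → ℝ} (h : ∀ ω ⊆ E, f ω = g ω) :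
    ex p E f = ex p E g := by
  unfold ex
  exact sum_congr rfl fun ω hω => by rw [h ω (mem_powerset.1 hω)]

theorem ex_add (p : ℝ) (E : Finset ι) (f g : Finset ι → ℝ) :
    ex p E (fun ω => f ω + g ω) = ex p E f + ex p E g := by
  unfold ex
  rw [← sum_add_distrib]
  exact sum_congr rfl fun ω _ => by ring

theorem ex_sub (p : ℝ) (E : Finset ι) (f g : Finset ι → ℝ) :
    ex p E (fun ω => f ω - g ω) = ex p E f - ex p E g := by
  unfold ex
  rw [← sum_sub_distrib]
  exact sum_congr rfl fun ω _ => by ring

theorem ex_const_mul (p c : ℝ) (E : Finset ι) (f : Finset ι → ℝ) :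
    ex p E (fun ω => c * f ω) = c * ex p E f := by
  unfold ex
  rw [mul_sum]
  exact sum_congr rfl fun ω _ => by ring

theorem ex_sum {κ : Type*} (p : ℝ) (E : Finset ι) (s : Finset κ) (f : κ → Finset ι → ℝ) :
    ex p E (fun ω => ∑ k ∈ s, f k ω) = ∑ k ∈ s, ex p E (f k) := by
  unfold ex
  rw [sum_comm]
  exact sum_congr rfl fun ω _ => by rw [mul_sum]

theorem ex_one (p : ℝ) (E : Finset ι) : ex p E (fun _ => 1) = 1 := by
  induction E using Finset.induction_on with
  | empty => rw [ex_empty]
  | insert e E he ih => rw [ex_insert p he, ih]; ring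

theorem ex_const (p c : ℝ) (E : Finset ι) : ex p E (fun _ => c) = c := by
  have h := ex_const_mul p c E (fun _ => 1)
  rw [ex_one] at h
  simpa using h

theorem weight_nonneg {p : ℝ} (h0 : 0 ≤ p) (h1 : p ≤ 1) (E ω : Finset ι) :
    0 ≤ p ^ ω.card * (1 - p) ^ (E.card - ω.card) :=
  mul_nonneg (pow_nonneg h0 _) (pow_nonneg (by linarith) _)

theorem ex_mono {p : ℝ} (h0 : 0 ≤ p) (h1 : p ≤ 1) {E : Finset ι} {f g : Finset ι → ℝ}
    (h : ∀ ω ⊆ E, f ω ≤ g ω) : ex p E f ≤ ex p E g := by
  unfold ex
  exact sum_le_sum fun ω hω => mul_le_mul_of_nonneg_left (h ω (mem_powerset.1 hω))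
    (weight_nonneg h0 h1 E ω)

theorem ex_nonneg {p : ℝ} (h0 : 0 ≤ p) (h1 : p ≤ 1) {E : Finset ι} {f : Finset ι → ℝ}
    (h : ∀ ω ⊆ E, 0 ≤ f ω) : 0 ≤ ex p E f := by
  have := ex_mono h0 h1 (f := fun _ => 0) h
  rwa [ex_const] at this

/-- Elements outside `E'` do not matter if `f` does not depend on them. -/
theorem ex_union (p : ℝ) (E F : Finset ι) (h : Disjoint E F) (f : Finset ι → ℝ) :
    ex p (E ∪ F) f = ex p F (fun η => ex p E (fun ω => f (ω ∪ η))) := by
  induction F using Finset.induction_on generalizing f with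
  | empty =>
    rw [union_empty, ex_empty]
    exact ex_congr p fun ω _ => by rw [union_empty]
  | insert e F he ih =>
    rw [disjoint_insert_right] at h
    have he' : e ∉ E ∪ F := fun h' => (mem_union.1 h').elim h.1 he
    have h2 : E ∪ insert e F = insert e (E ∪ F) := by
      rw [union_insert]
    rw [h2, ex_insert p he', ex_insert p he, ih h.2, ih h.2]
    congr 2
    refine ex_congr p fun η _ => ex_congr p fun ω _ => ?_
    rw [union_insert]

/-- Independence. -/
theorem ex_mul (p : ℝ) (E F : Finset ι) (h : Disjoint E F) (f g : Finset ι → ℝ)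
    (hf : ∀ ω ⊆ E, ∀ η ⊆ F, f (ω ∪ η) = f ω) (hg : ∀ ω ⊆ E, ∀ η ⊆ F, g (ω ∪ η) = g η) :
    ex p (E ∪ F) (fun ω => f ω * g ω) = ex p E f * ex p F g := by
  rw [ex_union p E F h, ← ex_const_mul]
  refine ex_congr p fun η hη => ?_
  rw [mul_comm, ← ex_const_mul]
  refine ex_congr p fun ω hω => ?_
  rw [hf ω hω η hη, hg ω hω η hη]
  ring

/-- The function depends only on `E`. -/
theorem ex_restrict (p : ℝ) (E F : Finset ι) (h : Disjoint E F) (f : Finset ι → ℝ)
    (hf : ∀ ω ⊆ E, ∀ η ⊆ F, f (ω ∪ η) = f ω) : ex p (E ∪ F) f = ex p E f := by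
  have h1 := ex_mul p E F h f (fun _ => 1) hf (fun _ _ _ _ => rfl)
  rw [ex_one, mul_one] at h1
  rw [← h1]
  exact ex_congr p fun ω _ => by ring

/-- Russo's formula for arbitrary functions. -/
theorem ex_hasDerivAt (E : Finset ι) (f : Finset ι → ℝ) (p : ℝ) :
    HasDerivAt (fun p => ex p E f)
      (∑ e ∈ E, ex p E (fun ω => f (insert e ω) - f (ω.erase e))) p := by
  induction E using Finset.induction_on generalizing f with
  | empty =>
    simp only [ex_empty, sum_empty]
    exact hasDerivAt_const _ _
  | insert e E he ih =>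
    have h1 : (fun p => ex p (insert e E) f) =
        fun p => p * ex p E (fun ω => f (insert e ω)) + (1 - p) * ex p E f := by
      funext p
      exact ex_insert p he f
    rw [h1]
    have h2 := ((hasDerivAt_id p).mul (ih (fun ω => f (insert e ω)))).add
      (((hasDerivAt_const p (1 : ℝ)).sub (hasDerivAt_id p)).mul (ih f))
    refine h2.congr_deriv ?_
    rw [sum_insert he, ex_insert p he]
    have e1 : ∀ e' ∈ E, ex p (insert e E) (fun ω => f (insert e' ω) - f (ω.erase e')) =
        p * ex p E (fun ω => f (insert e (insert e' ω)) - f (insert e (ω.erase e'))) +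
        (1 - p) * ex p E (fun ω => f (insert e' ω) - f (ω.erase e')) := by
      intro e' he'
      have hne : e' ≠ e := fun h => he (h ▸ he')
      rw [ex_insert p he]
      congr 2
      refine ex_congr p fun ω _ => ?_
      rw [Finset.insert_comm, erase_insert_of_ne hne.symm]
    rw [sum_congr rfl e1, sum_add_distrib, ← mul_sum, ← mul_sum]
    have e2 : ex p E (fun ω => f (insert e (insert e ω)) - f ((insert e ω).erase e)) =
        ex p E (fun ω => f (insert e ω)) - ex p E f := by
      rw [← ex_sub]
      refine ex_congr p fun ω hω => ?_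
      have heω : e ∉ ω := fun h => he (hω h)
      rw [insert_idem, erase_insert heω]
    have e3 : ex p E (fun ω => f (insert e ω) - f (ω.erase e)) =
        ex p E (fun ω => f (insert e ω)) - ex p E f := by
      rw [← ex_sub]
      refine ex_congr p fun ω hω => ?_
      have heω : e ∉ ω := fun h => he (hω h)
      rw [erase_eq_of_notMem heω]
    rw [e2, e3]
    simp only [id, Pi.sub_apply]
    ring

end Vale.Agent.P165
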