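import Vale.Agent.P165.PU

/-! P165: row PQ: the lower bound for `p_u` on quasi-transitive graphs. -/

open Finset MeasureTheory

namespace Vale.Agent.P165

variable {V : Type*} [DecidableEq V] {G : SimpleGraph V} [G.LocallyFinite]

namespace PQaux

theorem ball_iso (e : G ≃g G) (x : V) (n : ℕ) {y : V} (hy : y ∈ Inf.ball G x n) :
    e y ∈ Inf.ball G (e x) n := by
  induction n generalizing y with
  | zero =>
    rw [Inf.ball, mem_singleton] at hy
    rw [hy]
    exact mem_singleton_self _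
  | succ n ih =>
    rw [Inf.ball, mem_union, mem_biUnion] at hy ⊢
    rcases hy with hy | ⟨z, hz, hzy⟩
    · exact Or.inl (ih hy)
    · refine Or.inr ⟨e z, ih hz, ?_⟩
      rw [G.mem_neighborFinset] at hzy ⊢
      exact e.map_adj_iff.2 hzy

theorem orbit_infinite [Infinite V] (hG : G.Connected)
    (hq : ∃ T : Finset V, ∀ x, ∃ t ∈ T, ∃ f : G ≃g G, f t = x) (x : V) :
    {y | ∃ f : G ≃g G, f x = y}.Infinite := by
  intro hfin
  obtain ⟨T, hT⟩ := hq
  choose n hn using fun t => Inf.mem_ball hG x t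
  have h1 : (Set.univ : Set V) ⊆
      ((T.biUnion fun t => hfin.toFinset.biUnion fun z => Inf.ball G z (n t) : Finset V) :
        Set V) := by
    intro y _
    obtain ⟨t, ht, f, hf⟩ := hT y
    rw [Finset.mem_coe, mem_biUnion]
    refine ⟨t, ht, ?_⟩
    rw [mem_biUnion]
    refine ⟨f x, hfin.mem_toFinset.2 ⟨f, rfl⟩, ?_⟩
    rw [← hf]
    exact ball_iso f x (n t) (hn t)
  exact Set.infinite_univ (Finset.finite_toSet _ |>.subset h1)

theorem theta_zero (hG : G.Connected) (p : unitInterval) (T : V → V → ℝ)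
    (hT1 : ∀ S x y, tau G p S x y ≤ T x y) (K : ℝ)
    (hK : ∀ B : Finset V, ∑ x ∈ B, ∑ y ∈ B, T x y ≤ K * B.card)
    (hu : ∀ᵐ ω ∂(perc V p), ∃! C : (opn G ω).ConnectedComponent, C.supp.Infinite) (o : V)
    (ho : {y | ∃ f : G ≃g G, f o = y}.Infinite) :
    (perc V p).real (Inf.I G o) = 0 := by
  set θ := (perc V p).real (Inf.I G o) with hθ
  have hθ0 : 0 ≤ θ := measureReal_nonneg
  have hx : ∀ x ∈ {y | ∃ f : G ≃g G, f o = y}, (perc V p).real (Inf.I G x) = θ := by
    rintro x ⟨e, he⟩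
    rw [← he, Inf.perc_I_iso hG p e o]
  have hxy : ∀ x y, (perc V p).real (Inf.I G x ∩ Inf.I G y) ≤ T x y := by
    intro x y
    refine le_trans ?_ (Inf.perc_R_le hG p (fun S => hT1 S x y))
    have h1 : (perc V p) (Inf.I G x ∩ Inf.I G y) ≤ (perc V p) (Inf.R G x y) := by
      refine measure_mono_ae ?_
      filter_upwards [hu] with ω hω h
      obtain ⟨C, _, hC⟩ := hω
      have h2 : (opn G ω).connectedComponentMk x = (opn G ω).connectedComponentMk y :=
        (hC _ h.1).trans (hC _ h.2).symm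
      exact SimpleGraph.ConnectedComponent.eq.1 h2
    exact ENNReal.toReal_mono (measure_ne_top _ _) h1
  have hB : ∀ B : Finset V, (∀ x ∈ B, x ∈ {y | ∃ f : G ≃g G, f o = y}) →
      (θ * B.card) ^ 2 ≤ K * B.card := by
    intro B hBo
    have h1 := Inf.second_moment (perc V p) B (fun x => Inf.I G x)
      (fun x => Inf.measurable_I hG x)
    have h2 : ∑ x ∈ B, (perc V p).real (Inf.I G x) = θ * B.card := by
      rw [Finset.sum_congr rfl (fun x hx' => hx x (hBo x hx')), Finset.sum_const, nsmul_eq_mul,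
        mul_comm]
    rw [h2] at h1
    refine h1.trans (le_trans ?_ (hK B))
    exact Finset.sum_le_sum fun x _ => Finset.sum_le_sum fun y _ => hxy x y
  by_contra hne
  have hpos : 0 < θ := lt_of_le_of_ne hθ0 (Ne.symm hne)
  obtain ⟨n, hn⟩ := exists_nat_gt (K / θ ^ 2)
  obtain ⟨B, hBo, hBc⟩ := ho.exists_subset_card_eq (n + 1)
  have h1 := hB B (fun x hx' => hBo hx')
  rw [hBc] at h1
  have h2 : K < θ ^ 2 * n := by
    rw [div_lt_iff₀ (by positivity)] at hn
    linarith
  push_cast at h1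
  have hn0 : (0 : ℝ) ≤ n := Nat.cast_nonneg n
  nlinarith [mul_pos hpos hpos, mul_nonneg (mul_nonneg hθ0 hθ0) hn0,
    mul_nonneg (mul_nonneg (mul_nonneg hθ0 hθ0) hn0) hn0]

end PQaux

/-- no uniqueness below the walk threshold, all orbits infinite -/
theorem not_unique_orbit (hG : G.Connected)
    (ho : ∀ x : V, {y | ∃ f : G ≃g G, f x = y}.Infinite) {r : ℝ} (hr : 0 ≤ r)
    (hnw : ∀ k x y, nw G k x y ≤ r ^ k)
    (hB : ∀ (k : ℕ) (B : Finset V), ∑ x ∈ B, ∑ y ∈ B, nw G k x y ≤ r ^ k * B.card)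
    (p : unitInterval) (hp : (p : ℝ) * r < 1) :
    ¬ ∀ᵐ ω ∂(perc V p), ∃! C : (opn G ω).ConnectedComponent, C.supp.Infinite := by
  intro hu
  have := Inf.countable_of_connected hG
  have h1 : ∀ᵐ ω ∂(perc V p), ∀ x : V, ω ∉ Inf.I G x := by
    rw [ae_all_iff]
    intro x
    have h2 := PQaux.theta_zero hG p (gr G p)
      (fun S x y => U12.tau_le_gr p.2.1 p.2.2 (PUaux.sum_summable p.2.1 hr hp hnw) S x y)
      (1 / (1 - p * r)) (PUaux.gr_sum_le p.2.1 hr hp hnw hB) hu x (ho x)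
    rw [measureReal_def, ENNReal.toReal_eq_zero_iff] at h2
    rcases h2 with h2 | h2
    · rw [ae_iff]
      simpa using h2
    · exact absurd h2 (measure_ne_top _ _)
  have h3 : ∀ᵐ _ω ∂(perc V p), False := by
    filter_upwards [hu, h1] with ω hω h
    obtain ⟨C, hC, _⟩ := hω
    obtain ⟨x, hx⟩ := C.exists_rep
    refine h x ?_
    show ((opn G ω).connectedComponentMk x).supp.Infinite
    have h4 : (opn G ω).connectedComponentMk x = C := hx
    rw [h4]
    exact hC
  rw [ae_iff] at h3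
  simp at h3

/-- **Row PQ** -/
theorem pu_ge_quasi [Infinite V] (hG : G.Connected)
    (hq : ∃ T : Finset V, ∀ x, ∃ t ∈ T, ∃ f : G ≃g G, f t = x)
    {r : ℝ} (hr : 0 < r) (hnw : ∀ k x y, nw G k x y ≤ r ^ k)
    (hB : ∀ (k : ℕ) (B : Finset V), ∑ x ∈ B, ∑ y ∈ B, nw G k x y ≤ r ^ k * B.card) :
    1 / r ≤ pu G :=
  le_pu hG fun p hp => not_unique_orbit hG (PQaux.orbit_infinite hG hq) hr.le hnw hB p (by
    rwa [lt_div_iff₀ hr] at hp)

end Vale.Agent.P165
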