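import Vale.Agent.P165.ThmA
import Vale.Agent.P165.Q.QPU

/-!
P165: blow-ups. In `blow G m` every vertex of `G` is replaced by `m` vertices, and two vertices
are adjacent iff their projections are adjacent in `G`.
-/

open Finset

namespace Vale.Agent.P165

variable {V : Type*}

/-- the `m`-fold blow-up of `G`: `(x, i)` and `(y, j)` are adjacent iff `x` and `y` are adjacent
in `G` -/
def blow (G : SimpleGraph V) (m : ℕ) : SimpleGraph (V × Fin m) where
  Adj x y := G.Adj x.1 y.1
  symm := ⟨fun _ _ h => h.symm⟩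
  loopless := ⟨fun _ h => G.loopless.1 _ h⟩

namespace Blow

variable {G : SimpleGraph V} {m : ℕ}

/-- blow-ups are locally finite -/
@[instance_reducible]
noncomputable def blowLF (G : SimpleGraph V) [G.LocallyFinite] (m : ℕ) :
    (blow G m).LocallyFinite := by
  classical
  exact fun x => ((G.neighborFinset x.1 ×ˢ (univ : Finset (Fin m))).finite_toSet.subset
    (fun y hy => by
      have h : G.Adj x.1 y.1 := hy
      rw [mem_coe, mem_product]
      exact ⟨(G.mem_neighborFinset _ _).2 h, mem_univ _⟩)).fintype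

theorem nbr [G.LocallyFinite] [(blow G m).LocallyFinite] (x : V × Fin m) :
    (blow G m).neighborFinset x = G.neighborFinset x.1 ×ˢ (univ : Finset (Fin m)) := by
  ext y
  rw [SimpleGraph.mem_neighborFinset, mem_product, SimpleGraph.mem_neighborFinset]
  exact ⟨fun h => ⟨h, mem_univ _⟩, fun h => h.1⟩

theorem degree_eq [G.LocallyFinite] [(blow G m).LocallyFinite] (x : V × Fin m) :
    (blow G m).degree x = G.degree x.1 * m := by
  rw [← SimpleGraph.card_neighborFinset_eq_degree, nbr, card_product, card_univ, Fintype.card_fin,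
    SimpleGraph.card_neighborFinset_eq_degree]

theorem nw_eq [DecidableEq V] [G.LocallyFinite] [(blow G m).LocallyFinite] (k : ℕ)
    (x y : V × Fin m) :
    nw (blow G m) (k + 1) x y = (m : ℝ) ^ k * nw G (k + 1) x.1 y.1 := by
  induction k generalizing x with
  | zero =>
    rw [nw, nbr, sum_product, pow_zero, one_mul, nw]
    refine sum_congr rfl fun z _ => ?_
    simp only [nw]
    have h1 : ∀ i : Fin m, (if (z, i) = y then (1 : ℝ) else 0) =
        if i = y.2 then (if z = y.1 then 1 else 0) else 0 := by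
      intro i
      by_cases h2 : i = y.2
      · by_cases h3 : z = y.1
        · rw [if_pos h2, if_pos h3, if_pos (Prod.ext h3 h2)]
        · rw [if_pos h2, if_neg h3, if_neg (fun h => h3 (congrArg Prod.fst h))]
      · rw [if_neg h2, if_neg (fun h => h2 (congrArg Prod.snd h))]
    rw [sum_congr rfl (fun i _ => h1 i), sum_ite_eq' univ y.2, if_pos (mem_univ _)]
  | succ k ih =>
    rw [nw, nbr, sum_product]
    have h1 : ∀ z ∈ G.neighborFinset x.1, ∑ i : Fin m, nw (blow G m) (k + 1) (z, i) y =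
        (m : ℝ) ^ (k + 1) * nw G (k + 1) z y.1 := by
      intro z _
      rw [sum_congr rfl (fun i _ => ih (z, i))]
      show ∑ _i : Fin m, (m : ℝ) ^ k * nw G (k + 1) z y.1 = _
      rw [sum_const, card_univ, Fintype.card_fin, nsmul_eq_mul, pow_succ]
      ring
    rw [sum_congr rfl h1, ← mul_sum]
    rfl

theorem connected [Infinite V] (hG : G.Connected) (hm : 0 < m) : (blow G m).Connected := by
  obtain ⟨o⟩ := hG.nonempty
  have hstep : ∀ (x y : V) (i j : Fin m), G.Adj x y → (blow G m).Reachable (x, i) (y, j) := by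
    intro x y i j h
    exact SimpleGraph.Adj.reachable (G := blow G m) h
  have hex : ∀ x, ∃ z, G.Adj x z := by
    intro x
    obtain ⟨y, hy⟩ := exists_ne x
    obtain ⟨w⟩ := hG.preconnected x y
    cases w with
    | nil => exact absurd rfl hy
    | cons h _ => exact ⟨_, h⟩
  have key : ∀ x y : V, ∀ i j : Fin m, (blow G m).Reachable (x, i) (y, j) := by
    intro x y
    have h := (SimpleGraph.reachable_iff_reflTransGen x y).1 (hG.preconnected x y)
    induction h with
    | refl =>
      intro i j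
      obtain ⟨z, hz⟩ := hex x
      exact (hstep x z i i hz).trans (hstep z x i j hz.symm)
    | tail _ hbc ih =>
      intro i j
      exact (ih i i).trans (hstep _ _ i j hbc)
  have : Nonempty (V × Fin m) := ⟨(o, ⟨0, hm⟩)⟩
  exact ⟨fun x y => key x.1 y.1 x.2 y.2⟩

/-- an automorphism of `G` acts on the blow-up -/
def liftIso (f : G ≃g G) (m : ℕ) : blow G m ≃g blow G m where
  toEquiv := Equiv.prodCongr f.toEquiv (Equiv.refl (Fin m))
  map_rel_iff' := by
    intro a b
    exact f.map_adj_iff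

theorem quasi (hq : QT.Quasi G) (m : ℕ) : QT.Quasi (blow G m) := by
  classical
  obtain ⟨T, hT⟩ := hq
  refine ⟨T ×ˢ univ, fun x => ?_⟩
  obtain ⟨y, hy, f, hf⟩ := hT x.1
  refine ⟨(y, x.2), mem_product.2 ⟨hy, mem_univ _⟩, liftIso f m, ?_⟩
  show (f x.1, x.2) = (y, x.2)
  rw [hf]

end Blow

/-- the two forms of quasi-transitivity -/
theorem quasi_iff {G : SimpleGraph V} (hF : QT.Quasi G) :
    ∃ T : Finset V, ∀ x, ∃ t ∈ T, ∃ f : G ≃g G, f t = x := by
  obtain ⟨T, hT⟩ := hF
  refine ⟨T, fun x => ?_⟩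
  obtain ⟨y, hy, f, hf⟩ := hT x
  refine ⟨y, hy, f.symm, ?_⟩
  rw [← hf]
  exact f.symm_apply_apply x

/-- **Blow-ups.** For an infinite connected quasi-transitive `d`-regular graph with spectral
radius at most `1 - δ`, all blow-ups `blow G m` with `54 ≤ δ ^ 3 d m` have `p_c < p_u`. -/
theorem blow_main [DecidableEq V] [Infinite V] {G : SimpleGraph V} [G.LocallyFinite]
    (hG : G.Connected) (hF : QT.Quasi G) {d : ℕ} (hreg : G.IsRegularOfDegree d) {δ : ℝ}
    (h0 : 0 < δ) (h1 : δ ≤ 1) (hret : ∀ k x, nw G k x x ≤ ((1 - δ) * d) ^ k) {m : ℕ}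
    (hm : 54 ≤ δ ^ 3 * (d * m : ℕ)) : pc (blow G m) < pu (blow G m) := by
  let _ := Blow.blowLF G m
  have hm0 : 0 < m := by
    rcases Nat.eq_zero_or_pos m with h | h
    · rw [h, Nat.mul_zero, Nat.cast_zero, mul_zero] at hm
      linarith
    · exact h
  have : Nonempty (Fin m) := ⟨⟨0, hm0⟩⟩
  have : Infinite (V × Fin m) := inferInstance
  refine main_spectral (Blow.connected hG hm0) (quasi_iff (Blow.quasi hF m))
    (d := d * m) (fun x => by rw [Blow.degree_eq, hreg x.1]) h0 hm ?_
  intro k x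
  cases k with
  | zero => simp [nw]
  | succ k =>
    rw [Blow.nw_eq]
    have h2 := hret (k + 1) x.1
    have hm1 : (1 : ℝ) ≤ m := by exact_mod_cast hm0
    have h3 : (m : ℝ) ^ k ≤ (m : ℝ) ^ (k + 1) := pow_le_pow_right₀ hm1 (Nat.le_succ k)
    have h4 : 0 ≤ ((1 - δ) * (d : ℝ)) ^ (k + 1) :=
      pow_nonneg (mul_nonneg (by linarith) (Nat.cast_nonneg d)) _
    calc (m : ℝ) ^ k * nw G (k + 1) x.1 x.1 ≤ (m : ℝ) ^ k * ((1 - δ) * d) ^ (k + 1) :=
          mul_le_mul_of_nonneg_left h2 (by positivity)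
      _ ≤ (m : ℝ) ^ (k + 1) * ((1 - δ) * d) ^ (k + 1) := mul_le_mul_of_nonneg_right h3 h4
      _ = ((1 - δ) * ((d * m : ℕ) : ℝ)) ^ (k + 1) := by
          rw [← mul_pow]
          congr 1
          push_cast
          ring

/-- **Blow-ups of nonamenable regular graphs.** -/
theorem blow_nonamenable [DecidableEq V] [Infinite V] {G : SimpleGraph V} [G.LocallyFinite]
    (hG : G.Connected) (hF : QT.Quasi G) {d : ℕ} (hreg : G.IsRegularOfDegree d) {h : ℝ}
    (h0 : 0 < h) (hA : ∀ A : Finset V, h * (A.card : ℝ) ≤ ((Pow.vbd G A).card : ℝ)) :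
    ∃ m₀ : ℕ, ∀ m, m₀ ≤ m → pc (blow G m) < pu (blow G m) := by
  obtain ⟨o⟩ := hG.nonempty
  -- edge boundary
  have hE : ∀ A : Finset V, h * A.card ≤ (ebd G A : ℝ) := by
    intro A
    refine (hA A).trans ?_
    have h2 : (Pow.vbd G A).card ≤ ebd G A := by
      have h3 : Pow.vbd G A = A.biUnion (fun x => G.neighborFinset x \ A) := by
        ext y
        simp only [Pow.vbd, mem_sdiff, mem_biUnion]
        constructor
        · rintro ⟨⟨x, hx, hxy⟩, hy⟩
          exact ⟨x, hx, hxy, hy⟩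
        · rintro ⟨x, hx, hxy, hy⟩
          exact ⟨⟨x, hx, hxy⟩, hy⟩
      rw [h3]
      exact card_biUnion_le
    exact_mod_cast h2
  have hd0 : 0 < d := by
    have h2 := hE {o}
    rw [card_singleton, Nat.cast_one, mul_one] at h2
    have h3 : ebd G {o} ≤ d := by
      unfold ebd
      rw [sum_singleton]
      refine (card_le_card sdiff_subset).trans ?_
      rw [SimpleGraph.card_neighborFinset_eq_degree, hreg o]
    have h4 : (ebd G {o} : ℝ) ≤ d := by exact_mod_cast h3
    have h5 : (0 : ℝ) < d := by linarith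
    exact_mod_cast h5
  have hdR : (0 : ℝ) < d := by exact_mod_cast hd0
  set s : ℝ := Real.sqrt ((d : ℝ) ^ 2 - h ^ 2) with hs
  have hsd : s < d := by
    rw [hs, Real.sqrt_lt' hdR]
    have : 0 < h ^ 2 := by positivity
    linarith
  set δ : ℝ := 1 - s / d with hδ
  have hδ0 : 0 < δ := by
    rw [hδ, sub_pos, div_lt_one hdR]
    exact hsd
  have hδ1 : δ ≤ 1 := by
    have : 0 ≤ s / d := div_nonneg (Real.sqrt_nonneg _) hdR.le
    linarith
  have hsd2 : (1 - δ) * d = s := by
    rw [hδ]
    field_simp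
    ring
  obtain ⟨m₀, hm₀⟩ := exists_nat_ge (54 / δ ^ 3)
  refine ⟨m₀, fun m hm => blow_main hG hF hreg hδ0 hδ1 (fun k x => ?_) ?_⟩
  · rw [hsd2]
    exact CH.nw_le G d hreg h h0.le hE k x x
  · have h3 : 0 < δ ^ 3 := by positivity
    rw [div_le_iff₀ h3] at hm₀
    have h4 : (m₀ : ℝ) ≤ m := by exact_mod_cast hm
    have h5 : (1 : ℝ) ≤ d := by exact_mod_cast hd0
    push_cast
    have h6 : (m : ℝ) ≤ d * m := by
      have : (0 : ℝ) ≤ m := Nat.cast_nonneg m
      nlinarith
    nlinarith

end Vale.Agent.P165
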