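import Mathlib
import Vale.Agent.P165.Defs

/-!
# P165: calculus of `ex` and `pr`
-/

open Finset

namespace Vale.Agent.P165.ExB

open Vale.Agent.P165

variable {ι : Type*}

theorem ex_empty (p : ℝ) (f : Finset ι → ℝ) : ex p ∅ f = f ∅ := by
  simp [ex]

theorem ex_congr (p : ℝ) {E : Finset ι} {f g : Finset ι → ℝ} (h : ∀ ω ⊆ E, f ω = g ω) :
    ex p E f = ex p E g := by
  unfold ex
  exact sum_congr rfl fun ω hω => by rw [h ω (mem_powerset.1 hω)]

theorem ex_add (p : ℝ) (E : Finset ι) (f g : Finset ι → ℝ) :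
    ex p E (fun ω => f ω + g ω) = ex p E f + ex p E g := by
  unfold ex
  rw [← sum_add_distrib]
  exact sum_congr rfl fun ω _ => by ring

theorem ex_sub (p : ℝ) (E : Finset ι) (f g : Finset ι → ℝ) :
    ex p E (fun ω => f ω - g ω) = ex p E f - ex p E g := by
  unfold ex
  rw [← sum_sub_distrib]
  exact sum_congr rfl fun ω _ => by ring

theorem ex_const_mul (p c : ℝ) (E : Finset ι) (f : Finset ι → ℝ) :
    ex p E (fun ω => c * f ω) = c * ex p E f := by
  unfold ex
  rw [mul_sum]
  exact sum_congr rfl fun ω _ => by ring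

theorem ex_sum {κ : Type*} (p : ℝ) (E : Finset ι) (s : Finset κ) (f : κ → Finset ι → ℝ) :
    ex p E (fun ω => ∑ k ∈ s, f k ω) = ∑ k ∈ s, ex p E (f k) := by
  unfold ex
  rw [sum_comm]
  exact sum_congr rfl fun ω _ => by rw [mul_sum]

theorem weight_nonneg {p : ℝ} (h0 : 0 ≤ p) (h1 : p ≤ 1) (a b : ℕ) :
    0 ≤ p ^ a * (1 - p) ^ b :=
  mul_nonneg (pow_nonneg h0 _) (pow_nonneg (by linarith) _)

theorem ex_mono {p : ℝ} (h0 : 0 ≤ p) (h1 : p ≤ 1) {E : Finset ι} {f g : Finset ι → ℝ}
    (h : ∀ ω ⊆ E, f ω ≤ g ω) : ex p E f ≤ ex p E g := by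
  unfold ex
  exact sum_le_sum fun ω hω => mul_le_mul_of_nonneg_left (h ω (mem_powerset.1 hω))
    (weight_nonneg h0 h1 _ _)

theorem ind_nonneg (P : Prop) : 0 ≤ ind P := by
  unfold ind; split_ifs <;> norm_num

theorem ind_le_one (P : Prop) : ind P ≤ 1 := by
  unfold ind; split_ifs <;> norm_num

theorem ind_true {P : Prop} (h : P) : ind P = 1 := by
  unfold ind; rw [if_pos h]

theorem ind_false {P : Prop} (h : ¬ P) : ind P = 0 := by
  unfold ind; rw [if_neg h]

theorem ind_mono {P Q : Prop} (h : P → Q) : ind P ≤ ind Q := by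
  by_cases hP : P
  · rw [ind_true hP, ind_true (h hP)]
  · rw [ind_false hP]; exact ind_nonneg Q

theorem ind_and (P Q : Prop) : ind (P ∧ Q) = ind P * ind Q := by
  by_cases hP : P <;> by_cases hQ : Q
  · rw [ind_true hP, ind_true hQ, ind_true ⟨hP, hQ⟩, mul_one]
  · rw [ind_false hQ, ind_false (fun h => hQ h.2), mul_zero]
  · rw [ind_false hP, ind_false (fun h => hP h.1), zero_mul]
  · rw [ind_false hP, ind_false (fun h => hP h.1), zero_mul]

section dec
variable [DecidableEq ι]

theorem ex_insert (p : ℝ) {E : Finset ι} {e : ι} (he : e ∉ E) (f : Finset ι → ℝ) :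
    ex p (insert e E) f = p * ex p E (fun ω => f (insert e ω)) + (1 - p) * ex p E f := by
  unfold ex
  rw [sum_powerset_insert he, mul_sum, mul_sum, add_comm]
  congr 1
  · refine sum_congr rfl fun ω hω => ?_
    have heω : e ∉ ω := fun h => he (mem_powerset.1 hω h)
    rw [card_insert_of_notMem he, card_insert_of_notMem heω, Nat.add_sub_add_right, pow_succ]
    ring
  · refine sum_congr rfl fun ω hω => ?_
    have hc := card_le_card (mem_powerset.1 hω)
    rw [card_insert_of_notMem he, Nat.sub_add_comm hc, pow_succ]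
    ring

theorem ex_one (p : ℝ) (E : Finset ι) : ex p E (fun _ => 1) = 1 := by
  induction E using Finset.induction_on with
  | empty => rw [ex_empty]
  | insert e E he ih => rw [ex_insert p he, ih]; ring

theorem ex_const (p c : ℝ) (E : Finset ι) : ex p E (fun _ => c) = c := by
  have h := ex_const_mul p c E (fun _ => 1)
  rw [ex_one] at h
  simpa using h

theorem ex_nonneg {p : ℝ} (h0 : 0 ≤ p) (h1 : p ≤ 1) {E : Finset ι} {f : Finset ι → ℝ}
    (h : ∀ ω ⊆ E, 0 ≤ f ω) : 0 ≤ ex p E f := by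
  have := ex_mono h0 h1 (f := fun _ => 0) h
  rwa [ex_const] at this

/-- Fubini. -/
theorem ex_union (p : ℝ) (E F : Finset ι) (h : Disjoint E F) (f : Finset ι → ℝ) :
    ex p (E ∪ F) f = ex p F (fun η => ex p E (fun ω => f (ω ∪ η))) := by
  induction F using Finset.induction_on generalizing f with
  | empty =>
    rw [union_empty, ex_empty]
    exact ex_congr p fun ω _ => by rw [union_empty]
  | insert e F he ih =>
    rw [disjoint_insert_right] at h
    have he' : e ∉ E ∪ F := fun h' => (mem_union.1 h').elim h.1 he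
    have h2 : E ∪ insert e F = insert e (E ∪ F) := by
      rw [union_insert]
    rw [h2, ex_insert p he', ex_insert p he, ih h.2, ih h.2]
    congr 2
    refine ex_congr p fun η _ => ex_congr p fun ω _ => ?_
    rw [union_insert]

/-- Independence. -/
theorem ex_mul (p : ℝ) (E F : Finset ι) (h : Disjoint E F) (f g : Finset ι → ℝ)
    (hf : ∀ ω ⊆ E, ∀ η ⊆ F, f (ω ∪ η) = f ω) (hg : ∀ ω ⊆ E, ∀ η ⊆ F, g (ω ∪ η) = g η) :
    ex p (E ∪ F) (fun ω => f ω * g ω) = ex p E f * ex p F g := by
  rw [ex_union p E F h, ← ex_const_mul]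
  refine ex_congr p fun η hη => ?_
  rw [mul_comm, ← ex_const_mul]
  refine ex_congr p fun ω hω => ?_
  rw [hf ω hω η hη, hg ω hω η hη]
  ring

/-- Elements outside `F` do not matter if `f` does not depend on them. -/
theorem ex_restrict (p : ℝ) {E F : Finset ι} (hFE : F ⊆ E) (f : Finset ι → ℝ)
    (hf : ∀ ω ⊆ E, f ω = f (ω ∩ F)) : ex p E f = ex p F f := by
  have h1 : E = (E \ F) ∪ F := (sdiff_union_of_subset hFE).symm
  have hd : Disjoint (E \ F) F := sdiff_disjoint
  conv_lhs => rw [h1]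
  rw [ex_union p _ _ hd]
  refine ex_congr p fun η hη => ?_
  have : ∀ ω ⊆ E \ F, f (ω ∪ η) = f η := by
    intro ω hω
    rw [hf (ω ∪ η) (union_subset (hω.trans sdiff_subset) (hη.trans hFE)),
      union_inter_distrib_right]
    have h2 : ω ∩ F = ∅ := by
      rw [← disjoint_iff_inter_eq_empty]
      exact hd.mono_left hω
    rw [h2, empty_union, inter_eq_left.2 hη]
  rw [ex_congr p this, ex_const]

/-- An element `e` of `E` and an event that depends only on `F`, `e ∉ F`. -/
theorem ex_edge (p : ℝ) {E F : Finset ι} {e : ι} (heE : e ∈ E) (hFE : F ⊆ E) (heF : e ∉ F)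
    (f : Finset ι → ℝ) (hf : ∀ ω ⊆ E, f ω = f (ω ∩ F)) :
    ex p E (fun ω => ind (e ∈ ω) * f ω) = p * ex p F f := by
  have hsub : F ⊆ E.erase e := fun x hx => mem_erase.2 ⟨fun h => heF (h ▸ hx), hFE hx⟩
  conv_lhs => rw [← insert_erase heE]
  rw [ex_insert p (notMem_erase e E)]
  have h1 : ex p (E.erase e) (fun ω => ind (e ∈ ω) * f ω) = 0 := by
    rw [ex_congr p (g := fun _ => 0) (fun ω hω => by
      rw [ind_false (fun h => notMem_erase e E (hω h)), zero_mul]), ex_const]
  have h2 : ex p (E.erase e) (fun ω => ind (e ∈ insert e ω) * f (insert e ω)) = ex p F f := by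
    have h3 : ∀ ω ⊆ E.erase e, ind (e ∈ insert e ω) * f (insert e ω) = f ω := by
      intro ω hω
      have hωE : ω ⊆ E := hω.trans (erase_subset _ _)
      rw [ind_true (mem_insert_self e ω), one_mul, hf _ (insert_subset heE hωE), hf ω hωE,
        insert_inter_of_notMem heF]
    rw [ex_congr p h3]
    exact ex_restrict p hsub f fun ω hω => hf ω (hω.trans (erase_subset _ _))
  rw [h1, h2]
  ring

/-- Two different elements of `E` and an event that depends only on `F`. -/
theorem ex_edge2 (p : ℝ) {E F : Finset ι} {e e' : ι} (hne : e ≠ e') (heE : e ∈ E)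
    (heE' : e' ∈ E) (hFE : F ⊆ E) (heF : e ∉ F) (heF' : e' ∉ F)
    (f : Finset ι → ℝ) (hf : ∀ ω ⊆ E, f ω = f (ω ∩ F)) :
    ex p E (fun ω => ind (e ∈ ω) * (ind (e' ∈ ω) * f ω)) = p * (p * ex p F f) := by
  have hsub : F ⊆ E.erase e := fun x hx => mem_erase.2 ⟨fun h => heF (h ▸ hx), hFE hx⟩
  rw [ex_edge p heE (erase_subset e E) (notMem_erase e E) (fun ω => ind (e' ∈ ω) * f ω)]
  · rw [ex_edge p (mem_erase.2 ⟨hne.symm, heE'⟩) hsub heF' f
      fun ω hω => hf ω (hω.trans (erase_subset _ _))]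
  · intro ω hω
    have h1 : (e' ∈ ω) = (e' ∈ ω ∩ E.erase e) := by
      apply propext
      constructor
      · intro h; exact mem_inter.2 ⟨h, mem_erase.2 ⟨hne.symm, heE'⟩⟩
      · intro h; exact (mem_inter.1 h).1
    rw [← h1, hf ω hω, hf (ω ∩ E.erase e) (inter_subset_left.trans hω), inter_assoc,
      inter_eq_right.2 hsub]

end dec

end Vale.Agent.P165.ExB
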