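import Vale.Agent.P165.Defs

/-! P165: basic facts on finite Bernoulli expectations and on the connection relation. -/

open Finset

namespace Vale.Agent.P165

namespace FP

section Ex

variable {α : Type*} {p : ℝ} {F F₁ : Finset α}

theorem ind_nonneg (P : Prop) : 0 ≤ ind P := by
  unfold ind; split_ifs <;> norm_num

theorem ind_le_one (P : Prop) : ind P ≤ 1 := by
  unfold ind; split_ifs <;> norm_num

theorem ind_of {P : Prop} (h : P) : ind P = 1 := by
  unfold ind; rw [if_pos h]

theorem ind_not {P : Prop} (h : ¬ P) : ind P = 0 := by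
  unfold ind; rw [if_neg h]

theorem ind_mono {P Q : Prop} (h : P → Q) : ind P ≤ ind Q := by
  by_cases hP : P
  · rw [ind_of hP, ind_of (h hP)]
  · rw [ind_not hP]; exact ind_nonneg Q

theorem ex_congr {f g : Finset α → ℝ} (h : ∀ ω ⊆ F, f ω = g ω) : ex p F f = ex p F g := by
  unfold ex
  refine Finset.sum_congr rfl fun ω hω => ?_
  rw [h ω (Finset.mem_powerset.1 hω)]

theorem ex_mono (hp0 : 0 ≤ p) (hp1 : p ≤ 1) {f g : Finset α → ℝ} (h : ∀ ω ⊆ F, f ω ≤ g ω) :
    ex p F f ≤ ex p F g := by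
  unfold ex
  refine Finset.sum_le_sum fun ω hω => ?_
  have h1 : 0 ≤ p ^ ω.card * (1 - p) ^ (F.card - ω.card) :=
    mul_nonneg (pow_nonneg hp0 _) (pow_nonneg (by linarith) _)
  exact mul_le_mul_of_nonneg_left (h ω (Finset.mem_powerset.1 hω)) h1

theorem ex_add (f g : Finset α → ℝ) : ex p F (fun ω => f ω + g ω) = ex p F f + ex p F g := by
  unfold ex
  rw [← Finset.sum_add_distrib]
  exact Finset.sum_congr rfl fun ω _ => by ring

theorem ex_sub (f g : Finset α → ℝ) : ex p F (fun ω => f ω - g ω) = ex p F f - ex p F g := by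
  unfold ex
  rw [← Finset.sum_sub_distrib]
  exact Finset.sum_congr rfl fun ω _ => by ring

theorem ex_mul (c : ℝ) (f : Finset α → ℝ) : ex p F (fun ω => c * f ω) = c * ex p F f := by
  unfold ex
  rw [Finset.mul_sum]
  exact Finset.sum_congr rfl fun ω _ => by ring

theorem ex_sum {ι : Type*} (I : Finset ι) (f : ι → Finset α → ℝ) :
    ex p F (fun ω => ∑ i ∈ I, f i ω) = ∑ i ∈ I, ex p F (f i) := by
  unfold ex
  rw [Finset.sum_comm]
  exact Finset.sum_congr rfl fun ω _ => by rw [Finset.mul_sum]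

theorem ex_insert [DecidableEq α] {e : α} (he : e ∉ F) (f : Finset α → ℝ) :
    ex p (insert e F) f = p * ex p F (fun ω => f (insert e ω)) + (1 - p) * ex p F f := by
  unfold ex
  rw [Finset.sum_powerset_insert he, Finset.mul_sum, Finset.mul_sum, add_comm]
  congr 1
  · refine Finset.sum_congr rfl fun ω hω => ?_
    have hω' := Finset.mem_powerset.1 hω
    have h1 : e ∉ ω := fun h => he (hω' h)
    rw [Finset.card_insert_of_notMem h1, Finset.card_insert_of_notMem he]
    have h2 : F.card + 1 - (ω.card + 1) = F.card - ω.card := by omega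
    rw [h2, pow_succ]
    ring
  · refine Finset.sum_congr rfl fun ω hω => ?_
    have hω' := Finset.mem_powerset.1 hω
    rw [Finset.card_insert_of_notMem he]
    have h2 : F.card + 1 - ω.card = (F.card - ω.card) + 1 := by
      have := Finset.card_le_card hω'
      omega
    rw [h2, pow_succ]
    ring

theorem ex_inter [DecidableEq α] (h : F₁ ⊆ F) (f : Finset α → ℝ) :
    ex p F (fun ω => f (ω ∩ F₁)) = ex p F₁ f := by
  have key : ∀ E : Finset α, Disjoint F₁ E → ex p (F₁ ∪ E) (fun ω => f (ω ∩ F₁)) = ex p F₁ f := by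
    intro E
    induction E using Finset.induction_on with
    | empty =>
      intro _
      rw [Finset.union_empty]
      exact ex_congr fun ω hω => by rw [Finset.inter_eq_left.2 hω]
    | insert e E he ih =>
      intro hd
      rw [Finset.disjoint_insert_right] at hd
      have h1 : e ∉ F₁ ∪ E := by
        rw [Finset.mem_union]
        exact fun h => h.elim hd.1 he
      rw [Finset.union_insert, ex_insert h1]
      have h2 : ∀ ω : Finset α, insert e ω ∩ F₁ = ω ∩ F₁ := fun ω =>
        Finset.insert_inter_of_notMem hd.1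
      simp only [h2]
      rw [ih hd.2]
      ring
  have h1 := key (F \ F₁) Finset.disjoint_sdiff
  rwa [Finset.union_sdiff_of_subset h] at h1

theorem ex_const (c : ℝ) : ex p F (fun _ => c) = c := by
  classical
  have h := ex_inter (p := p) (F := F) (F₁ := ∅) (Finset.empty_subset _) (fun _ => c)
  rw [h]
  simp [ex]

theorem pr_congr {A B : Finset α → Prop} (h : ∀ ω ⊆ F, (A ω ↔ B ω)) : pr p F A = pr p F B :=
  ex_congr fun ω hω => by rw [propext (h ω hω)]

theorem pr_mono (hp0 : 0 ≤ p) (hp1 : p ≤ 1) {A B : Finset α → Prop} (h : ∀ ω ⊆ F, A ω → B ω) :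
    pr p F A ≤ pr p F B :=
  ex_mono hp0 hp1 fun ω hω => ind_mono (h ω hω)

theorem pr_nonneg (hp0 : 0 ≤ p) (hp1 : p ≤ 1) (A : Finset α → Prop) : 0 ≤ pr p F A := by
  have h := ex_mono (F := F) hp0 hp1 (f := fun _ => 0) (g := fun ω => ind (A ω))
    fun ω _ => ind_nonneg _
  rwa [ex_const] at h

theorem pr_le_one (hp0 : 0 ≤ p) (hp1 : p ≤ 1) (A : Finset α → Prop) : pr p F A ≤ 1 := by
  have h := ex_mono (F := F) hp0 hp1 (g := fun _ => 1) (f := fun ω => ind (A ω))
    fun ω _ => ind_le_one _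
  rwa [ex_const] at h

theorem pr_true {A : Finset α → Prop} (h : ∀ ω ⊆ F, A ω) : pr p F A = 1 := by
  unfold pr
  rw [ex_congr (g := fun _ => 1) fun ω hω => ind_of (h ω hω), ex_const]

theorem pr_false {A : Finset α → Prop} (h : ∀ ω ⊆ F, ¬ A ω) : pr p F A = 0 := by
  unfold pr
  rw [ex_congr (g := fun _ => 0) fun ω hω => ind_not (h ω hω), ex_const]

theorem pr_or_le (hp0 : 0 ≤ p) (hp1 : p ≤ 1) (A B : Finset α → Prop) :
    pr p F (fun ω => A ω ∨ B ω) ≤ pr p F A + pr p F B := by
  unfold pr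
  rw [← ex_add]
  refine ex_mono hp0 hp1 fun ω _ => ?_
  by_cases hA : A ω
  · rw [ind_of (Or.inl hA), ind_of hA]
    linarith [ind_nonneg (B ω)]
  · by_cases hB : B ω
    · rw [ind_of (Or.inr hB), ind_of hB]
      linarith [ind_nonneg (A ω)]
    · rw [ind_not (by tauto), ind_not hA, ind_not hB]
      norm_num

theorem pr_exists_le (hp0 : 0 ≤ p) (hp1 : p ≤ 1) {ι : Type*} (I : Finset ι)
    (A : ι → Finset α → Prop) :
    pr p F (fun ω => ∃ i ∈ I, A i ω) ≤ ∑ i ∈ I, pr p F (A i) := by
  classical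
  induction I using Finset.induction_on with
  | empty =>
    rw [Finset.sum_empty]
    exact (pr_false fun ω _ => by simp).le
  | insert i I hi ih =>
    rw [Finset.sum_insert hi]
    have h1 : pr p F (fun ω => ∃ j ∈ insert i I, A j ω) ≤
        pr p F (fun ω => A i ω ∨ ∃ j ∈ I, A j ω) := by
      refine pr_mono hp0 hp1 fun ω _ h => ?_
      obtain ⟨j, hj, hA⟩ := h
      rcases Finset.mem_insert.1 hj with rfl | hj
      · exact Or.inl hA
      · exact Or.inr ⟨j, hj, hA⟩
    exact h1.trans ((pr_or_le hp0 hp1 _ _).trans (by linarith))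

theorem pr_inter [DecidableEq α] (h : F₁ ⊆ F) (A : Finset α → Prop) :
    pr p F (fun ω => A (ω ∩ F₁)) = pr p F₁ A :=
  ex_inter h (fun ω => ind (A ω))

/-- an element outside `F₁` is independent of the events that depend on `F₁` only -/
theorem pr_edge [DecidableEq α] {e : α} (heF : e ∈ F) (he : e ∉ F₁) (h : F₁ ⊆ F)
    (A : Finset α → Prop) :
    pr p F (fun ω => e ∈ ω ∧ A (ω ∩ F₁)) = p * pr p F₁ A := by
  have hF : F = insert e (F.erase e) := (Finset.insert_erase heF).symm
  have hs : F₁ ⊆ F.erase e := fun x hx =>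
    Finset.mem_erase.2 ⟨fun h' => he (h' ▸ hx), h hx⟩
  have h1 : e ∉ F.erase e := Finset.notMem_erase e F
  unfold pr
  rw [hF, ex_insert h1]
  have h2 : ex p (F.erase e) (fun ω => ind (e ∈ ω ∧ A (ω ∩ F₁))) = 0 := by
    rw [ex_congr (g := fun _ => 0), ex_const]
    intro ω hω
    exact ind_not fun h' => h1 (hω h'.1)
  have h3 : ex p (F.erase e) (fun ω => ind (e ∈ insert e ω ∧ A (insert e ω ∩ F₁))) =
      ex p F₁ (fun ω => ind (A ω)) := by
    rw [← ex_inter hs (fun ω => ind (A ω))]
    refine ex_congr fun ω _ => ?_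
    rw [Finset.insert_inter_of_notMem he]
    simp only [Finset.mem_insert_self, true_and]
  rw [h2, h3]
  ring

end Ex

end FP

/-! ### The connection relation -/

section Conn

variable {V : Type*} {ω ω' : Finset (Sym2 V)} {S S' : Finset V} {x y v : V}

theorem Cn.left_mem (h : Cn ω S x y) : x ∈ S := h.1

theorem Cn.right_mem (h : Cn ω S x y) : y ∈ S := by
  obtain ⟨hx, h⟩ := h
  induction h with
  | refl => exact hx
  | tail _ h2 _ => exact h2.2

theorem Cn.mono (h : Cn ω S x y) (hω : ω ⊆ ω') (hS : S ⊆ S') : Cn ω' S' x y := by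
  obtain ⟨hx, h⟩ := h
  exact ⟨hS hx, Relation.ReflTransGen.mono (fun a b hab => ⟨hω hab.1, hS hab.2⟩) _ _ h⟩

theorem Cn.refl (hx : x ∈ S) : Cn ω S x x := ⟨hx, Relation.ReflTransGen.refl⟩

theorem Cn.head {z : V} (hx : x ∈ S) (he : s(x, z) ∈ ω) (h : Cn ω S z y) : Cn ω S x y :=
  ⟨hx, Relation.ReflTransGen.head ⟨he, h.1⟩ h.2⟩

/-- peeling: a path from `x` to `y ≠ v` either avoids `v` or passes through `v` -/
theorem Cn.peel_aux [DecidableEq V] (h : Cn ω S x y) (hy : y ≠ v) :
    Cn ω (S.erase v) x y ∨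
      ∃ z ∈ S.erase v, s(v, z) ∈ ω ∧ Cn ω (S.erase v) z y := by
  have hyS := h.right_mem
  obtain ⟨hx, h⟩ := h
  induction h using Relation.ReflTransGen.head_induction_on with
  | refl => exact Or.inl (Cn.refl (Finset.mem_erase.2 ⟨hy, hyS⟩))
  | @head a b hab _ ih =>
    rcases ih hab.2 with h1 | h1
    · by_cases ha : a = v
      · subst ha
        exact Or.inr ⟨b, h1.left_mem, hab.1, h1⟩
      · exact Or.inl (h1.head (Finset.mem_erase.2 ⟨ha, hx⟩) hab.1)
    · exact Or.inr h1

/-- peeling the first vertex -/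
theorem Cn.peel [DecidableEq V] (h : Cn ω S v y) (hy : y ≠ v) :
    ∃ z ∈ S.erase v, s(v, z) ∈ ω ∧ Cn ω (S.erase v) z y := by
  rcases h.peel_aux hy with h1 | h1
  · exact absurd h1.left_mem (Finset.notMem_erase v S)
  · exact h1

variable {G : SimpleGraph V}

theorem mem_ed {x z : V} : s(x, z) ∈ ed G S ↔ x ∈ S ∧ z ∈ S ∧ G.Adj x z := by
  classical
  simp only [ed, Finset.mem_filter, Finset.mk_mem_sym2_iff, SimpleGraph.mem_edgeSet]
  tauto

theorem ed_mono (h : S ⊆ S') : ed G S ⊆ ed G S' := by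
  intro e
  induction e with
  | h x z =>
    rw [mem_ed, mem_ed]
    exact fun h' => ⟨h h'.1, h h'.2.1, h'.2.2⟩

/-- the connection inside `S` depends on the edges inside `S` only -/
theorem Cn_inter [DecidableEq V] {T : Finset V} (hω : ω ⊆ ed G T) :
    Cn (ω ∩ ed G S) S x y ↔ Cn ω S x y := by
  constructor
  · exact fun h => h.mono Finset.inter_subset_left subset_rfl
  · rintro ⟨hx, h⟩
    induction h using Relation.ReflTransGen.head_induction_on with
    | refl => exact Cn.refl hx
    | @head a b hab _ ih =>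
      refine (ih hab.2).head hx (Finset.mem_inter.2 ⟨hab.1, ?_⟩)
      rw [mem_ed]
      exact ⟨hx, hab.2, (mem_ed.1 (hω hab.1)).2.2⟩

end Conn

end Vale.Agent.P165
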