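import Vale.Agent.P165.FinPerc

/-! P165, rows U1 and U2: connection probabilities and the Green function. -/

open Finset

namespace Vale.Agent.P165

namespace U12

set_option linter.unusedSectionVars false

variable {V : Type*} [DecidableEq V] {G : SimpleGraph V} [G.LocallyFinite] {p : ℝ}

theorem nw_nonneg (k : ℕ) (x y : V) : 0 ≤ nw G k x y := by
  induction k generalizing x with
  | zero =>
    rw [nw]
    split_ifs <;> norm_num
  | succ k ih =>
    rw [nw]
    exact Finset.sum_nonneg fun z _ => ih z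

theorem gr_nonneg (h0 : 0 ≤ p) (x y : V) : 0 ≤ gr G p x y :=
  tsum_nonneg fun k => mul_nonneg (pow_nonneg h0 _) (nw_nonneg k x y)

theorem gr_eq (hs : ∀ x y, Summable fun k => p ^ k * nw G k x y) (x y : V) :
    gr G p x y = (if x = y then 1 else 0) + p * ∑ z ∈ G.neighborFinset x, gr G p z y := by
  unfold gr
  rw [(hs x y).tsum_eq_zero_add]
  congr 1
  · simp [nw]
  · rw [← Summable.tsum_finsetSum fun z _ => hs z y, ← tsum_mul_left]
    refine tsum_congr fun k => ?_
    rw [nw, Finset.mul_sum, Finset.mul_sum]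
    exact Finset.sum_congr rfl fun z _ => by rw [pow_succ]; ring

theorem one_le_gr (h0 : 0 ≤ p) (hs : ∀ x y, Summable fun k => p ^ k * nw G k x y) (x : V) :
    1 ≤ gr G p x x := by
  rw [gr_eq hs, if_pos rfl]
  have : 0 ≤ p * ∑ z ∈ G.neighborFinset x, gr G p z x :=
    mul_nonneg h0 (Finset.sum_nonneg fun z _ => gr_nonneg h0 z x)
  linarith

theorem gr_step (hs : ∀ x y, Summable fun k => p ^ k * nw G k x y) {x y : V} (h : x ≠ y) :
    p * ∑ z ∈ G.neighborFinset x, gr G p z y = gr G p x y := by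
  rw [gr_eq hs x y, if_neg h, zero_add]

theorem gr_step_le (hs : ∀ x y, Summable fun k => p ^ k * nw G k x y) (x y : V) :
    p * ∑ z ∈ G.neighborFinset x, gr G p z y ≤ gr G p x y := by
  rw [gr_eq hs x y]
  have : (0 : ℝ) ≤ if x = y then 1 else 0 := by split_ifs <;> norm_num
  linarith

omit [G.LocallyFinite] in
/-- locality -/
theorem pr_local {S T : Finset V} (h : S ⊆ T) (A : Finset (Sym2 V) → Prop)
    (hA : ∀ ω ⊆ ed G T, (A (ω ∩ ed G S) ↔ A ω)) :
    pr p (ed G T) A = pr p (ed G S) A :=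
  (FP.pr_congr fun ω hω => (hA ω hω).symm).trans (FP.pr_inter (ed_mono h) A)

omit [G.LocallyFinite] in
theorem pr_local_edge {S T : Finset V} (h : S ⊆ T) {v z : V} (hv : v ∈ T) (hvS : v ∉ S)
    (hz : z ∈ T) (hadj : G.Adj v z) (A : Finset (Sym2 V) → Prop)
    (hA : ∀ ω ⊆ ed G T, (A (ω ∩ ed G S) ↔ A ω)) :
    pr p (ed G T) (fun ω => s(v, z) ∈ ω ∧ A ω) = p * pr p (ed G S) A := by
  have h1 : s(v, z) ∈ ed G T := mem_ed.2 ⟨hv, hz, hadj⟩
  have h2 : s(v, z) ∉ ed G S := fun h' => hvS (mem_ed.1 h').1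
  rw [← FP.pr_edge h1 h2 (ed_mono h) A]
  exact FP.pr_congr fun ω hω => by rw [hA ω hω]

omit [G.LocallyFinite] in
theorem tau_nonneg (h0 : 0 ≤ p) (h1 : p ≤ 1) (S : Finset V) (x y : V) : 0 ≤ tau G p S x y :=
  FP.pr_nonneg h0 h1 _

omit [G.LocallyFinite] in
theorem tau_le_one (h0 : 0 ≤ p) (h1 : p ≤ 1) (S : Finset V) (x y : V) : tau G p S x y ≤ 1 :=
  FP.pr_le_one h0 h1 _

omit [G.LocallyFinite] in
theorem tau_of_subset {S T : Finset V} (h : S ⊆ T) (x y : V) :
    pr p (ed G T) (fun ω => Cn ω S x y) = tau G p S x y :=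
  pr_local h _ fun _ hω => Cn_inter hω

omit [G.LocallyFinite] in
theorem tau_mono (h0 : 0 ≤ p) (h1 : p ≤ 1) {S T : Finset V} (h : S ⊆ T) (x y : V) :
    tau G p S x y ≤ tau G p T x y := by
  rw [← tau_of_subset h]
  exact FP.pr_mono h0 h1 fun ω _ hc => hc.mono subset_rfl h

omit [G.LocallyFinite] in
theorem tau_eq_zero_left {S : Finset V} {x y : V} (h : x ∉ S) : tau G p S x y = 0 :=
  FP.pr_false fun _ _ hc => h hc.left_mem

omit [G.LocallyFinite] in
theorem tau_eq_zero_right {S : Finset V} {x y : V} (h : y ∉ S) : tau G p S x y = 0 :=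
  FP.pr_false fun _ _ hc => h hc.right_mem

omit [G.LocallyFinite] in
theorem tau_self {S : Finset V} {x : V} (h : x ∈ S) : tau G p S x x = 1 :=
  FP.pr_true fun _ _ => Cn.refl h

/-- the connection from `v` to `y` inside `S` uses `o` -/
theorem U1_event (h0 : 0 ≤ p) (h1 : p ≤ 1) (hs : ∀ x y, Summable fun k => p ^ k * nw G k x y)
    (S : Finset V) (o v y : V) :
    pr p (ed G S) (fun ω => Cn ω S v y ∧ ¬ Cn ω (S.erase o) v y) ≤
      gr G p v o * tau G p S o y := by
  induction hn : S.card generalizing S v with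
  | zero =>
    have hS : S = ∅ := Finset.card_eq_zero.1 hn
    rw [FP.pr_false]
    · exact mul_nonneg (gr_nonneg h0 _ _) (tau_nonneg h0 h1 _ _ _)
    · intro ω _ h
      have := h.1.left_mem
      rw [hS] at this
      exact absurd this (Finset.notMem_empty v)
  | succ n ih =>
    by_cases hvS : v ∈ S
    swap
    · rw [FP.pr_false]
      · exact mul_nonneg (gr_nonneg h0 _ _) (tau_nonneg h0 h1 _ _ _)
      · exact fun ω _ h => hvS h.1.left_mem
    by_cases hvo : v = o
    · subst hvo
      have h2 : pr p (ed G S) (fun ω => Cn ω S v y ∧ ¬ Cn ω (S.erase v) v y) ≤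
          tau G p S v y := FP.pr_mono h0 h1 fun ω _ h => h.1
      have h3 := one_le_gr h0 hs v
      have h4 := tau_nonneg (G := G) h0 h1 S v y
      nlinarith
    -- peel `v`
    set I : Finset V := (G.neighborFinset v).filter (fun z => z ∈ S.erase v) with hI
    have e1 : pr p (ed G S) (fun ω => Cn ω S v y ∧ ¬ Cn ω (S.erase o) v y) ≤
        pr p (ed G S) (fun ω => ∃ z ∈ I, s(v, z) ∈ ω ∧
          (Cn ω (S.erase v) z y ∧ ¬ Cn ω ((S.erase v).erase o) z y)) := by
      refine FP.pr_mono h0 h1 fun ω hω h => ?_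
      obtain ⟨ha, hb⟩ := h
      have hyv : y ≠ v := by
        rintro rfl
        exact hb (Cn.refl (Finset.mem_erase.2 ⟨hvo, hvS⟩))
      obtain ⟨z, hz, hz1, hz2⟩ := ha.peel hyv
      refine ⟨z, ?_, hz1, hz2, ?_⟩
      · rw [hI, Finset.mem_filter, SimpleGraph.mem_neighborFinset]
        exact ⟨(mem_ed.1 (hω hz1)).2.2, hz⟩
      · intro hc
        apply hb
        refine (hc.mono subset_rfl ?_).head (Finset.mem_erase.2 ⟨hvo, hvS⟩) hz1
        exact Finset.erase_subset_erase _ (Finset.erase_subset _ _)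
    have e2 : ∀ z ∈ I, pr p (ed G S) (fun ω => s(v, z) ∈ ω ∧
        (Cn ω (S.erase v) z y ∧ ¬ Cn ω ((S.erase v).erase o) z y)) ≤
        p * (gr G p z o * tau G p S o y) := by
      intro z hz
      rw [hI, Finset.mem_filter, SimpleGraph.mem_neighborFinset] at hz
      rw [pr_local_edge (Finset.erase_subset v S) hvS (Finset.notMem_erase v S)
        (Finset.mem_of_mem_erase hz.2) hz.1]
      · refine mul_le_mul_of_nonneg_left ?_ h0
        refine (ih (S.erase v) z (by rw [Finset.card_erase_of_mem hvS, hn]; omega)).trans ?_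
        exact mul_le_mul_of_nonneg_left (tau_mono h0 h1 (Finset.erase_subset _ _) _ _)
          (gr_nonneg h0 _ _)
      · intro ω hω
        rw [Cn_inter hω]
        have h5 : Cn (ω ∩ ed G (S.erase v)) ((S.erase v).erase o) z y ↔
            Cn ω ((S.erase v).erase o) z y := by
          constructor
          · exact fun h => h.mono Finset.inter_subset_left subset_rfl
          · intro h
            have h6 := (Cn_inter (S := (S.erase v).erase o) hω).2 h
            exact h6.mono (Finset.inter_subset_inter_left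
              (ed_mono (Finset.erase_subset _ _))) subset_rfl
        rw [h5]
    have e3 := (e1.trans (FP.pr_exists_le h0 h1 I _)).trans (Finset.sum_le_sum e2)
    have e4 : ∑ z ∈ I, p * (gr G p z o * tau G p S o y) ≤
        (p * ∑ z ∈ G.neighborFinset v, gr G p z o) * tau G p S o y := by
      rw [Finset.mul_sum, Finset.sum_mul]
      refine (Finset.sum_le_sum_of_subset_of_nonneg (Finset.filter_subset _ _)
        fun z _ _ => ?_).trans (le_of_eq (Finset.sum_congr rfl fun z _ => by ring))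
      exact mul_nonneg h0 (mul_nonneg (gr_nonneg h0 _ _) (tau_nonneg h0 h1 _ _ _))
    rw [gr_step hs hvo] at e4
    exact e3.trans e4

/-- Row U1. -/
theorem tau_U1 (h0 : 0 ≤ p) (h1 : p ≤ 1) (hs : ∀ x y, Summable fun k => p ^ k * nw G k x y)
    (S : Finset V) (o v y : V) :
    tau G p S v y ≤ tau G p (S.erase o) v y + gr G p v o * tau G p S o y := by
  have h2 := U1_event (G := G) h0 h1 hs S o v y
  have h3 : tau G p S v y ≤ pr p (ed G S) (fun ω => Cn ω (S.erase o) v y ∨
      (Cn ω S v y ∧ ¬ Cn ω (S.erase o) v y)) :=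
    FP.pr_mono h0 h1 fun ω _ h => by tauto
  have h4 := h3.trans (FP.pr_or_le h0 h1 _ _)
  rw [tau_of_subset (Finset.erase_subset o S)] at h4
  linarith

theorem tau_le_gr (h0 : 0 ≤ p) (h1 : p ≤ 1) (hs : ∀ x y, Summable fun k => p ^ k * nw G k x y)
    (S : Finset V) (x y : V) : tau G p S x y ≤ gr G p x y := by
  have h := tau_U1 (G := G) h0 h1 hs S y x y
  rw [tau_eq_zero_right (Finset.notMem_erase y S), zero_add] at h
  refine h.trans ?_
  have := tau_le_one (G := G) h0 h1 S y y
  have h2 := gr_nonneg (G := G) h0 x y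
  nlinarith

/-- Row U2. -/
theorem tau_U2 (h0 : 0 ≤ p) (h1 : p ≤ 1) (hs : ∀ x y, Summable fun k => p ^ k * nw G k x y)
    (S : Finset V) (v v' y : V) :
    pr p (ed G S) (fun ω => Cn ω S v y ∧ Cn ω S v' y) ≤
      ∑ w ∈ S, gr G p v w * gr G p v' w * tau G p S w y := by
  induction hn : S.card generalizing S v v' with
  | zero =>
    have hS : S = ∅ := Finset.card_eq_zero.1 hn
    subst hS
    rw [FP.pr_false, Finset.sum_empty]
    exact fun ω _ h => absurd h.1.left_mem (Finset.notMem_empty v)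
  | succ n ih =>
    have hnn : ∀ w ∈ S, 0 ≤ gr G p v w * gr G p v' w * tau G p S w y := fun w _ =>
      mul_nonneg (mul_nonneg (gr_nonneg h0 _ _) (gr_nonneg h0 _ _)) (tau_nonneg h0 h1 _ _ _)
    by_cases hvS : v ∈ S
    swap
    · rw [FP.pr_false]
      · exact Finset.sum_nonneg hnn
      · exact fun ω _ h => hvS h.1.left_mem
    by_cases hvy : y = v
    · subst hvy
      have e1 : pr p (ed G S) (fun ω => Cn ω S y y ∧ Cn ω S v' y) ≤ tau G p S v' y :=
        FP.pr_mono h0 h1 fun ω _ h => h.2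
      have e2 := tau_le_gr (G := G) h0 h1 hs S v' y
      have e3 := Finset.single_le_sum hnn hvS
      rw [tau_self hvS, mul_one] at e3
      have e4 := one_le_gr h0 hs (G := G) y
      have e5 := gr_nonneg (G := G) h0 v' y
      nlinarith
    set I : Finset V := (G.neighborFinset v).filter (fun z => z ∈ S.erase v) with hI
    have e1 : pr p (ed G S) (fun ω => Cn ω S v y ∧ Cn ω S v' y) ≤
        pr p (ed G S) (fun ω => (∃ z ∈ I, s(v, z) ∈ ω ∧
          (Cn ω (S.erase v) z y ∧ Cn ω (S.erase v) v' y)) ∨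
          (Cn ω S v' y ∧ ¬ Cn ω (S.erase v) v' y)) := by
      refine FP.pr_mono h0 h1 fun ω hω h => ?_
      by_cases hc : Cn ω (S.erase v) v' y
      · obtain ⟨z, hz, hz1, hz2⟩ := h.1.peel hvy
        refine Or.inl ⟨z, ?_, hz1, hz2, hc⟩
        rw [hI, Finset.mem_filter, SimpleGraph.mem_neighborFinset]
        exact ⟨(mem_ed.1 (hω hz1)).2.2, hz⟩
      · exact Or.inr ⟨h.2, hc⟩
    have e2 : ∀ z ∈ I, pr p (ed G S) (fun ω => s(v, z) ∈ ω ∧
        (Cn ω (S.erase v) z y ∧ Cn ω (S.erase v) v' y)) ≤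
        p * ∑ w ∈ S.erase v, gr G p z w * gr G p v' w * tau G p S w y := by
      intro z hz
      rw [hI, Finset.mem_filter, SimpleGraph.mem_neighborFinset] at hz
      rw [pr_local_edge (Finset.erase_subset v S) hvS (Finset.notMem_erase v S)
        (Finset.mem_of_mem_erase hz.2) hz.1]
      · refine mul_le_mul_of_nonneg_left ?_ h0
        refine (ih (S.erase v) z v' (by rw [Finset.card_erase_of_mem hvS, hn]; omega)).trans ?_
        refine Finset.sum_le_sum fun w _ => ?_
        exact mul_le_mul_of_nonneg_left (tau_mono h0 h1 (Finset.erase_subset _ _) _ _)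
          (mul_nonneg (gr_nonneg h0 _ _) (gr_nonneg h0 _ _))
      · intro ω hω
        rw [Cn_inter hω, Cn_inter hω]
    have e3 : pr p (ed G S) (fun ω => ∃ z ∈ I, s(v, z) ∈ ω ∧
          (Cn ω (S.erase v) z y ∧ Cn ω (S.erase v) v' y)) ≤
        ∑ w ∈ S.erase v, gr G p v w * gr G p v' w * tau G p S w y := by
      refine ((FP.pr_exists_le h0 h1 I _).trans (Finset.sum_le_sum e2)).trans ?_
      rw [← Finset.mul_sum, Finset.sum_comm, Finset.mul_sum]
      refine Finset.sum_le_sum fun w _ => ?_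
      have e6 : ∑ z ∈ I, gr G p z w * gr G p v' w * tau G p S w y ≤
          (∑ z ∈ G.neighborFinset v, gr G p z w) * (gr G p v' w * tau G p S w y) := by
        rw [Finset.sum_mul]
        refine (Finset.sum_le_sum_of_subset_of_nonneg (Finset.filter_subset _ _)
          fun z _ _ => ?_).trans (le_of_eq (Finset.sum_congr rfl fun z _ => by ring))
        exact mul_nonneg (mul_nonneg (gr_nonneg h0 _ _) (gr_nonneg h0 _ _))
          (tau_nonneg h0 h1 _ _ _)
      have e7 := mul_le_mul_of_nonneg_left e6 h0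
      have e8 := gr_step_le hs v w (G := G)
      have e9 : 0 ≤ gr G p v' w * tau G p S w y :=
        mul_nonneg (gr_nonneg h0 _ _) (tau_nonneg h0 h1 _ _ _)
      nlinarith
    have e4 : pr p (ed G S) (fun ω => Cn ω S v' y ∧ ¬ Cn ω (S.erase v) v' y) ≤
        gr G p v v * gr G p v' v * tau G p S v y := by
      refine (U1_event (G := G) h0 h1 hs S v v' y).trans ?_
      have e5 := one_le_gr h0 hs (G := G) v
      have e6 : 0 ≤ gr G p v' v * tau G p S v y :=
        mul_nonneg (gr_nonneg h0 _ _) (tau_nonneg h0 h1 _ _ _)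
      nlinarith
    have e5 := e1.trans (FP.pr_or_le h0 h1 _ _)
    have e6 := Finset.sum_erase_add S
      (fun w => gr G p v w * gr G p v' w * tau G p S w y) hvS
    linarith

end U12

variable {V : Type*} [DecidableEq V] {G : SimpleGraph V} [G.LocallyFinite] {p : ℝ}

/-- Row U1. -/
theorem tau_U1 (h0 : 0 ≤ p) (h1 : p ≤ 1) (hs : ∀ x y, Summable fun k => p ^ k * nw G k x y)
    (S : Finset V) (o v y : V) :
    tau G p S v y ≤ tau G p (S.erase o) v y + gr G p v o * tau G p S o y :=
  U12.tau_U1 h0 h1 hs S o v y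

/-- Row U2. -/
theorem tau_U2 (h0 : 0 ≤ p) (h1 : p ≤ 1) (hs : ∀ x y, Summable fun k => p ^ k * nw G k x y)
    (S : Finset V) (v v' y : V) :
    pr p (ed G S) (fun ω => Cn ω S v y ∧ Cn ω S v' y) ≤
      ∑ w ∈ S, gr G p v w * gr G p v' w * tau G p S w y :=
  U12.tau_U2 h0 h1 hs S v v' y

end Vale.Agent.P165
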