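import Mathlib
import Vale.Agent.P165.Defs
import Vale.Agent.P165.FinPerc
import Vale.Agent.P165.ExB
import Vale.Agent.P165.U12

/-!
# P165: first step and Bonferroni's inequality
-/

open Finset

namespace Vale.Agent.P165.BonX

open Vale.Agent.P165

/-- Bonferroni for finitely many propositions. -/
theorem bonf {ι : Type*} [DecidableEq ι] (I : Finset ι) (A : ι → Prop) :
    ∑ i ∈ I, ind (A i) - (∑ i ∈ I, ∑ j ∈ I.erase i, ind (A i) * ind (A j)) / 2 ≤
      ind (∃ i ∈ I, A i) := by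
  classical
  have hN : ∑ i ∈ I, ind (A i) = ((I.filter A).card : ℝ) := by
    simp only [ind]
    rw [Finset.sum_ite, sum_const, sum_const_zero, add_zero, nsmul_eq_mul, mul_one]
  have hsq : ∀ i, ind (A i) * ind (A i) = ind (A i) := by
    intro i
    unfold ind; split_ifs <;> norm_num
  have h2 : ∑ i ∈ I, ∑ j ∈ I.erase i, ind (A i) * ind (A j) =
      (∑ i ∈ I, ind (A i)) * (∑ i ∈ I, ind (A i)) - ∑ i ∈ I, ind (A i) := by
    rw [sum_mul_sum, ← sum_sub_distrib]
    refine sum_congr rfl fun i hi => ?_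
    rw [← add_sum_erase I (fun j => ind (A i) * ind (A j)) hi, hsq]
    ring
  rw [h2, hN]
  by_cases h : ∃ i ∈ I, A i
  · rw [FP.ind_of h]
    obtain ⟨i, hi, hA⟩ := h
    have h1 : 1 ≤ (I.filter A).card := card_pos.2 ⟨i, mem_filter.2 ⟨hi, hA⟩⟩
    obtain ⟨n, hn⟩ : ∃ n, (I.filter A).card = n + 1 := ⟨_, (Nat.succ_pred_eq_of_pos h1).symm⟩
    rw [hn]
    push_cast
    rcases n with _ | n
    · norm_num
    · push_cast
      have : (0 : ℝ) ≤ n := Nat.cast_nonneg n
      nlinarith [mul_nonneg this this]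
  · rw [FP.ind_not h]
    have h0 : I.filter A = ∅ := by
      rw [filter_eq_empty_iff]
      exact fun i hi hA => h ⟨i, hi, hA⟩
    rw [h0]
    norm_num

variable {V : Type*} [DecidableEq V] (G : SimpleGraph V) [G.LocallyFinite]

theorem nw_nonneg (k : ℕ) (x y : V) : 0 ≤ nw G k x y := by
  induction k generalizing x with
  | zero => simp only [nw]; split_ifs <;> norm_num
  | succ k ih => simp only [nw]; exact sum_nonneg fun z _ => ih z

theorem gr_nonneg {p : ℝ} (h0 : 0 ≤ p) (x y : V) : 0 ≤ gr G p x y :=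
  tsum_nonneg fun k => mul_nonneg (pow_nonneg h0 _) (nw_nonneg G k x y)

theorem tau_nonneg {p : ℝ} (h0 : 0 ≤ p) (h1 : p ≤ 1) (S : Finset V) (x y : V) :
    0 ≤ tau G p S x y := FP.pr_nonneg h0 h1 _

theorem tau_mono {p : ℝ} (h0 : 0 ≤ p) (h1 : p ≤ 1) {S T : Finset V} (h : S ⊆ T) (x y : V) :
    tau G p S x y ≤ tau G p T x y := by
  have h2 : tau G p S x y = pr p (ed G T) (fun ω => Cn ω S x y) := by
    unfold tau
    rw [← FP.pr_inter (ed_mono h)]
    exact FP.pr_congr fun ω hω => Cn_inter hω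
  rw [h2]
  exact FP.pr_mono h0 h1 fun ω _ hc => hc.mono subset_rfl h

/-- The first step: one open edge `o v` and a connection off `o`. -/
theorem pr_step (p : ℝ) (L : Finset V) {o v : V} (ho : o ∈ L) (hv : v ∈ G.neighborFinset o ∩ L)
    (y : V) :
    ex p (ed G L) (fun ω => ind (s(o, v) ∈ ω ∧ Cn ω (L.erase o) v y)) =
      p * tau G p (L.erase o) v y := by
  obtain ⟨hv1, hv2⟩ := mem_inter.1 hv
  have hadj : G.Adj o v := by rwa [SimpleGraph.mem_neighborFinset] at hv1
  have he : s(o, v) ∈ ed G L := mem_ed.2 ⟨ho, hv2, hadj⟩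
  have hne : s(o, v) ∉ ed G (L.erase o) := fun h => notMem_erase o L (mem_ed.1 h).1
  have h := FP.pr_edge (p := p) he hne (ed_mono (G := G) (erase_subset o L))
    (fun ω => Cn ω (L.erase o) v y)
  unfold tau
  rw [← h]
  unfold pr
  refine FP.ex_congr fun ω hω => ?_
  beta_reduce
  rw [propext (Cn_inter (x := v) (y := y) (S := L.erase o) hω)]

/-- Two different first steps. -/
theorem pr_step2 (p : ℝ) (L : Finset V) {o v v' : V} (ho : o ∈ L)
    (hv : v ∈ G.neighborFinset o ∩ L) (hv' : v' ∈ (G.neighborFinset o ∩ L).erase v) (y : V) :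
    ex p (ed G L) (fun ω => ind (s(o, v) ∈ ω ∧ Cn ω (L.erase o) v y) *
      ind (s(o, v') ∈ ω ∧ Cn ω (L.erase o) v' y)) =
      p * (p * pr p (ed G (L.erase o)) (fun ω => Cn ω (L.erase o) v y ∧
        Cn ω (L.erase o) v' y)) := by
  obtain ⟨hv1, hv2⟩ := mem_inter.1 hv
  obtain ⟨hne', hv''⟩ := mem_erase.1 hv'
  obtain ⟨hv1', hv2'⟩ := mem_inter.1 hv''
  have hadj : G.Adj o v := by rwa [SimpleGraph.mem_neighborFinset] at hv1
  have hadj' : G.Adj o v' := by rwa [SimpleGraph.mem_neighborFinset] at hv1'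
  have he : s(o, v) ∈ ed G L := mem_ed.2 ⟨ho, hv2, hadj⟩
  have he' : s(o, v') ∈ ed G L := mem_ed.2 ⟨ho, hv2', hadj'⟩
  have hn : s(o, v) ∉ ed G (L.erase o) := fun h => notMem_erase o L (mem_ed.1 h).1
  have hn' : s(o, v') ∉ ed G (L.erase o) := fun h => notMem_erase o L (mem_ed.1 h).1
  have hee : s(o, v) ≠ s(o, v') := by
    intro h
    rw [Sym2.congr_right] at h
    exact hne' h.symm
  unfold pr
  rw [← ExB.ex_edge2 p hee he he' (ed_mono (G := G) (erase_subset o L)) hn hn'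
    (fun ω => ind (Cn ω (L.erase o) v y ∧ Cn ω (L.erase o) v' y))]
  · refine FP.ex_congr fun ω hω => ?_
    rw [ExB.ind_and, ExB.ind_and, ExB.ind_and]
    ring
  · intro ω hω
    rw [propext (Cn_inter (x := v) (y := y) (S := L.erase o) hω),
      propext (Cn_inter (x := v') (y := y) (S := L.erase o) hω)]

/-- The inequality for one end point `y`. -/
theorem B_point {p : ℝ} (h0 : 0 ≤ p) (h1 : p ≤ 1)
    (U1 : ∀ (S : Finset V) (o v y : V), o ∈ S →
      tau G p S v y ≤ tau G p (S.erase o) v y + gr G p v o * tau G p S o y)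
    (U2 : ∀ (S : Finset V) (v v' y : V), pr p (ed G S) (fun ω => Cn ω S v y ∧ Cn ω S v' y) ≤
      ∑ w ∈ S, gr G p v w * gr G p v' w * tau G p S w y)
    (L : Finset V) (o : V) (ho : o ∈ L) (y : V) :
    (if y = o then 1 else 0) +
      p * ∑ v ∈ G.neighborFinset o ∩ L, (tau G p L v y - gr G p v o * tau G p L o y) -
      p ^ 2 / 2 * ∑ v ∈ G.neighborFinset o ∩ L, ∑ v' ∈ (G.neighborFinset o ∩ L).erase v,
        ∑ w ∈ L, gr G p v w * gr G p v' w * tau G p L w y ≤ tau G p L o y := by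
  have hT : 0 ≤ ∑ v ∈ G.neighborFinset o ∩ L, ∑ v' ∈ (G.neighborFinset o ∩ L).erase v,
      ∑ w ∈ L, gr G p v w * gr G p v' w * tau G p L w y :=
    sum_nonneg fun v _ => sum_nonneg fun v' _ => sum_nonneg fun w _ =>
      mul_nonneg (mul_nonneg (gr_nonneg G h0 _ _) (gr_nonneg G h0 _ _)) (tau_nonneg G h0 h1 _ _ _)
  have hp2 : 0 ≤ p ^ 2 / 2 := by positivity
  by_cases hy : y = o
  · subst hy
    rw [if_pos rfl]
    have hoo : tau G p L y y = 1 := FP.pr_true fun ω _ => Cn.refl ho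
    have h3 : ∑ v ∈ G.neighborFinset y ∩ L, (tau G p L v y - gr G p v y * tau G p L y y) ≤ 0 := by
      refine sum_nonpos fun v _ => ?_
      have h4 := U1 L y v y ho
      have h5 : tau G p (L.erase y) v y = 0 :=
        FP.pr_false fun ω _ hc => notMem_erase y L hc.right_mem
      rw [h5] at h4
      linarith
    have h6 := mul_nonneg hp2 hT
    have h7 := mul_nonpos_of_nonneg_of_nonpos h0 h3
    rw [hoo] at h7 ⊢
    linarith
  · rw [if_neg hy, zero_add]
    set I := G.neighborFinset o ∩ L with hI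
    -- Bonferroni
    have hB : ∑ v ∈ I, p * tau G p (L.erase o) v y -
        (∑ v ∈ I, ∑ v' ∈ I.erase v, p * (p * pr p (ed G (L.erase o))
          (fun ω => Cn ω (L.erase o) v y ∧ Cn ω (L.erase o) v' y))) / 2 ≤ tau G p L o y := by
      have h2 : ∀ ω ⊆ ed G L,
          ∑ v ∈ I, ind (s(o, v) ∈ ω ∧ Cn ω (L.erase o) v y) -
            (∑ v ∈ I, ∑ v' ∈ I.erase v, ind (s(o, v) ∈ ω ∧ Cn ω (L.erase o) v y) *
              ind (s(o, v') ∈ ω ∧ Cn ω (L.erase o) v' y)) / 2 ≤ ind (Cn ω L o y) := by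
        intro ω hω
        refine (bonf I _).trans (FP.ind_mono ?_)
        rintro ⟨v, hv, he, hc⟩
        exact Cn.head ho he (hc.mono subset_rfl (erase_subset o L))
      have h3 := FP.ex_mono h0 h1 h2
      refine le_trans (le_of_eq ?_) h3
      rw [FP.ex_sub, FP.ex_sum]
      congr 1
      · exact sum_congr rfl fun v hv => (pr_step G p L ho hv y).symm
      · have h4 : ex p (ed G L) (fun ω => (∑ v ∈ I, ∑ v' ∈ I.erase v,
            ind (s(o, v) ∈ ω ∧ Cn ω (L.erase o) v y) *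
              ind (s(o, v') ∈ ω ∧ Cn ω (L.erase o) v' y)) / 2) =
            (1 / 2) * ex p (ed G L) (fun ω => ∑ v ∈ I, ∑ v' ∈ I.erase v,
            ind (s(o, v) ∈ ω ∧ Cn ω (L.erase o) v y) *
              ind (s(o, v') ∈ ω ∧ Cn ω (L.erase o) v' y)) := by
          rw [← FP.ex_mul]
          exact FP.ex_congr fun ω _ => by ring
        rw [h4, FP.ex_sum, div_eq_mul_inv, mul_comm, one_div]
        congr 1
        refine sum_congr rfl fun v hv => ?_
        rw [FP.ex_sum]
        exact sum_congr rfl fun v' hv' => (pr_step2 G p L ho hv hv' y).symm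
    have h5 : p * ∑ v ∈ I, (tau G p L v y - gr G p v o * tau G p L o y) ≤
        ∑ v ∈ I, p * tau G p (L.erase o) v y := by
      rw [mul_sum]
      refine sum_le_sum fun v _ => mul_le_mul_of_nonneg_left ?_ h0
      linarith [U1 L o v y ho]
    have h6 : (∑ v ∈ I, ∑ v' ∈ I.erase v, p * (p * pr p (ed G (L.erase o))
          (fun ω => Cn ω (L.erase o) v y ∧ Cn ω (L.erase o) v' y))) / 2 ≤
        p ^ 2 / 2 * ∑ v ∈ I, ∑ v' ∈ I.erase v, ∑ w ∈ L,
          gr G p v w * gr G p v' w * tau G p L w y := by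
      have h7 : ∑ v ∈ I, ∑ v' ∈ I.erase v, p * (p * pr p (ed G (L.erase o))
          (fun ω => Cn ω (L.erase o) v y ∧ Cn ω (L.erase o) v' y)) ≤
          ∑ v ∈ I, ∑ v' ∈ I.erase v, p ^ 2 * ∑ w ∈ L,
            gr G p v w * gr G p v' w * tau G p L w y := by
        refine sum_le_sum fun v _ => sum_le_sum fun v' _ => ?_
        rw [← mul_assoc, ← pow_two]
        refine mul_le_mul_of_nonneg_left ?_ (by positivity)
        refine (U2 (L.erase o) v v' y).trans ?_
        refine (sum_le_sum fun w _ => mul_le_mul_of_nonneg_left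
          (tau_mono G h0 h1 (erase_subset o L) w y)
          (mul_nonneg (gr_nonneg G h0 _ _) (gr_nonneg G h0 _ _))).trans ?_
        exact sum_le_sum_of_subset_of_nonneg (erase_subset o L) fun w _ _ =>
          mul_nonneg (mul_nonneg (gr_nonneg G h0 _ _) (gr_nonneg G h0 _ _))
            (tau_nonneg G h0 h1 _ _ _)
      have h8 : ∑ v ∈ I, ∑ v' ∈ I.erase v, p ^ 2 * ∑ w ∈ L,
            gr G p v w * gr G p v' w * tau G p L w y = p ^ 2 * ∑ v ∈ I, ∑ v' ∈ I.erase v,
              ∑ w ∈ L, gr G p v w * gr G p v' w * tau G p L w y := by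
        rw [mul_sum]
        exact sum_congr rfl fun v _ => by rw [mul_sum]
      rw [h8] at h7
      linarith
    linarith

/-- **Row B**: first step and Bonferroni, summed over the end points. -/
theorem B_of {p : ℝ} (h0 : 0 ≤ p) (h1 : p ≤ 1)
    (U1 : ∀ (S : Finset V) (o v y : V), o ∈ S →
      tau G p S v y ≤ tau G p (S.erase o) v y + gr G p v o * tau G p S o y)
    (U2 : ∀ (S : Finset V) (v v' y : V), pr p (ed G S) (fun ω => Cn ω S v y ∧ Cn ω S v' y) ≤
      ∑ w ∈ S, gr G p v w * gr G p v' w * tau G p S w y)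
    (L : Finset V) (o : V) (ho : o ∈ L) :
    1 + p * ∑ v ∈ G.neighborFinset o ∩ L, (chi G p L v - gr G p v o * chi G p L o) -
      p ^ 2 / 2 * ∑ v ∈ G.neighborFinset o ∩ L, ∑ v' ∈ (G.neighborFinset o ∩ L).erase v,
        ∑ w ∈ L, gr G p v w * gr G p v' w * chi G p L w ≤ chi G p L o := by
  have h2 := sum_le_sum fun y (_ : y ∈ L) => B_point G h0 h1 U1 U2 L o ho y
  refine le_trans (le_of_eq ?_) h2
  symm
  rw [sum_sub_distrib, sum_add_distrib, sum_ite_eq' L o (fun _ => (1 : ℝ)), if_pos ho,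
    ← mul_sum, ← mul_sum]
  congr 1
  · congr 2
    rw [sum_comm]
    refine sum_congr rfl fun v _ => ?_
    unfold chi
    rw [sum_sub_distrib, mul_sum]
  · congr 1
    rw [sum_comm]
    refine sum_congr rfl fun v _ => ?_
    rw [sum_comm]
    refine sum_congr rfl fun v' _ => ?_
    rw [sum_comm]
    refine sum_congr rfl fun w _ => ?_
    unfold chi
    rw [mul_sum]

/-- **Row B** with `U1` and `U2` discharged. -/
theorem B {p : ℝ} (h0 : 0 ≤ p) (h1 : p ≤ 1)
    (hs : ∀ x y, Summable fun k => p ^ k * nw G k x y) (L : Finset V) (o : V) (ho : o ∈ L) :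
    1 + p * ∑ v ∈ G.neighborFinset o ∩ L, (chi G p L v - gr G p v o * chi G p L o) -
      p ^ 2 / 2 * ∑ v ∈ G.neighborFinset o ∩ L, ∑ v' ∈ (G.neighborFinset o ∩ L).erase v,
        ∑ w ∈ L, gr G p v w * gr G p v' w * chi G p L w ≤ chi G p L o :=
  B_of G h0 h1 (fun S o v y _ => tau_U1 h0 h1 hs S o v y)
    (fun S v v' y => tau_U2 h0 h1 hs S v v' y) L o ho

end Vale.Agent.P165.BonX
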