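import Vale.Agent.P165.Norm
import Vale.Agent.P165.Defs

/-!
# P165, row CH: walk counts and the edge-isoperimetric constant (Cheeger)
-/

namespace Vale.Agent.P165
namespace CH

open Finset

variable {V : Type*} [DecidableEq V] (G : SimpleGraph V) [G.LocallyFinite]

theorem nw_eq (k : ℕ) (x y : V) : nw G k x y = Ch.nwk G k x y := by
  induction k generalizing x with
  | zero => rfl
  | succ k ih =>
    show ∑ z ∈ G.neighborFinset x, nw G k z y = ∑ z ∈ G.neighborFinset x, Ch.nwk G k z y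
    exact Finset.sum_congr rfl (fun z _ => ih z)

theorem nw_nonneg (k : ℕ) (x y : V) : 0 ≤ nw G k x y := by
  rw [nw_eq]; exact Ch.nwk_nonneg G k x y

theorem ch_form (d : ℕ) (hd : ∀ v, G.degree v = d) (h : ℝ) (hh : 0 ≤ h)
    (hE : ∀ A : Finset V, h * A.card ≤ (ebd G A : ℝ)) (B : Finset V) (f : V → ℝ)
    (hf : ∀ x, x ∉ B → f x = 0) :
    |∑ x ∈ B, ∑ y ∈ G.neighborFinset x, f x * f y|
      ≤ Real.sqrt ((d:ℝ) ^ 2 - h ^ 2) * ∑ x ∈ B, f x ^ 2 := by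
  apply Ch.cheeger G d (fun v => by rw [SimpleGraph.card_neighborFinset_eq_degree, hd v]) h hh
    _ B f hf
  intro A
  refine le_trans (hE A) (le_of_eq ?_)
  unfold ebd
  push_cast
  rfl

theorem nw_le (d : ℕ) (hd : ∀ v, G.degree v = d) (h : ℝ) (hh : 0 ≤ h)
    (hE : ∀ A : Finset V, h * A.card ≤ (ebd G A : ℝ)) (k : ℕ) (x y : V) :
    nw G k x y ≤ Real.sqrt ((d:ℝ) ^ 2 - h ^ 2) ^ k := by
  rw [nw_eq]
  exact Ch.nwk_le G _ (Real.sqrt_nonneg _) (ch_form G d hd h hh hE) x y k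

theorem nw_sum_le (d : ℕ) (hd : ∀ v, G.degree v = d) (h : ℝ) (hh : 0 ≤ h)
    (hE : ∀ A : Finset V, h * A.card ≤ (ebd G A : ℝ)) (k : ℕ) (B : Finset V) :
    ∑ x ∈ B, ∑ y ∈ B, nw G k x y ≤ Real.sqrt ((d:ℝ) ^ 2 - h ^ 2) ^ k * B.card := by
  have := Ch.nwk_sum_le' G _ (Real.sqrt_nonneg _) (ch_form G d hd h hh hE) B k
  simpa only [nw_eq] using this

end CH
end Vale.Agent.P165
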