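import Vale.Agent.P165.PowMain

/-!
P165: Cartesian powers of a nonamenable transitive graph.
-/

open Finset

namespace Vale.Agent.P165

variable {V : Type*}

/-- the `n`-th Cartesian power: two `n`-tuples are adjacent iff they differ in exactly one
coordinate, and their entries in this coordinate are adjacent in `G` -/
def cart (G : SimpleGraph V) (n : ℕ) : SimpleGraph (Fin n → V) where
  Adj x y := ∃ i, G.Adj (x i) (y i) ∧ ∀ j, j ≠ i → x j = y j
  symm := ⟨fun _ _ h => h.elim fun i hi => ⟨i, hi.1.symm, fun j hj => (hi.2 j hj).symm⟩⟩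
  loopless := ⟨fun _ h => h.elim fun _ hi => G.loopless.1 _ hi.1⟩

namespace Cart

theorem adj_iff {G : SimpleGraph V} {n : ℕ} {x y : Fin n → V} :
    (cart G n).Adj x y ↔ ∃ i, ∃ z, G.Adj (x i) z ∧ y = Function.update x i z := by
  constructor
  · rintro ⟨i, h1, h2⟩
    refine ⟨i, y i, h1, ?_⟩
    ext j
    by_cases hj : j = i
    · subst hj; simp
    · rw [Function.update_of_ne hj]; exact (h2 j hj).symm
  · rintro ⟨i, z, h1, rfl⟩
    refine ⟨i, by simpa using h1, fun j hj => ?_⟩
    rw [Function.update_of_ne hj]

theorem upd_inj {G : SimpleGraph V} {n : ℕ} {x : Fin n → V} {i j : Fin n} {z w : V}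
    (hz : G.Adj (x i) z) (h : Function.update x i z = Function.update x j w) :
    i = j := by
  by_contra hij
  have h1 := congrFun h i
  rw [Function.update_self, Function.update_of_ne hij] at h1
  exact hz.ne h1.symm

/-- the Cartesian powers are locally finite -/
@[instance_reducible]
noncomputable def cartLF (G : SimpleGraph V) [G.LocallyFinite] (n : ℕ) :
    (cart G n).LocallyFinite := by
  classical
  exact fun x => ((univ.biUnion (fun i => (G.neighborFinset (x i)).image
    (fun z => Function.update x i z))).finite_toSet.subset (fun y hy => by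
    have h : (cart G n).Adj x y := hy
    rw [adj_iff] at h
    obtain ⟨i, z, h1, rfl⟩ := h
    simp only [coe_biUnion, Set.mem_iUnion, coe_image, Set.mem_image, mem_coe]
    exact ⟨i, mem_univ i, z, by rwa [SimpleGraph.mem_neighborFinset], rfl⟩)).fintype

/-- the neighbours outside `A` -/
theorem card_nbr_sdiff [DecidableEq V] {G : SimpleGraph V} [G.LocallyFinite] {n : ℕ}
    [(cart G n).LocallyFinite] (A : Finset (Fin n → V)) (x : Fin n → V) :
    ((cart G n).neighborFinset x \ A).card =
      ∑ i, ((G.neighborFinset (x i)).filter (fun z => Function.update x i z ∉ A)).card := by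
  have h1 : (cart G n).neighborFinset x \ A = univ.biUnion (fun i =>
      ((G.neighborFinset (x i)).filter (fun z => Function.update x i z ∉ A)).image
        (fun z => Function.update x i z)) := by
    ext y
    simp only [mem_sdiff, SimpleGraph.mem_neighborFinset, adj_iff, mem_biUnion, mem_univ,
      true_and, mem_image, mem_filter]
    constructor
    · rintro ⟨⟨i, z, h1, rfl⟩, h2⟩
      exact ⟨i, z, ⟨h1, h2⟩, rfl⟩
    · rintro ⟨i, z, ⟨h1, h2⟩, rfl⟩
      exact ⟨⟨i, z, h1, rfl⟩, h2⟩
  rw [h1, card_biUnion]
  · refine sum_congr rfl fun i _ => ?_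
    apply card_image_of_injective
    exact Function.update_injective x i
  · intro i _ j _ hij
    rw [Function.onFun, disjoint_left]
    intro y hy1 hy2
    rw [mem_image] at hy1 hy2
    obtain ⟨z, hz, rfl⟩ := hy1
    obtain ⟨w, hw, hw2⟩ := hy2
    rw [mem_filter, SimpleGraph.mem_neighborFinset] at hz
    exact hij (upd_inj hz.1 hw2.symm)

/-- expansion in one coordinate -/
theorem coord [DecidableEq V] {G : SimpleGraph V} [G.LocallyFinite] {n : ℕ} {h : ℝ}
    (hA : ∀ A : Finset V, h * (A.card : ℝ) ≤ (ebd G A : ℝ)) (A : Finset (Fin n → V))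
    (i : Fin n) :
    h * (A.card : ℝ) ≤
      ((∑ x ∈ A, ((G.neighborFinset (x i)).filter
        (fun z => Function.update x i z ∉ A)).card : ℕ) : ℝ) := by
  classical
  rcases A.eq_empty_or_nonempty with rfl | ⟨a0, ha0⟩
  · simp
  set o : V := a0 i
  let c : (Fin n → V) → (Fin n → V) := fun x => Function.update x i o
  have key : ∀ b ∈ A.image c, h * ((A.filter (fun x => c x = b)).card : ℝ) ≤
      ((∑ x ∈ A.filter (fun x => c x = b), ((G.neighborFinset (x i)).filter
        (fun z => Function.update x i z ∉ A)).card : ℕ) : ℝ) := by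
    intro b _
    set F : Finset (Fin n → V) := A.filter (fun x => c x = b) with hF
    set B : Finset V := F.image (fun x => x i) with hB
    have hup : ∀ x ∈ F, ∀ z, Function.update x i z = Function.update b i z := by
      intro x hx z
      rw [hF, mem_filter] at hx
      rw [← hx.2]
      simp [c]
    have hinj : Set.InjOn (fun x : Fin n → V => x i) (F : Set (Fin n → V)) := by
      intro x hx y hy hxy
      have h1 := hup x hx (x i)
      have h2 := hup y hy (y i)
      rw [Function.update_eq_self] at h1 h2
      rw [h1, h2]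
      simp only at hxy
      rw [hxy]
    have hcard : F.card = B.card := (card_image_of_injOn hinj).symm
    have hmem : ∀ z, Function.update b i z ∈ A ↔ z ∈ B := by
      intro z
      rw [hB, mem_image]
      constructor
      · intro hz
        refine ⟨Function.update b i z, ?_, by simp⟩
        rw [hF, mem_filter]
        refine ⟨hz, ?_⟩
        have : b ∈ A.image c := by assumption
        rw [mem_image] at this
        obtain ⟨x, -, hx⟩ := this
        have h3 : Function.update b i o = b := by
          rw [← hx]; simp [c]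
        simp only [c]
        rw [Function.update_idem, h3]
      · rintro ⟨x, hx, rfl⟩
        have h1 := hup x hx (x i)
        rw [Function.update_eq_self] at h1
        rw [← h1]
        exact (mem_filter.1 hx).1
    have hsum : ∑ x ∈ F, ((G.neighborFinset (x i)).filter
        (fun z => Function.update x i z ∉ A)).card = ebd G B := by
      rw [ebd, hB, sum_image hinj]
      refine sum_congr rfl fun x hx => ?_
      congr 1
      ext z
      rw [mem_filter, mem_sdiff, hup x hx z, hmem z]
    rw [hsum, hcard]
    exact hA B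
  have h1 : (A.card : ℝ) = ∑ b ∈ A.image c, ((A.filter (fun x => c x = b)).card : ℝ) := by
    have := card_eq_sum_card_image c A
    exact_mod_cast this
  have h2 : (((∑ x ∈ A, ((G.neighborFinset (x i)).filter
        (fun z => Function.update x i z ∉ A)).card : ℕ)) : ℝ) =
      ∑ b ∈ A.image c, ((∑ x ∈ A.filter (fun x => c x = b), ((G.neighborFinset (x i)).filter
        (fun z => Function.update x i z ∉ A)).card : ℕ) : ℝ) := by
    rw [← Nat.cast_sum]
    congr 1
    exact (sum_fiberwise_of_maps_to (fun x hx => mem_image_of_mem c hx) _).symm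
  rw [h1, h2, mul_sum]
  exact sum_le_sum key

/-- expansion of the Cartesian powers -/
theorem cheeger [DecidableEq V] {G : SimpleGraph V} [G.LocallyFinite] {n : ℕ}
    [(cart G n).LocallyFinite] {h : ℝ}
    (hA : ∀ A : Finset V, h * (A.card : ℝ) ≤ (ebd G A : ℝ)) (A : Finset (Fin n → V)) :
    (n : ℝ) * h * (A.card : ℝ) ≤ (ebd (cart G n) A : ℝ) := by
  have h1 : (ebd (cart G n) A : ℝ) = ∑ i : Fin n,
      ((∑ x ∈ A, ((G.neighborFinset (x i)).filter
        (fun z => Function.update x i z ∉ A)).card : ℕ) : ℝ) := by
    rw [ebd, ← Nat.cast_sum]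
    congr 1
    rw [sum_comm]
    exact sum_congr rfl fun x _ => card_nbr_sdiff A x
  rw [h1]
  calc (n : ℝ) * h * (A.card : ℝ) = ∑ _i : Fin n, h * (A.card : ℝ) := by
        rw [sum_const, card_univ, Fintype.card_fin, nsmul_eq_mul]; ring
    _ ≤ _ := sum_le_sum fun i _ => coord hA A i

theorem degree_cart [DecidableEq V] {G : SimpleGraph V} [G.LocallyFinite] {n : ℕ}
    [(cart G n).LocallyFinite] {d : ℕ} (hd : ∀ x, (G.neighborFinset x).card = d)
    (x : Fin n → V) : ((cart G n).neighborFinset x).card = n * d := by
  have h1 := card_nbr_sdiff (G := G) (∅ : Finset (Fin n → V)) x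
  simp only [sdiff_empty, notMem_empty, not_false_eq_true, filter_true] at h1
  rw [h1, sum_congr rfl fun i _ => hd (x i), sum_const, card_univ, Fintype.card_fin, smul_eq_mul]

/-- moving one coordinate -/
def homAt (G : SimpleGraph V) {n : ℕ} (x : Fin n → V) (i : Fin n) : G →g cart G n where
  toFun z := Function.update x i z
  map_rel' := by
    intro a b h
    refine ⟨i, by simpa using h, fun j hj => ?_⟩
    rw [Function.update_of_ne hj, Function.update_of_ne hj]

theorem connected {G : SimpleGraph V} (hc : G.Connected) (n : ℕ) : (cart G n).Connected := by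
  classical
  have hne : Nonempty V := hc.nonempty
  have key : ∀ (x y : Fin n → V) (s : Finset (Fin n)),
      (cart G n).Reachable x (s.piecewise y x) := by
    intro x y s
    induction s using Finset.induction_on with
    | empty => rw [piecewise_empty]
    | insert i s hi ih =>
      refine ih.trans ?_
      rw [piecewise_insert]
      have h1 := (hc.preconnected ((s.piecewise y x) i) (y i)).map
        (homAt G (s.piecewise y x) i)
      have h2 : homAt G (s.piecewise y x) i ((s.piecewise y x) i) = s.piecewise y x :=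
        Function.update_eq_self _ _
      have h3 : homAt G (s.piecewise y x) i (y i) = Function.update (s.piecewise y x) i (y i) := rfl
      rw [h2, h3] at h1
      exact h1
  refine ⟨fun x y => ?_⟩
  have := key x y univ
  rwa [piecewise_univ] at this

theorem transitive {G : SimpleGraph V} (ht : ∀ x y : V, ∃ φ : G ≃g G, φ x = y) (n : ℕ) :
    ∀ x y : Fin n → V, ∃ φ : cart G n ≃g cart G n, φ x = y := by
  intro x y
  choose φ hφ using fun i => ht (x i) (y i)
  refine ⟨⟨Equiv.piCongrRight (fun i => (φ i).toEquiv), ?_⟩, ?_⟩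
  · intro a b
    constructor
    · rintro ⟨i, h1, h2⟩
      exact ⟨i, (φ i).map_adj_iff.1 h1, fun j hj => (φ j).injective (h2 j hj)⟩
    · rintro ⟨i, h1, h2⟩
      exact ⟨i, (φ i).map_adj_iff.2 h1, fun j hj => congrArg (φ j) (h2 j hj)⟩
  · funext i
    exact hφ i

/-- Cartesian powers of nonamenable transitive graphs -/
theorem of_main (hM : Pow.MainStmt) (V : Type) [DecidableEq V] [Infinite V] (G : SimpleGraph V)
    [G.LocallyFinite] (hc : G.Connected) (ht : ∀ x y : V, ∃ φ : G ≃g G, φ x = y)
    {h : ℝ} (h0 : 0 < h) (hA : ∀ A : Finset V, h * (A.card : ℝ) ≤ ((Pow.vbd G A).card : ℝ)) :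
    ∃ n0 : ℕ, ∀ n, n0 ≤ n → pc (cart G n) < pu (cart G n) := by
  obtain ⟨o⟩ : Nonempty V := inferInstance
  have hd : ∀ x, (G.neighborFinset x).card = (G.neighborFinset o).card := by
    intro x
    obtain ⟨φ, hφ⟩ := ht x o
    have h1 := Fintype.card_congr (φ.mapNeighborSet x)
    rw [SimpleGraph.card_neighborSet_eq_degree, SimpleGraph.card_neighborSet_eq_degree] at h1
    subst hφ
    rw [SimpleGraph.card_neighborFinset_eq_degree, SimpleGraph.card_neighborFinset_eq_degree]
    exact h1
  set d := (G.neighborFinset o).card with hdd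
  have hE : ∀ A : Finset V, h * (A.card : ℝ) ≤ (ebd G A : ℝ) := by
    intro A
    refine (hA A).trans ?_
    have h1 : Pow.vbd G A ⊆ A.biUnion (fun x => G.neighborFinset x \ A) := by
      intro y hy
      rw [Pow.vbd, mem_sdiff, mem_biUnion] at hy
      obtain ⟨⟨x, hx, hxy⟩, h2⟩ := hy
      rw [mem_biUnion]
      exact ⟨x, hx, mem_sdiff.2 ⟨hxy, h2⟩⟩
    have h2 : (Pow.vbd G A).card ≤ ebd G A := (card_le_card h1).trans card_biUnion_le
    exact_mod_cast h2
  have hd0 : 0 < d := by
    have h1 := hE {o}
    have h2 : ebd G {o} ≤ d := by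
      rw [ebd, sum_singleton]
      exact card_le_card sdiff_subset
    have h3 : (ebd G {o} : ℝ) ≤ d := by exact_mod_cast h2
    rw [card_singleton, Nat.cast_one, mul_one] at h1
    have h4 : (0 : ℝ) < d := by linarith
    exact_mod_cast h4
  have hpos : 0 < h / ((d : ℝ) + 1) := by positivity
  obtain ⟨D0, hD0⟩ := hM (h / ((d : ℝ) + 1)) hpos
  refine ⟨max 1 D0, fun n hn => ?_⟩
  have hn1 : 1 ≤ n := (le_max_left _ _).trans hn
  have hn2 : D0 ≤ n := (le_max_right _ _).trans hn
  have : Nonempty (Fin n) := ⟨⟨0, hn1⟩⟩
  let _ : (cart G n).LocallyFinite := cartLF G n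
  refine hD0 (Fin n → V) inferInstance inferInstance (cart G n) inferInstance (n * d)
    (connected hc n) (transitive ht n) ?_ ?_ ?_
  · intro x
    rw [← SimpleGraph.card_neighborFinset_eq_degree]
    exact degree_cart hd x
  · calc D0 ≤ n := hn2
      _ = n * 1 := (mul_one n).symm
      _ ≤ n * d := Nat.mul_le_mul_left n hd0
  · intro A
    refine le_trans ?_ (cheeger hE A)
    have h1 : h / ((d : ℝ) + 1) * (d : ℝ) ≤ h := by
      rw [div_mul_eq_mul_div, div_le_iff₀ (by positivity)]
      nlinarith
    push_cast
    calc h / ((d : ℝ) + 1) * ((n : ℝ) * (d : ℝ)) * (A.card : ℝ)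
        = (n : ℝ) * (h / ((d : ℝ) + 1) * (d : ℝ)) * (A.card : ℝ) := by ring
      _ ≤ (n : ℝ) * h * (A.card : ℝ) := by gcongr

end Cart

end Vale.Agent.P165
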