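import Mathlib

namespace Vale.Agent.P165
namespace Ch

open Finset

variable {V : Type*} [DecidableEq V] (G : SimpleGraph V) [G.LocallyFinite]

/-- Discrete co-area inequality. -/
theorem coarea (c : ℝ)
    (hE : ∀ A : Finset V, c * A.card ≤ ∑ x ∈ A, (((G.neighborFinset x) \ A).card : ℝ)) :
    ∀ (n : ℕ) (A : Finset V), A.card = n → ∀ g : V → ℝ, (∀ x, 0 ≤ g x) → (∀ x, x ∉ A → g x = 0) →
      c * ∑ x ∈ A, g x ≤ ∑ x ∈ A, ∑ y ∈ G.neighborFinset x, max (g x - g y) 0 := by
  intro n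
  induction n with
  | zero =>
    intro A hA g _ _
    rw [Finset.card_eq_zero] at hA
    subst hA
    simp
  | succ n ih =>
    intro A hA g hg hs
    have hne : A.Nonempty := by
      rw [← Finset.card_pos]; omega
    obtain ⟨x0, hx0, hmin⟩ := Finset.exists_min_image A g hne
    set m := g x0 with hm
    let g' : V → ℝ := fun x => if x ∈ A then g x - m else 0
    have hg' : ∀ x, 0 ≤ g' x := by
      intro x
      by_cases hx : x ∈ A
      · simp only [g', hx, if_true]
        have := hmin x hx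
        linarith
      · simp [g', hx]
    have hs' : ∀ x, x ∉ A.erase x0 → g' x = 0 := by
      intro x hx
      by_cases hxA : x ∈ A
      · have : x = x0 := by
          by_contra h
          exact hx (Finset.mem_erase.mpr ⟨h, hxA⟩)
        subst this
        simp only [g', hxA, if_true]
        linarith
      · simp [g', hxA]
    have hcard : (A.erase x0).card = n := by
      rw [Finset.card_erase_of_mem hx0, hA]; rfl
    have h1 := ih (A.erase x0) hcard g' hg' hs'
    have h2 : ∑ x ∈ A.erase x0, g' x = ∑ x ∈ A, g' x := by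
      apply Finset.sum_subset (Finset.erase_subset _ _)
      intro x _ hx
      exact hs' x hx
    have h3 : ∑ x ∈ A, g x = ∑ x ∈ A, g' x + m * A.card := by
      have : ∀ x ∈ A, g x = g' x + m := by
        intro x hx
        simp only [g', hx, if_true]
        ring
      rw [Finset.sum_congr rfl this, Finset.sum_add_distrib, Finset.sum_const, nsmul_eq_mul]
      ring
    have h4 : ∑ x ∈ A.erase x0, ∑ y ∈ G.neighborFinset x, max (g' x - g' y) 0
        ≤ ∑ x ∈ A, ∑ y ∈ G.neighborFinset x, max (g' x - g' y) 0 := by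
      apply Finset.sum_le_sum_of_subset_of_nonneg (Finset.erase_subset _ _)
      intro x _ _
      exact Finset.sum_nonneg (fun y _ => le_max_right _ _)
    have h5 : ∀ x ∈ A, ∑ y ∈ G.neighborFinset x, max (g x - g y) 0
        = ∑ y ∈ G.neighborFinset x, max (g' x - g' y) 0 + m * ((G.neighborFinset x \ A).card : ℝ) := by
      intro x hx
      have hp : ∀ y ∈ G.neighborFinset x, max (g x - g y) 0
          = max (g' x - g' y) 0 + (if y ∈ A then 0 else m) := by
        intro y _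
        by_cases hy : y ∈ A
        · simp only [g', hx, hy, if_true]
          have : g x - m - (g y - m) = g x - g y := by ring
          rw [this, add_zero]
        · simp only [g', hx, hy, if_true, if_false]
          have hxm := hmin x hx
          have h0 := hg x
          rw [hs y hy, max_eq_left (by linarith), max_eq_left (by linarith)]
          ring
      rw [Finset.sum_congr rfl hp, Finset.sum_add_distrib]
      congr 1
      rw [← Finset.sum_filter_not_add_sum_filter _ (fun y => y ∈ A)]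
      rw [Finset.sum_congr (s₂ := (G.neighborFinset x).filter (fun y => y ∈ A)) rfl
        (g := fun _ => (0:ℝ)) (fun y hy => by simp [(Finset.mem_filter.mp hy).2])]
      rw [Finset.sum_const_zero, add_zero]
      rw [Finset.sum_congr (s₂ := (G.neighborFinset x).filter (fun y => ¬ y ∈ A)) rfl
        (g := fun _ => m) (fun y hy => by simp [(Finset.mem_filter.mp hy).2])]
      rw [Finset.sum_const, nsmul_eq_mul, mul_comm]
      congr 2
      rw [Finset.sdiff_eq_filter]
    rw [Finset.sum_congr rfl h5, Finset.sum_add_distrib, ← Finset.mul_sum, h3, ← h2, mul_add]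
    have h6 := hE A
    have hm0 : 0 ≤ m := hg x0
    have h7 : c * (m * (A.card : ℝ)) ≤ m * ∑ x ∈ A, ((G.neighborFinset x \ A).card : ℝ) := by
      have := mul_le_mul_of_nonneg_left h6 hm0
      linarith
    linarith

/-- ordered adjacent pairs of a finite set -/
def prs (C : Finset V) : Finset (V × V) := (C ×ˢ C).filter (fun p => p.2 ∈ G.neighborFinset p.1)

theorem sum_prs (C : Finset V) (F : V → V → ℝ) :
    ∑ p ∈ prs G C, F p.1 p.2 = ∑ x ∈ C, ∑ y ∈ (G.neighborFinset x) ∩ C, F x y := by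
  unfold prs
  rw [Finset.sum_filter, Finset.sum_product]
  apply Finset.sum_congr rfl
  intro x _
  rw [← Finset.sum_filter]
  apply Finset.sum_congr _ (fun _ _ => rfl)
  ext y
  simp [and_comm]

theorem sum_swap (C : Finset V) (F : V → V → ℝ) :
    ∑ p ∈ prs G C, F p.1 p.2 = ∑ p ∈ prs G C, F p.2 p.1 := by
  apply Finset.sum_nbij' (fun p => (p.2, p.1)) (fun p => (p.2, p.1))
  · intro p hp
    simp only [prs, Finset.mem_filter, Finset.mem_product, SimpleGraph.mem_neighborFinset] at hp ⊢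
    exact ⟨⟨hp.1.2, hp.1.1⟩, hp.2.symm⟩
  · intro p hp
    simp only [prs, Finset.mem_filter, Finset.mem_product, SimpleGraph.mem_neighborFinset] at hp ⊢
    exact ⟨⟨hp.1.2, hp.1.1⟩, hp.2.symm⟩
  · intro p _; rfl
  · intro p _; rfl
  · intro p _; rfl

/-- the sum over a big set reduces to the support -/
theorem sum_red {B C : Finset V} (hBC : B ⊆ C) (hN : ∀ x ∈ B, G.neighborFinset x ⊆ C)
    (F : V → V → ℝ) (hF : ∀ x, x ∉ B → ∀ y, F x y = 0) :
    ∑ p ∈ prs G C, F p.1 p.2 = ∑ x ∈ B, ∑ y ∈ G.neighborFinset x, F x y := by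
  rw [sum_prs]
  symm
  rw [← Finset.sum_subset hBC]
  · apply Finset.sum_congr rfl
    intro x hx
    rw [Finset.inter_eq_left.mpr (hN x hx)]
  · intro x _ hx
    exact Finset.sum_eq_zero (fun y _ => hF x hx y)

/-- Cheeger's inequality, squared form, for a finitely supported function. -/
theorem cheeger_sq (d : ℕ) (hd : ∀ v, (G.neighborFinset v).card = d) (c : ℝ) (hc : 0 ≤ c)
    (hE : ∀ A : Finset V, c * A.card ≤ ∑ x ∈ A, (((G.neighborFinset x) \ A).card : ℝ))
    (B : Finset V) (f : V → ℝ) (hf : ∀ x, x ∉ B → f x = 0) :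
    (∑ x ∈ B, ∑ y ∈ G.neighborFinset x, f x * f y) ^ 2
      ≤ ((d:ℝ) ^ 2 - c ^ 2) * (∑ x ∈ B, f x ^ 2) ^ 2 := by
  classical
  set C : Finset V := B ∪ B.biUnion (fun x => G.neighborFinset x) with hC
  have hBC : B ⊆ C := Finset.subset_union_left
  have hN : ∀ x ∈ B, G.neighborFinset x ⊆ C := by
    intro x hx y hy
    rw [hC, Finset.mem_union, Finset.mem_biUnion]
    exact Or.inr ⟨x, hx, hy⟩
  set S := ∑ x ∈ B, ∑ y ∈ G.neighborFinset x, f x * f y with hS
  set F := ∑ x ∈ B, f x ^ 2 with hF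
  have e1 : ∑ p ∈ prs G C, f p.1 * f p.2 = S :=
    sum_red G hBC hN (fun x y => f x * f y) (fun x hx y => by rw [hf x hx]; ring)
  have e2 : ∑ p ∈ prs G C, f p.1 ^ 2 = d * F := by
    rw [sum_red G hBC hN (fun x _ => f x ^ 2) (fun x hx y => by rw [hf x hx]; ring)]
    rw [hF, Finset.mul_sum]
    apply Finset.sum_congr rfl
    intro x _
    rw [Finset.sum_const, hd x, nsmul_eq_mul]
  have e3 : ∑ p ∈ prs G C, f p.2 ^ 2 = d * F := by
    rw [← e2]
    exact (sum_swap G C (fun x _ => f x ^ 2)).symm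
  have e4 : ∑ p ∈ prs G C, |f p.1 ^ 2 - f p.2 ^ 2|
      = 2 * ∑ x ∈ B, ∑ y ∈ G.neighborFinset x, max (f x ^ 2 - f y ^ 2) 0 := by
    have h1 : ∑ p ∈ prs G C, max (f p.1 ^ 2 - f p.2 ^ 2) 0
        = ∑ x ∈ B, ∑ y ∈ G.neighborFinset x, max (f x ^ 2 - f y ^ 2) 0 :=
      sum_red G hBC hN (fun x y => max (f x ^ 2 - f y ^ 2) 0) (fun x hx y => by
        rw [hf x hx]
        apply max_eq_right
        nlinarith [sq_nonneg (f y)])
    have h2 : ∑ p ∈ prs G C, max (f p.2 ^ 2 - f p.1 ^ 2) 0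
        = ∑ p ∈ prs G C, max (f p.1 ^ 2 - f p.2 ^ 2) 0 :=
      sum_swap G C (fun x y => max (f y ^ 2 - f x ^ 2) 0)
    rw [← h1, two_mul]
    nth_rewrite 2 [← h2]
    rw [← Finset.sum_add_distrib]
    apply Finset.sum_congr rfl
    intro p _
    rcases le_total (f p.1 ^ 2) (f p.2 ^ 2) with h | h
    · rw [abs_of_nonpos (by linarith), max_eq_right (by linarith), max_eq_left (by linarith)]
      ring
    · rw [abs_of_nonneg (by linarith), max_eq_left (by linarith), max_eq_right (by linarith)]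
      ring
  have e5 := coarea G c hE B.card B rfl (fun x => f x ^ 2) (fun x => sq_nonneg _)
    (fun x hx => by simp only [hf x hx]; ring)
  have e6 : c * F ≤ ∑ x ∈ B, ∑ y ∈ G.neighborFinset x, max (f x ^ 2 - f y ^ 2) 0 := e5
  have e7 : (∑ p ∈ prs G C, |f p.1 ^ 2 - f p.2 ^ 2|) ^ 2
      ≤ (∑ p ∈ prs G C, (f p.1 - f p.2) ^ 2) * (∑ p ∈ prs G C, (f p.1 + f p.2) ^ 2) := by
    have := Finset.sum_mul_sq_le_sq_mul_sq (prs G C) (fun p => |f p.1 - f p.2|)
      (fun p => |f p.1 + f p.2|)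
    simp only [sq_abs] at this
    refine le_trans (le_of_eq ?_) this
    congr 1
    apply Finset.sum_congr rfl
    intro p _
    rw [← abs_mul]
    congr 1
    ring
  have e8 : ∑ p ∈ prs G C, (f p.1 - f p.2) ^ 2 = 2 * (d * F) - 2 * S := by
    have : ∀ p ∈ prs G C, (f p.1 - f p.2) ^ 2 = f p.1 ^ 2 + f p.2 ^ 2 - 2 * (f p.1 * f p.2) := by
      intro p _; ring
    rw [Finset.sum_congr rfl this, Finset.sum_sub_distrib, Finset.sum_add_distrib,
      ← Finset.mul_sum, e1, e2, e3]
    ring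
  have e9 : ∑ p ∈ prs G C, (f p.1 + f p.2) ^ 2 = 2 * (d * F) + 2 * S := by
    have : ∀ p ∈ prs G C, (f p.1 + f p.2) ^ 2 = f p.1 ^ 2 + f p.2 ^ 2 + 2 * (f p.1 * f p.2) := by
      intro p _; ring
    rw [Finset.sum_congr rfl this, Finset.sum_add_distrib, Finset.sum_add_distrib,
      ← Finset.mul_sum, e1, e2, e3]
    ring
  rw [e8, e9, e4] at e7
  have hF0 : 0 ≤ F := Finset.sum_nonneg (fun x _ => sq_nonneg _)
  have hd0 : (0:ℝ) ≤ d := Nat.cast_nonneg d
  have e10 : (c * F) ^ 2 ≤ (∑ x ∈ B, ∑ y ∈ G.neighborFinset x, max (f x ^ 2 - f y ^ 2) 0) ^ 2 := by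
    apply pow_le_pow_left₀ _ e6
    positivity
  nlinarith [e7, e10]

/-- Cheeger's inequality for the quadratic form of the adjacency operator. -/
theorem cheeger (d : ℕ) (hd : ∀ v, (G.neighborFinset v).card = d) (c : ℝ) (hc : 0 ≤ c)
    (hE : ∀ A : Finset V, c * A.card ≤ ∑ x ∈ A, (((G.neighborFinset x) \ A).card : ℝ))
    (B : Finset V) (f : V → ℝ) (hf : ∀ x, x ∉ B → f x = 0) :
    |∑ x ∈ B, ∑ y ∈ G.neighborFinset x, f x * f y|
      ≤ Real.sqrt ((d:ℝ) ^ 2 - c ^ 2) * ∑ x ∈ B, f x ^ 2 := by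
  have h := cheeger_sq G d hd c hc hE B f hf
  have hF0 : 0 ≤ ∑ x ∈ B, f x ^ 2 := Finset.sum_nonneg (fun x _ => sq_nonneg _)
  rw [← Real.sqrt_sq_eq_abs]
  calc Real.sqrt ((∑ x ∈ B, ∑ y ∈ G.neighborFinset x, f x * f y) ^ 2)
      ≤ Real.sqrt (((d:ℝ) ^ 2 - c ^ 2) * (∑ x ∈ B, f x ^ 2) ^ 2) := Real.sqrt_le_sqrt h
    _ = Real.sqrt ((d:ℝ) ^ 2 - c ^ 2) * (∑ x ∈ B, f x ^ 2) := by
      rw [Real.sqrt_mul' _ (sq_nonneg _), Real.sqrt_sq hF0]

end Ch
end Vale.Agent.P165
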