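import Mathlib

/-!
# P165: the series of return probabilities is small in high degree

If `a j ≤ rho ^ j` and `a j ≤ 1 / d` for `j ≥ 1`, and `lam0 * rho < 1`, then for `d` large
the sum of `((j + 1) / 2) * lam ^ j * a j` over `j ≥ 2` is smaller than `lam - 1`, uniformly for
`lam` in `[lam1, lam0]`, `lam1 > 1`.
-/

namespace Vale.Agent.P165.Ser

open Filter Topology

/-- The dominating series is summable. -/
theorem summable_dom {q : ℝ} (h0 : 0 ≤ q) (h1 : q < 1) :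
    Summable (fun j : ℕ => ((j : ℝ) + 3) / 2 * q ^ (j + 2)) := by
  have h : Summable (fun j : ℕ => (j : ℝ) * q ^ j) := by
    have := summable_pow_mul_geometric_of_norm_lt_one 1 (r := q)
      (by rw [Real.norm_eq_abs, abs_of_nonneg h0]; exact h1)
    simpa using this
  have h' : Summable (fun j : ℕ => q ^ j) := summable_geometric_of_lt_one h0 h1
  have h2 := ((h.mul_left (q ^ 2 / 2)).add (h'.mul_left (3 * q ^ 2 / 2)))
  refine h2.congr (fun j => ?_)
  ring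

/-- Small series in high degree. -/
theorem series_small {rho lam1 lam0 : ℝ} (hr : 0 ≤ rho) (hl : 1 < lam1) (hll : lam1 ≤ lam0)
    (hq : lam0 * rho < 1) :
    ∃ D0 : ℕ, 0 < D0 ∧ ∀ d : ℕ, D0 ≤ d → ∀ lam : ℝ, lam1 ≤ lam → lam ≤ lam0 →
      ∀ a : ℕ → ℝ, (∀ j, 0 ≤ a j) → (∀ j, a j ≤ rho ^ j) → (∀ j, 1 ≤ j → a j ≤ 1 / d) →
        Summable (fun j : ℕ => ((j : ℝ) + 3) / 2 * lam ^ (j + 2) * a (j + 2)) ∧
        ∑' j : ℕ, ((j : ℝ) + 3) / 2 * lam ^ (j + 2) * a (j + 2) < lam - 1 := by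
  have hl0 : 0 < lam0 := by linarith
  set q : ℝ := lam0 * rho with hqdef
  have hq0 : 0 ≤ q := mul_nonneg hl0.le hr
  have hdom := summable_dom hq0 hq
  set f : ℕ → ℝ := fun j => ((j : ℝ) + 3) / 2 * q ^ (j + 2) with hf
  have hf0 : ∀ j, 0 ≤ f j := fun j => by rw [hf]; positivity
  set δ : ℝ := lam1 - 1 with hδ
  have hδ0 : 0 < δ := by rw [hδ]; linarith
  -- tail
  obtain ⟨N, hN⟩ : ∃ N : ℕ, ∑' j : ℕ, f (j + N) < δ / 2 := by
    have ht := tendsto_sum_nat_add f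
    exact ((ht.eventually (gt_mem_nhds (by linarith : (0 : ℝ) < δ / 2)))).exists
  -- head
  set S : ℝ := ∑ j ∈ Finset.range N, ((j : ℝ) + 3) / 2 * lam0 ^ (j + 2) with hS
  have hS0 : 0 ≤ S := Finset.sum_nonneg (fun j _ => by positivity)
  obtain ⟨D0, hD0⟩ := exists_nat_gt (2 * S / δ)
  refine ⟨D0 + 1, Nat.succ_pos _, fun d hd lam hlam1 hlam0 a ha0 har had => ?_⟩
  have hlam : 0 < lam := by linarith
  have hd0 : (0 : ℝ) < d := by
    have : (D0 : ℝ) + 1 ≤ d := by exact_mod_cast hd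
    have : (0 : ℝ) ≤ D0 := Nat.cast_nonneg _
    linarith
  have hSd : S * (1 / d) < δ / 2 := by
    have h1 : (D0 : ℝ) + 1 ≤ d := by exact_mod_cast hd
    have h2 : 2 * S / δ < d := by linarith
    rw [div_lt_iff₀ hδ0] at h2
    rw [mul_one_div, div_lt_iff₀ hd0]
    linarith
  -- termwise bound by f
  have hle : ∀ j : ℕ, ((j : ℝ) + 3) / 2 * lam ^ (j + 2) * a (j + 2) ≤ f j := by
    intro j
    have h1 : lam ^ (j + 2) ≤ lam0 ^ (j + 2) := pow_le_pow_left₀ hlam.le hlam0 _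
    have h2 := har (j + 2)
    have h3 : lam ^ (j + 2) * a (j + 2) ≤ lam0 ^ (j + 2) * rho ^ (j + 2) :=
      mul_le_mul h1 h2 (ha0 _) (pow_nonneg hl0.le _)
    have h4 : f j = ((j : ℝ) + 3) / 2 * (lam0 ^ (j + 2) * rho ^ (j + 2)) := by
      simp only [hf, hqdef, mul_pow]
    rw [h4, mul_assoc]
    exact mul_le_mul_of_nonneg_left h3 (by positivity)
  have hnn : ∀ j : ℕ, 0 ≤ ((j : ℝ) + 3) / 2 * lam ^ (j + 2) * a (j + 2) := fun j =>
    mul_nonneg (by positivity) (ha0 _)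
  have hsum : Summable (fun j : ℕ => ((j : ℝ) + 3) / 2 * lam ^ (j + 2) * a (j + 2)) :=
    Summable.of_nonneg_of_le hnn hle hdom
  refine ⟨hsum, ?_⟩
  rw [← hsum.sum_add_tsum_nat_add N]
  have hhead : ∑ j ∈ Finset.range N, ((j : ℝ) + 3) / 2 * lam ^ (j + 2) * a (j + 2)
      ≤ S * (1 / d) := by
    rw [hS, Finset.sum_mul]
    refine Finset.sum_le_sum (fun j _ => ?_)
    have h1 : lam ^ (j + 2) ≤ lam0 ^ (j + 2) := pow_le_pow_left₀ hlam.le hlam0 _
    have h2 := had (j + 2) (by omega)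
    have h3 : lam ^ (j + 2) * a (j + 2) ≤ lam0 ^ (j + 2) * (1 / d) :=
      mul_le_mul h1 h2 (ha0 _) (pow_nonneg hl0.le _)
    rw [mul_assoc, mul_assoc]
    exact mul_le_mul_of_nonneg_left h3 (by positivity)
  have htail' : ∑' j : ℕ, (((j + N : ℕ) : ℝ) + 3) / 2 * lam ^ (j + N + 2) * a (j + N + 2)
      ≤ ∑' j : ℕ, f (j + N) := by
    refine Summable.tsum_le_tsum (fun j => hle (j + N)) ?_ ?_
    · exact (summable_nat_add_iff N).2 hsum
    · exact (summable_nat_add_iff N).2 hdom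
  have : δ ≤ lam - 1 := by rw [hδ]; linarith
  linarith

end Vale.Agent.P165.Ser
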