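import Vale.Agent.P165.Defs
import Vale.Agent.P165.Series

/-!
# P165: the criterion series is smaller than `d p - 1` in high degree
-/

namespace Vale.Agent.P165.Ser

open Finset

variable {V : Type*} [DecidableEq V]

theorem nw_nonneg (G : SimpleGraph V) [G.LocallyFinite] (k : ℕ) (x y : V) :
    0 ≤ nw G k x y := by
  induction k generalizing x with
  | zero => simp only [nw]; split_ifs <;> norm_num
  | succ k ih => simp only [nw]; exact Finset.sum_nonneg (fun z _ => ih z)

/-- In a simple `d`-regular graph at most `d ^ k` walks of length `k + 1` join two vertices. -/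
theorem nw_succ_le (G : SimpleGraph V) [G.LocallyFinite] {d : ℕ}
    (hd : ∀ x, (G.neighborFinset x).card = d) (k : ℕ) (x y : V) :
    nw G (k + 1) x y ≤ (d : ℝ) ^ k := by
  induction k generalizing x with
  | zero =>
    simp only [nw, pow_zero]
    rw [Finset.sum_ite_eq' (G.neighborFinset x) y (fun _ => (1 : ℝ))]
    split_ifs <;> norm_num
  | succ k ih =>
    have h : nw G (k + 1 + 1) x y = ∑ z ∈ G.neighborFinset x, nw G (k + 1) z y := rfl
    rw [h]
    calc ∑ z ∈ G.neighborFinset x, nw G (k + 1) z y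
        ≤ ∑ _z ∈ G.neighborFinset x, (d : ℝ) ^ k := Finset.sum_le_sum (fun z _ => ih z)
      _ = (d : ℝ) ^ (k + 1) := by
        rw [Finset.sum_const, hd, nsmul_eq_mul]; ring

/-- **The series row.** For `rho < 1`, `1 < lam1 ≤ lam0`, `lam0 * rho < 1` and `d` large, the
series of the criterion at `p = lam / d` is smaller than `lam - 1`, for all `lam` in
`[lam1, lam0]` and all `d`-regular graphs with at most `(rho d) ^ k` closed walks of length `k`
at `o`. -/
theorem crit_lt {rho lam1 lam0 : ℝ} (hr : 0 ≤ rho) (hl : 1 < lam1) (hll : lam1 ≤ lam0)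
    (hq : lam0 * rho < 1) :
    ∃ D0 : ℕ, 0 < D0 ∧ ∀ d : ℕ, D0 ≤ d → ∀ lam : ℝ, lam1 ≤ lam → lam ≤ lam0 →
      ∀ {V : Type*} [DecidableEq V] (G : SimpleGraph V) [G.LocallyFinite] (o : V),
        (∀ x, (G.neighborFinset x).card = d) →
        (∀ k, nw G k o o ≤ (rho * d) ^ k) →
        Summable (fun k : ℕ => ((k : ℝ) + 3) / 2 * ((lam / d) ^ (k + 2) * nw G (k + 2) o o)) ∧
        crit G (lam / d) o < lam - 1 := by
  obtain ⟨D0, hD0, H⟩ := series_small hr hl hll hq
  refine ⟨D0, hD0, fun d hd lam h1 h2 V _ G _ o hreg hw => ?_⟩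
  have hd0 : (0 : ℝ) < d := by
    have : 0 < d := lt_of_lt_of_le hD0 hd
    exact_mod_cast this
  have key := H d hd lam h1 h2 (fun j => nw G j o o / (d : ℝ) ^ j)
    (fun j => div_nonneg (nw_nonneg G j o o) (by positivity))
    (fun j => by
      rw [div_le_iff₀ (by positivity)]
      calc nw G j o o ≤ (rho * d) ^ j := hw j
        _ = rho ^ j * (d : ℝ) ^ j := mul_pow _ _ _)
    (fun j hj => by
      obtain ⟨i, rfl⟩ : ∃ i, j = i + 1 := ⟨j - 1, by omega⟩
      rw [div_le_div_iff₀ (by positivity) hd0]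
      have := nw_succ_le G hreg i o o
      calc nw G (i + 1) o o * (d : ℝ) ≤ (d : ℝ) ^ i * d :=
            mul_le_mul_of_nonneg_right this hd0.le
        _ = 1 * (d : ℝ) ^ (i + 1) := by ring)
  have hterm : (fun j : ℕ => ((j : ℝ) + 3) / 2 * lam ^ (j + 2) *
      (nw G (j + 2) o o / (d : ℝ) ^ (j + 2)))
      = fun k : ℕ => ((k : ℝ) + 3) / 2 * ((lam / d) ^ (k + 2) * nw G (k + 2) o o) := by
    funext j
    rw [div_pow]
    ring
  rw [hterm] at key
  exact ⟨key.1, key.2⟩

end Vale.Agent.P165.Ser
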