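import Vale.Agent.P165.Crit

/-!
# P165: the criterion series, explicit form

`crit G p o ≤ (3 / 2) * p ^ 2 * d / (1 - p r) ^ 2`, and `432 / eps ^ 6 < d` suffices for
`crit G (lam / d) o < lam - 1`.
-/

namespace Vale.Agent.P165.Ser

open Finset

variable {V : Type*} [DecidableEq V]

/-- last-step recursion -/
theorem nw_last (G : SimpleGraph V) [G.LocallyFinite] (k : ℕ) (x y : V) :
    nw G (k + 1) x y = ∑ z ∈ G.neighborFinset y, nw G k x z := by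
  induction k generalizing x with
  | zero =>
    simp only [nw]
    rw [Finset.sum_ite_eq' (G.neighborFinset x) y (fun _ => (1 : ℝ)),
      Finset.sum_ite_eq (G.neighborFinset y) x (fun _ => (1 : ℝ))]
    have : y ∈ G.neighborFinset x ↔ x ∈ G.neighborFinset y := by
      rw [SimpleGraph.mem_neighborFinset, SimpleGraph.mem_neighborFinset, SimpleGraph.adj_comm]
    simp only [this]
  | succ k ih =>
    have h : nw G (k + 1 + 1) x y = ∑ z ∈ G.neighborFinset x, nw G (k + 1) z y := rfl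
    rw [h, Finset.sum_congr rfl (fun z _ => ih z), Finset.sum_comm]
    rfl

/-- closed walks of length `k + 2` at `o` -/
theorem nw_two (G : SimpleGraph V) [G.LocallyFinite] (k : ℕ) (o : V) :
    nw G (k + 2) o o = ∑ x ∈ G.neighborFinset o, ∑ y ∈ G.neighborFinset o, nw G k x y := by
  have h : nw G (k + 1 + 1) o o = ∑ z ∈ G.neighborFinset o, nw G (k + 1) z o := rfl
  rw [h]
  exact Finset.sum_congr rfl (fun z _ => nw_last G k z o)

/-- `∑ (k + 3) / 2 * q ^ k ≤ (3 / 2) / (1 - q) ^ 2`, with summability. -/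
theorem geom_three {q : ℝ} (h0 : 0 ≤ q) (h1 : q < 1) :
    Summable (fun k : ℕ => ((k : ℝ) + 3) / 2 * q ^ k) ∧
      ∑' k : ℕ, ((k : ℝ) + 3) / 2 * q ^ k ≤ (3 / 2) / (1 - q) ^ 2 := by
  have hn : ‖q‖ < 1 := by rw [Real.norm_eq_abs, abs_of_nonneg h0]; exact h1
  have hA : HasSum (fun k : ℕ => (k : ℝ) * q ^ k) (q / (1 - q) ^ 2) :=
    hasSum_coe_mul_geometric_of_norm_lt_one hn
  have hB : HasSum (fun k : ℕ => q ^ k) (1 - q)⁻¹ := hasSum_geometric_of_lt_one h0 h1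
  have hC := (hA.mul_left (1 / 2)).add (hB.mul_left (3 / 2))
  have hfun : (fun k : ℕ => 1 / 2 * ((k : ℝ) * q ^ k) + 3 / 2 * q ^ k)
      = fun k : ℕ => ((k : ℝ) + 3) / 2 * q ^ k := by
    funext k; ring
  rw [hfun] at hC
  refine ⟨hC.summable, ?_⟩
  rw [hC.tsum_eq]
  have h2 : 0 < 1 - q := by linarith
  have h3 : 1 / 2 * (q / (1 - q) ^ 2) + 3 / 2 * (1 - q)⁻¹
      = (q / 2 + 3 / 2 * (1 - q)) / (1 - q) ^ 2 := by
    field_simp
  rw [h3]
  exact div_le_div_of_nonneg_right (by linarith) (by positivity)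

/-- The series of the criterion, from the walk bound on the neighbourhood of `o`. -/
theorem crit_le (G : SimpleGraph V) [G.LocallyFinite] {d : ℕ} {r p : ℝ} (o : V) (hp : 0 ≤ p)
    (hr : 0 ≤ r) (hpr : p * r < 1)
    (hB : ∀ k, ∑ x ∈ G.neighborFinset o, ∑ y ∈ G.neighborFinset o, nw G k x y ≤ r ^ k * d) :
    Summable (fun k : ℕ => ((k : ℝ) + 3) / 2 * (p ^ (k + 2) * nw G (k + 2) o o)) ∧
      crit G p o ≤ 3 / 2 * (p ^ 2 * d) / (1 - p * r) ^ 2 := by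
  have hq0 : 0 ≤ p * r := mul_nonneg hp hr
  obtain ⟨hs, hle⟩ := geom_three hq0 hpr
  have hs' : Summable (fun k : ℕ => p ^ 2 * d * (((k : ℝ) + 3) / 2 * (p * r) ^ k)) :=
    hs.mul_left _
  have hterm : ∀ k : ℕ, ((k : ℝ) + 3) / 2 * (p ^ (k + 2) * nw G (k + 2) o o)
      ≤ p ^ 2 * d * (((k : ℝ) + 3) / 2 * (p * r) ^ k) := by
    intro k
    have h1 : nw G (k + 2) o o ≤ r ^ k * d := by rw [nw_two]; exact hB k
    have h2 : p ^ (k + 2) * nw G (k + 2) o o ≤ p ^ (k + 2) * (r ^ k * d) :=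
      mul_le_mul_of_nonneg_left h1 (by positivity)
    calc ((k : ℝ) + 3) / 2 * (p ^ (k + 2) * nw G (k + 2) o o)
        ≤ ((k : ℝ) + 3) / 2 * (p ^ (k + 2) * (r ^ k * d)) :=
          mul_le_mul_of_nonneg_left h2 (by positivity)
      _ = p ^ 2 * d * (((k : ℝ) + 3) / 2 * (p * r) ^ k) := by rw [mul_pow]; ring
  have hnn : ∀ k : ℕ, 0 ≤ ((k : ℝ) + 3) / 2 * (p ^ (k + 2) * nw G (k + 2) o o) := fun k =>
    mul_nonneg (by positivity) (mul_nonneg (by positivity) (nw_nonneg G _ _ _))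
  have hsum := Summable.of_nonneg_of_le hnn hterm hs'
  refine ⟨hsum, ?_⟩
  have h4 : crit G p o ≤ ∑' k : ℕ, p ^ 2 * d * (((k : ℝ) + 3) / 2 * (p * r) ^ k) :=
    Summable.tsum_le_tsum hterm hsum hs'
  rw [tsum_mul_left] at h4
  have h5 : p ^ 2 * d * ∑' k : ℕ, ((k : ℝ) + 3) / 2 * (p * r) ^ k
      ≤ p ^ 2 * d * ((3 / 2) / (1 - p * r) ^ 2) :=
    mul_le_mul_of_nonneg_left hle (by positivity)
  calc crit G p o ≤ _ := h4
    _ ≤ _ := h5
    _ = _ := by ring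

/-- **Explicit form of the series row**: `432 / eps ^ 6 < d` suffices. -/
theorem crit_lt_explicit (G : SimpleGraph V) [G.LocallyFinite] {d : ℕ} {eps : ℝ} (o : V)
    (he : 0 < eps) (he1 : eps ≤ 1) (hd : 432 / eps ^ 6 < d)
    (hB : ∀ k, ∑ x ∈ G.neighborFinset o, ∑ y ∈ G.neighborFinset o, nw G k x y
      ≤ Real.sqrt ((d : ℝ) ^ 2 - (eps * d) ^ 2) ^ k * d)
    (lam : ℝ) (h1 : 1 + (1 - Real.sqrt (1 - eps ^ 2)) / 4 ≤ lam)
    (h2 : lam ≤ 1 + (1 - Real.sqrt (1 - eps ^ 2)) / 2) :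
    lam / d * Real.sqrt ((d : ℝ) ^ 2 - (eps * d) ^ 2) < 1 ∧
    Summable (fun k : ℕ => ((k : ℝ) + 3) / 2 * ((lam / d) ^ (k + 2) * nw G (k + 2) o o)) ∧
      crit G (lam / d) o < lam - 1 := by
  have hd0 : (0 : ℝ) < d := lt_trans (by positivity) hd
  set rho : ℝ := Real.sqrt (1 - eps ^ 2) with hrho
  have hr0 : 0 ≤ rho := Real.sqrt_nonneg _
  have hsq : rho ^ 2 = 1 - eps ^ 2 := Real.sq_sqrt (by nlinarith)
  have hr1 : rho ≤ 1 - eps ^ 2 / 2 := by
    have h3 : rho ≤ Real.sqrt ((1 - eps ^ 2 / 2) ^ 2) :=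
      Real.sqrt_le_sqrt (by nlinarith [sq_nonneg (eps ^ 2)])
    rwa [Real.sqrt_sq (by nlinarith)] at h3
  have hgap : eps ^ 2 / 2 ≤ 1 - rho := by linarith
  have hgap0 : 0 < 1 - rho := lt_of_lt_of_le (by positivity) hgap
  have hr : Real.sqrt ((d : ℝ) ^ 2 - (eps * d) ^ 2) = rho * d := by
    have : (d : ℝ) ^ 2 - (eps * d) ^ 2 = (1 - eps ^ 2) * (d : ℝ) ^ 2 := by ring
    rw [this, Real.sqrt_mul' _ (by positivity), Real.sqrt_sq hd0.le]
  rw [hr] at hB ⊢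
  have hlam0 : 0 < lam := by linarith
  have hlr : lam / d * (rho * d) = lam * rho := by field_simp
  have hq : lam * rho ≤ 1 - (1 - rho) / 2 := by
    have h3 : lam * rho ≤ (1 + (1 - rho) / 2) * rho := mul_le_mul_of_nonneg_right h2 hr0
    nlinarith
  have hq1 : lam / d * (rho * d) < 1 := by rw [hlr]; linarith
  obtain ⟨hs, hle⟩ := crit_le G (d := d) (r := rho * d) (p := lam / d) o
    (by positivity) (by positivity) hq1 hB
  refine ⟨hq1, hs, lt_of_le_of_lt hle ?_⟩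
  rw [hlr]
  have h5 : (1 - rho) / 2 ≤ 1 - lam * rho := by linarith
  have hpd : (lam / d) ^ 2 * d = lam ^ 2 / d := by field_simp
  rw [hpd]
  have hlam32 : lam ≤ 3 / 2 := by linarith
  have hl2 : lam ^ 2 ≤ 9 / 4 := by nlinarith
  have h6 : 3 / 2 * (lam ^ 2 / d) / (1 - lam * rho) ^ 2
      ≤ 3 / 2 * (9 / 4 / d) / ((1 - rho) / 2) ^ 2 := by
    apply div_le_div₀
    · positivity
    · have : lam ^ 2 / d ≤ 9 / 4 / d := div_le_div_of_nonneg_right hl2 hd0.le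
      linarith
    · positivity
    · exact pow_le_pow_left₀ (by linarith) h5 2
  refine lt_of_le_of_lt h6 ?_
  have h7 : 3 / 2 * (9 / 4 / (d : ℝ)) / ((1 - rho) / 2) ^ 2 = 27 / 2 / (d * (1 - rho) ^ 2) := by
    field_simp
    ring
  rw [h7, div_lt_iff₀ (by positivity)]
  have h8 : (1 - rho) / 4 ≤ lam - 1 := by linarith
  have h9 : eps ^ 6 / 8 ≤ (1 - rho) ^ 3 := by
    have := pow_le_pow_left₀ (by positivity : (0:ℝ) ≤ eps ^ 2 / 2) hgap 3
    calc eps ^ 6 / 8 = (eps ^ 2 / 2) ^ 3 := by ring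
      _ ≤ _ := this
  have h10 : 432 < (d : ℝ) * eps ^ 6 := by
    rwa [div_lt_iff₀ (by positivity)] at hd
  have h11 : (54 : ℝ) < d * (1 - rho) ^ 3 := by
    have : (d : ℝ) * (eps ^ 6 / 8) ≤ d * (1 - rho) ^ 3 := mul_le_mul_of_nonneg_left h9 hd0.le
    linarith
  have h12 : (1 - rho) / 4 * (d * (1 - rho) ^ 2) ≤ (lam - 1) * (d * (1 - rho) ^ 2) :=
    mul_le_mul_of_nonneg_right h8 (by positivity)
  have h13 : (1 - rho) / 4 * (d * (1 - rho) ^ 2) = d * (1 - rho) ^ 3 / 4 := by ring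
  linarith

end Vale.Agent.P165.Ser
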