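import Mathlib
import Vale.Agent.P165.Defs
import Vale.Agent.P165.Bern

/-!
# P165: invariance of the finite volume quantities under automorphisms
-/

namespace Vale.Agent.P165.Iso

open Finset

set_option linter.unusedSectionVars false

theorem ex_image {α β : Type*} [DecidableEq α] [DecidableEq β] (p : ℝ) (σ : α → β)
    (hσ : Function.Injective σ) (F : Finset α) (f : Finset β → ℝ) :
    ex p (F.image σ) f = ex p F (fun ω => f (ω.image σ)) := by
  induction F using Finset.induction_on generalizing f with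
  | empty => simp only [image_empty, ex_empty]
  | insert a F ha ih =>
    have h1 : σ a ∉ F.image σ := by
      intro h
      obtain ⟨b, hb, hab⟩ := mem_image.1 h
      exact ha (hσ hab ▸ hb)
    rw [image_insert, ex_insert p h1, ex_insert p ha, ih, ih]
    simp only [image_insert]

theorem mem_ed {V : Type*} {G : SimpleGraph V} {S : Finset V} {x y : V} :
    s(x, y) ∈ ed G S ↔ (x ∈ S ∧ y ∈ S) ∧ G.Adj x y := by
  classical
  unfold ed
  rw [mem_filter, mk_mem_sym2_iff, SimpleGraph.mem_edgeSet]

variable {V : Type*} [DecidableEq V] {G : SimpleGraph V}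

theorem Cn_map {ω : Finset (Sym2 V)} {S : Finset V} {x y : V} (f : V → V)
    (h : Cn ω S x y) : Cn (ω.image (Sym2.map f)) (S.image f) (f x) (f y) := by
  refine ⟨mem_image_of_mem f h.1, ?_⟩
  have key : ∀ z, Relation.ReflTransGen (fun a b => s(a, b) ∈ ω ∧ b ∈ S) x z →
      Relation.ReflTransGen (fun a b => s(a, b) ∈ ω.image (Sym2.map f) ∧ b ∈ S.image f)
        (f x) (f z) := by
    intro z hz
    induction hz with
    | refl => exact Relation.ReflTransGen.refl
    | @tail b c _ hab ih =>
      refine ih.tail ⟨?_, mem_image_of_mem f hab.2⟩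
      have := mem_image_of_mem (Sym2.map f) hab.1
      rwa [Sym2.map_mk] at this
  exact key y h.2

theorem image_symm_image {α : Type*} [DecidableEq α] (e f : α → α) (h : ∀ a, f (e a) = a)
    (S : Finset α) : (S.image e).image f = S := by
  rw [image_image]
  have : f ∘ e = id := funext h
  rw [this, image_id]

theorem Cn_iso (e : G ≃g G) {ω : Finset (Sym2 V)} {S : Finset V} {x y : V} :
    Cn (ω.image (Sym2.map e)) (S.image e) (e x) (e y) ↔ Cn ω S x y := by
  constructor
  · intro h
    have h2 := Cn_map e.symm h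
    rwa [image_symm_image e e.symm (fun a => e.symm_apply_apply a),
      image_symm_image (Sym2.map e) (Sym2.map e.symm) (fun a => by
        rw [Sym2.map_map]
        have : (⇑e.symm ∘ ⇑e) = id := funext (fun a => e.symm_apply_apply a)
        rw [this, Sym2.map_id, id]), e.symm_apply_apply, e.symm_apply_apply] at h2
  · exact Cn_map e

theorem ed_iso (e : G ≃g G) (S : Finset V) :
    ed G (S.image e) = (ed G S).image (Sym2.map e) := by
  ext z
  induction z using Sym2.ind with
  | _ a b =>
    rw [mem_ed]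
    constructor
    · rintro ⟨⟨ha, hb⟩, hab⟩
      obtain ⟨a', ha', rfl⟩ := mem_image.1 ha
      obtain ⟨b', hb', rfl⟩ := mem_image.1 hb
      exact mem_image.2
        ⟨s(a', b'), mem_ed.2 ⟨⟨ha', hb'⟩, e.map_adj_iff.1 hab⟩, by rw [Sym2.map_mk]⟩
    · intro h
      obtain ⟨z, hz, hzab⟩ := mem_image.1 h
      induction z using Sym2.ind with
      | _ c d =>
        rw [mem_ed] at hz
        rw [Sym2.map_mk, Sym2.eq_iff] at hzab
        rcases hzab with ⟨rfl, rfl⟩ | ⟨rfl, rfl⟩
        · exact ⟨⟨mem_image_of_mem e hz.1.1, mem_image_of_mem e hz.1.2⟩, e.map_adj_iff.2 hz.2⟩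
        · exact ⟨⟨mem_image_of_mem e hz.1.2, mem_image_of_mem e hz.1.1⟩,
            (e.map_adj_iff.2 hz.2).symm⟩

theorem sym2_map_inj (e : G ≃g G) : Function.Injective (Sym2.map e) :=
  Sym2.map.injective e.injective

theorem tau_iso (e : G ≃g G) (p : ℝ) (S : Finset V) (x y : V) :
    tau G p (S.image e) (e x) (e y) = tau G p S x y := by
  unfold tau pr
  rw [ed_iso e S, ex_image p _ (sym2_map_inj e)]
  refine ex_congr p fun ω _ => ?_
  have : Cn (ω.image (Sym2.map e)) (S.image e) (e x) (e y) = Cn ω S x y := propext (Cn_iso e)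
  exact congrArg ind this

theorem chi_iso (e : G ≃g G) (p : ℝ) (S : Finset V) (x : V) :
    chi G p (S.image e) (e x) = chi G p S x := by
  unfold chi
  rw [sum_image (fun a _ b _ h => e.injective h)]
  exact sum_congr rfl fun y _ => tau_iso e p S x y

variable [G.LocallyFinite]

theorem neighborFinset_iso (e : G ≃g G) (x : V) :
    G.neighborFinset (e x) = (G.neighborFinset x).image e := by
  ext z
  rw [SimpleGraph.mem_neighborFinset, mem_image]
  constructor
  · intro h
    refine ⟨e.symm z, ?_, e.apply_symm_apply z⟩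
    rw [SimpleGraph.mem_neighborFinset]
    have : G.Adj (e x) (e (e.symm z)) := by rwa [e.apply_symm_apply]
    exact e.map_adj_iff.1 this
  · rintro ⟨w, hw, rfl⟩
    rw [SimpleGraph.mem_neighborFinset] at hw
    exact e.map_adj_iff.2 hw

theorem phi_iso (e : G ≃g G) (p : ℝ) (S : Finset V) (o : V) :
    phi G p (S.image e) (e o) = phi G p S o := by
  unfold phi
  rw [sum_image (fun a _ b _ h => e.injective h)]
  congr 1
  refine sum_congr rfl fun x _ => ?_
  rw [sum_const, sum_const, tau_iso e, neighborFinset_iso e x,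
    ← image_sdiff _ _ e.injective, card_image_of_injective _ e.injective]

theorem nw_iso (e : G ≃g G) (k : ℕ) (x y : V) : nw G k (e x) (e y) = nw G k x y := by
  induction k generalizing x with
  | zero =>
    simp only [nw]
    by_cases h : x = y
    · rw [if_pos h, if_pos (by rw [h])]
    · rw [if_neg h, if_neg (fun h' => h (e.injective h'))]
  | succ k ih =>
    simp only [nw]
    rw [neighborFinset_iso e x, sum_image (fun a _ b _ h => e.injective h)]
    exact sum_congr rfl fun z _ => ih z

theorem gr_iso (e : G ≃g G) (p : ℝ) (x y : V) : gr G p (e x) (e y) = gr G p x y := by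
  unfold gr
  exact tsum_congr fun k => by rw [nw_iso e]

theorem crit_iso (e : G ≃g G) (p : ℝ) (x : V) : crit G p (e x) = crit G p x := by
  unfold crit
  exact tsum_congr fun k => by rw [nw_iso e]

theorem mem_edT {S : Finset V} {x y : V} :
    s(x, y) ∈ edT G S ↔ (x ∈ S ∨ y ∈ S) ∧ G.Adj x y := by
  unfold edT
  rw [mem_biUnion]
  constructor
  · rintro ⟨a, ha, h⟩
    obtain ⟨z, hz, hzz⟩ := mem_image.1 h
    rw [SimpleGraph.mem_neighborFinset] at hz
    rw [Sym2.eq_iff] at hzz
    rcases hzz with ⟨rfl, rfl⟩ | ⟨rfl, rfl⟩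
    · exact ⟨Or.inl ha, hz⟩
    · exact ⟨Or.inr ha, hz.symm⟩
  · rintro ⟨h | h, hxy⟩
    · exact ⟨x, h, mem_image.2 ⟨y, by rwa [SimpleGraph.mem_neighborFinset], rfl⟩⟩
    · exact ⟨y, h, mem_image.2 ⟨x, by rw [SimpleGraph.mem_neighborFinset]; exact hxy.symm,
        Sym2.eq_swap⟩⟩

theorem edT_iso (e : G ≃g G) (S : Finset V) :
    edT G (S.image e) = (edT G S).image (Sym2.map e) := by
  ext z
  induction z using Sym2.ind with
  | _ a b =>
    rw [mem_edT]
    constructor
    · rintro ⟨hab, hadj⟩
      obtain ⟨a', rfl⟩ := e.surjective a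
      obtain ⟨b', rfl⟩ := e.surjective b
      refine mem_image.2 ⟨s(a', b'), mem_edT.2 ⟨?_, e.map_adj_iff.1 hadj⟩, by rw [Sym2.map_mk]⟩
      rcases hab with h | h
      · obtain ⟨c, hc, hca⟩ := mem_image.1 h
        exact Or.inl (e.injective hca ▸ hc)
      · obtain ⟨c, hc, hca⟩ := mem_image.1 h
        exact Or.inr (e.injective hca ▸ hc)
    · intro h
      obtain ⟨z, hz, hzab⟩ := mem_image.1 h
      induction z using Sym2.ind with
      | _ c d =>
        rw [mem_edT] at hz
        rw [Sym2.map_mk, Sym2.eq_iff] at hzab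
        rcases hzab with ⟨rfl, rfl⟩ | ⟨rfl, rfl⟩
        · exact ⟨hz.1.imp (mem_image_of_mem e) (mem_image_of_mem e), e.map_adj_iff.2 hz.2⟩
        · exact ⟨hz.1.symm.imp (mem_image_of_mem e) (mem_image_of_mem e),
            (e.map_adj_iff.2 hz.2).symm⟩

omit [G.LocallyFinite] in
theorem Exit_map (e : G ≃g G) {ω : Finset (Sym2 V)} {S : Finset V} {x : V}
    (h : Exit ω S x) : Exit (ω.image (Sym2.map e)) (S.image e) (e x) := by
  obtain ⟨y, z, h1, h2, h3⟩ := h
  refine ⟨e y, e z, Cn_map e h1, ?_, ?_⟩
  · intro h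
    obtain ⟨c, hc, hcz⟩ := mem_image.1 h
    exact h2 (e.injective hcz ▸ hc)
  · have := mem_image_of_mem (Sym2.map e) h3
    rwa [Sym2.map_mk] at this

omit [G.LocallyFinite] in
theorem Exit_iso (e : G ≃g G) {ω : Finset (Sym2 V)} {S : Finset V} {x : V} :
    Exit (ω.image (Sym2.map e)) (S.image e) (e x) ↔ Exit ω S x := by
  constructor
  · intro h
    have h2 := Exit_map e.symm h
    rwa [image_symm_image e e.symm (fun a => e.symm_apply_apply a),
      image_symm_image (Sym2.map e) (Sym2.map e.symm) (fun a => by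
        rw [Sym2.map_map]
        have : (⇑e.symm ∘ ⇑e) = id := funext (fun a => e.symm_apply_apply a)
        rw [this, Sym2.map_id, id]), e.symm_apply_apply] at h2
  · exact Exit_map e

theorem theta_iso (e : G ≃g G) (p : ℝ) (S : Finset V) (x : V) :
    theta G p (S.image e) (e x) = theta G p S x := by
  unfold theta pr
  rw [edT_iso e S, ex_image p _ (sym2_map_inj e)]
  refine ex_congr p fun ω _ => ?_
  have : Exit (ω.image (Sym2.map e)) (S.image e) (e x) = Exit ω S x := propext (Exit_iso e)
  exact congrArg ind this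

end Vale.Agent.P165.Iso
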