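import Mathlib
import Vale.Agent.P165.Defs
import Vale.Agent.P165.Bern
import Vale.Agent.P165.FinPerc
import Vale.Agent.P165.U12
import Vale.Agent.P165.Iso

/-!
# P165: the Simon-Lieb inequality (exploration of the cluster in `S`) and row DA:
if `phi G p S o < 1` for one finite `S ∋ o`, then the expected cluster sizes are bounded.
-/

namespace Vale.Agent.P165

open Finset

set_option linter.unusedSectionVars false

namespace DAx

variable {V : Type*} [DecidableEq V] {G : SimpleGraph V}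

open Classical in
/-- the cluster of `x` inside `T` -/
noncomputable def cl (ω : Finset (Sym2 V)) (T : Finset V) (x : V) : Finset V :=
  T.filter (fun u => Cn ω T x u)

theorem mem_cl {ω : Finset (Sym2 V)} {T : Finset V} {x u : V} :
    u ∈ cl ω T x ↔ Cn ω T x u := by
  classical
  unfold cl
  rw [mem_filter]
  exact ⟨fun h => h.2, fun h => ⟨h.right_mem, h⟩⟩

theorem Cn_tail {ω : Finset (Sym2 V)} {T : Finset V} {x b c : V} (h : Cn ω T x b)
    (he : s(b, c) ∈ ω) (hc : c ∈ T) : Cn ω T x c :=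
  ⟨h.1, h.2.tail ⟨he, hc⟩⟩

variable [G.LocallyFinite]

/-- last exit from the cluster of `x` in `S ∩ L` -/
theorem exit_event {ω : Finset (Sym2 V)} {L S : Finset V} {x y : V} (hω : ω ⊆ ed G L)
    (hx : x ∈ S) (hy : y ∉ S) (h : Cn ω L x y) :
    ∃ u ∈ S ∩ L, ∃ z ∈ G.neighborFinset u \ S, Cn ω (S ∩ L) x u ∧ s(u, z) ∈ ω ∧
      Cn ω (L \ cl ω (S ∩ L) x) z y := by
  have hyL := h.right_mem
  have key : ∀ a, Relation.ReflTransGen (fun a b => s(a, b) ∈ ω ∧ b ∈ L) a y → a ∈ L →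
      ((a ∈ cl ω (S ∩ L) x → ∃ u ∈ S ∩ L, ∃ z ∈ G.neighborFinset u \ S,
          Cn ω (S ∩ L) x u ∧ s(u, z) ∈ ω ∧ Cn ω (L \ cl ω (S ∩ L) x) z y) ∧
        (a ∉ cl ω (S ∩ L) x → (∃ u ∈ S ∩ L, ∃ z ∈ G.neighborFinset u \ S,
          Cn ω (S ∩ L) x u ∧ s(u, z) ∈ ω ∧ Cn ω (L \ cl ω (S ∩ L) x) z y) ∨
          Cn ω (L \ cl ω (S ∩ L) x) a y)) := by
    intro a ha
    induction ha using Relation.ReflTransGen.head_induction_on with
    | refl =>
      intro _
      refine ⟨fun h' => absurd (mem_inter.1 (mem_cl.1 h').right_mem).1 hy, fun h' => Or.inr ?_⟩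
      exact Cn.refl (mem_sdiff.2 ⟨hyL, h'⟩)
    | @head a b hab _ ih =>
      intro haL
      have ihb := ih hab.2
      by_cases hb : b ∈ cl ω (S ∩ L) x
      · exact ⟨fun _ => ihb.1 hb, fun _ => Or.inl (ihb.1 hb)⟩
      · rcases ihb.2 hb with h1 | h1
        · exact ⟨fun _ => h1, fun _ => Or.inl h1⟩
        · refine ⟨fun ha' => ?_, fun ha' => Or.inr ?_⟩
          · have hca := mem_cl.1 ha'
            refine ⟨a, hca.right_mem, b, ?_, hca, hab.1, h1⟩
            rw [mem_sdiff, SimpleGraph.mem_neighborFinset]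
            refine ⟨(mem_ed.1 (hω hab.1)).2.2, fun hbS => hb ?_⟩
            exact mem_cl.2 (Cn_tail hca hab.1 (mem_inter.2 ⟨hbS, hab.2⟩))
          · exact h1.head (mem_sdiff.2 ⟨haL, ha'⟩) hab.1
  have hxL := h.1
  exact (key x h.2 hxL).1 (mem_cl.2 (Cn.refl (mem_inter.2 ⟨hx, hxL⟩)))

omit [G.LocallyFinite] in
/-- the cluster depends only on the edges of `T` that touch it -/
theorem cl_local {ω ω' : Finset (Sym2 V)} {T L : Finset V} {x : V} (hx : x ∈ T)
    (hω : ω ⊆ ed G L) (hω' : ω' ⊆ ed G L)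
    (h : ∀ b ∈ cl ω T x, ∀ c ∈ T, G.Adj b c → (s(b, c) ∈ ω ↔ s(b, c) ∈ ω')) :
    cl ω' T x = cl ω T x := by
  have h1 : ∀ u, Relation.ReflTransGen (fun a b => s(a, b) ∈ ω ∧ b ∈ T) x u →
      Cn ω T x u ∧ Cn ω' T x u := by
    intro u hu
    induction hu with
    | refl => exact ⟨Cn.refl hx, Cn.refl hx⟩
    | @tail b c _ hbc ih =>
      refine ⟨Cn_tail ih.1 hbc.1 hbc.2, Cn_tail ih.2 ?_ hbc.2⟩
      exact (h b (mem_cl.2 ih.1) c hbc.2 (mem_ed.1 (hω hbc.1)).2.2).1 hbc.1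
  have h2 : ∀ u, Relation.ReflTransGen (fun a b => s(a, b) ∈ ω' ∧ b ∈ T) x u →
      Cn ω T x u := by
    intro u hu
    induction hu with
    | refl => exact Cn.refl hx
    | @tail b c _ hbc ih =>
      refine Cn_tail ih ?_ hbc.2
      exact (h b (mem_cl.2 ih) c hbc.2 (mem_ed.1 (hω' hbc.1)).2.2).2 hbc.1
  ext u
  rw [mem_cl, mem_cl]
  exact ⟨fun hu => h2 u hu.2, fun hu => (h1 u hu.2).2⟩

/-- independence of the cluster, the exit edge and the rest -/
theorem indep {p : ℝ} {L T C : Finset V} {x u z y : V} (hT : T ⊆ L) (hx : x ∈ T)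
    (hu : u ∈ C) (hC : C ⊆ T) (hz : z ∈ L) (hzT : z ∉ T) (huz : G.Adj u z) :
    pr p (ed G L) (fun ω => cl ω T x = C ∧ s(u, z) ∈ ω ∧ Cn ω (L \ C) z y) =
      pr p (ed G L) (fun ω => cl ω T x = C) * (p * tau G p (L \ C) z y) := by
  classical
  set E := (ed G T).filter (fun e => ∃ c ∈ C, c ∈ e) with hE
  have hEL : E ⊆ ed G L := (filter_subset _ _).trans (ed_mono hT)
  set F := ed G L \ E with hF
  have hdis : Disjoint E F := disjoint_sdiff
  have hun : E ∪ F = ed G L := union_sdiff_of_subset hEL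
  have hmemE : ∀ b c, s(b, c) ∈ E ↔ (b ∈ T ∧ c ∈ T ∧ G.Adj b c) ∧ (b ∈ C ∨ c ∈ C) := by
    intro b c
    rw [hE, mem_filter, mem_ed]
    constructor
    · rintro ⟨h1, a, ha, hab⟩
      rw [Sym2.mem_iff] at hab
      rcases hab with rfl | rfl
      · exact ⟨h1, Or.inl ha⟩
      · exact ⟨h1, Or.inr ha⟩
    · rintro ⟨h1, h2 | h2⟩
      · exact ⟨h1, b, h2, Sym2.mem_mk_left b c⟩
      · exact ⟨h1, c, h2, Sym2.mem_mk_right b c⟩
  -- the cluster event depends on `E`
  have hf : ∀ ω ⊆ E, ∀ η ⊆ F, ind (cl (ω ∪ η) T x = C) = ind (cl ω T x = C) := by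
    intro ω hω η hη
    have hiff : (cl (ω ∪ η) T x = C) ↔ (cl ω T x = C) := by
      have hωL : ω ⊆ ed G L := hω.trans hEL
      have hηL : η ⊆ ed G L := hη.trans sdiff_subset
      have hag : ∀ b ∈ C, ∀ c ∈ T, G.Adj b c → (s(b, c) ∈ ω ↔ s(b, c) ∈ ω ∪ η) := by
        intro b hb c hc hbc
        refine ⟨fun h' => mem_union_left _ h', fun h' => ?_⟩
        rcases mem_union.1 h' with h' | h'
        · exact h'
        · exact absurd ((hmemE b c).2 ⟨⟨hC hb, hc, hbc⟩, Or.inl hb⟩) (mem_sdiff.1 (hη h')).2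
      constructor
      · intro h'
        have := cl_local (G := G) (ω := ω ∪ η) (ω' := ω) hx (union_subset hωL hηL) hωL
          (fun b hb c hc hbc => (hag b (h' ▸ hb) c hc hbc).symm)
        rw [this, h']
      · intro h'
        have := cl_local (G := G) (ω := ω) (ω' := ω ∪ η) hx hωL (union_subset hωL hηL)
          (fun b hb c hc hbc => hag b (h' ▸ hb) c hc hbc)
        rw [this, h']
    rw [propext hiff]
  have huzE : s(u, z) ∉ E := fun h' => hzT ((hmemE u z).1 h').1.2.1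
  have hLC : ed G (L \ C) ⊆ F := by
    intro e
    induction e with
    | h b c =>
      intro he
      rw [mem_ed] at he
      refine mem_sdiff.2 ⟨mem_ed.2 ⟨(mem_sdiff.1 he.1).1, (mem_sdiff.1 he.2.1).1, he.2.2⟩, ?_⟩
      intro h'
      rcases ((hmemE b c).1 h').2 with h'' | h''
      · exact (mem_sdiff.1 he.1).2 h''
      · exact (mem_sdiff.1 he.2.1).2 h''
  have hg : ∀ ω ⊆ E, ∀ η ⊆ F, ind (s(u, z) ∈ ω ∪ η ∧ Cn (ω ∪ η) (L \ C) z y) =
      ind (s(u, z) ∈ η ∧ Cn η (L \ C) z y) := by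
    intro ω hω η hη
    have hωL : ω ⊆ ed G L := hω.trans hEL
    have hηL : η ⊆ ed G L := hη.trans sdiff_subset
    have h1 : s(u, z) ∈ ω ∪ η ↔ s(u, z) ∈ η := by
      rw [mem_union]
      exact ⟨fun h' => h'.resolve_left fun h'' => huzE (hω h''), Or.inr⟩
    have h2 : (ω ∪ η) ∩ ed G (L \ C) = η ∩ ed G (L \ C) := by
      ext e
      rw [mem_inter, mem_inter, mem_union]
      refine ⟨fun h' => ⟨h'.1.resolve_left fun h'' => ?_, h'.2⟩, fun h' => ⟨Or.inr h'.1, h'.2⟩⟩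
      exact (mem_sdiff.1 (hLC h'.2)).2 (hω h'')
    have h3 : Cn (ω ∪ η) (L \ C) z y ↔ Cn η (L \ C) z y := by
      rw [← Cn_inter (union_subset hωL hηL), h2, Cn_inter hηL]
    rw [propext h1, propext h3]
  have hprod := ex_mul p E F hdis (fun ω => ind (cl ω T x = C))
    (fun ω => ind (s(u, z) ∈ ω ∧ Cn ω (L \ C) z y)) hf hg
  have hres := ex_restrict p E F hdis (fun ω => ind (cl ω T x = C)) hf
  rw [hun] at hprod hres
  have hind : ∀ ω, ind (cl ω T x = C ∧ s(u, z) ∈ ω ∧ Cn ω (L \ C) z y) =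
      ind (cl ω T x = C) * ind (s(u, z) ∈ ω ∧ Cn ω (L \ C) z y) := by
    intro ω
    by_cases h1 : cl ω T x = C
    · by_cases h2 : s(u, z) ∈ ω ∧ Cn ω (L \ C) z y
      · rw [FP.ind_of ⟨h1, h2⟩, FP.ind_of h1, FP.ind_of h2]; norm_num
      · rw [FP.ind_not (fun h' => h2 h'.2), FP.ind_not h2, mul_zero]
    · rw [FP.ind_not (fun h' => h1 h'.1), FP.ind_not h1, zero_mul]
  have hF1 : ex p F (fun ω => ind (s(u, z) ∈ ω ∧ Cn ω (L \ C) z y)) =
      p * tau G p (L \ C) z y := by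
    have huL : u ∈ L := hT (hC hu)
    have h1 : s(u, z) ∈ F := mem_sdiff.2 ⟨mem_ed.2 ⟨huL, hz, huz⟩, huzE⟩
    have h2 : s(u, z) ∉ ed G (L \ C) := fun h' => (mem_sdiff.1 (mem_ed.1 h').1).2 hu
    have h3 := FP.pr_edge (p := p) h1 h2 hLC (fun ω => Cn ω (L \ C) z y)
    unfold tau
    rw [← h3]
    unfold pr
    refine FP.ex_congr fun ω hω => ?_
    have : Cn (ω ∩ ed G (L \ C)) (L \ C) z y ↔ Cn ω (L \ C) z y :=
      Cn_inter (hω.trans sdiff_subset)
    exact congrArg (fun q => ind (s(u, z) ∈ ω ∧ q)) (propext this).symm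
  unfold pr
  rw [FP.ex_congr (fun ω _ => hind ω), hprod, ← hres, hF1]

/-- one term of the Simon-Lieb inequality -/
theorem term {p : ℝ} (h0 : 0 ≤ p) (h1 : p ≤ 1) {L T : Finset V} {x u z y : V} (hT : T ⊆ L)
    (hx : x ∈ T) (hzT : z ∉ T) (huz : G.Adj u z) :
    pr p (ed G L) (fun ω => Cn ω T x u ∧ s(u, z) ∈ ω ∧ Cn ω (L \ cl ω T x) z y) ≤
      p * tau G p T x u * tau G p L z y := by
  classical
  have hnn : 0 ≤ p * tau G p T x u * tau G p L z y :=
    mul_nonneg (mul_nonneg h0 (U12.tau_nonneg h0 h1 _ _ _)) (U12.tau_nonneg h0 h1 _ _ _)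
  by_cases hz : z ∈ L
  swap
  · rw [FP.pr_false]
    · exact hnn
    · intro ω _ h
      exact hz (mem_sdiff.1 h.2.2.left_mem).1
  set I := T.powerset.filter (fun C => u ∈ C) with hI
  have hle : pr p (ed G L) (fun ω => Cn ω T x u ∧ s(u, z) ∈ ω ∧ Cn ω (L \ cl ω T x) z y) ≤
      pr p (ed G L) (fun ω => ∃ C ∈ I, cl ω T x = C ∧ s(u, z) ∈ ω ∧ Cn ω (L \ C) z y) := by
    refine FP.pr_mono h0 h1 fun ω _ h => ?_
    refine ⟨cl ω T x, ?_, rfl, h.2.1, h.2.2⟩
    rw [hI, mem_filter, mem_powerset]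
    exact ⟨fun v hv => (mem_cl.1 hv).right_mem, mem_cl.2 h.1⟩
  refine hle.trans ((FP.pr_exists_le h0 h1 I _).trans ?_)
  have hterm : ∀ C ∈ I, pr p (ed G L)
      (fun ω => cl ω T x = C ∧ s(u, z) ∈ ω ∧ Cn ω (L \ C) z y) ≤
      (p * tau G p L z y) * pr p (ed G L) (fun ω => cl ω T x = C) := by
    intro C hC
    rw [hI, mem_filter, mem_powerset] at hC
    rw [indep hT hx hC.2 hC.1 hz hzT huz, mul_comm]
    refine mul_le_mul_of_nonneg_right ?_ (FP.pr_nonneg h0 h1 _)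
    exact mul_le_mul_of_nonneg_left (U12.tau_mono h0 h1 sdiff_subset _ _) h0
  refine (sum_le_sum hterm).trans ?_
  rw [← mul_sum]
  have hsum : ∑ C ∈ I, pr p (ed G L) (fun ω => cl ω T x = C) ≤ tau G p T x u := by
    rw [← U12.tau_of_subset hT]
    unfold pr
    rw [← FP.ex_sum]
    refine FP.ex_mono h0 h1 fun ω _ => ?_
    by_cases hm : cl ω T x ∈ I
    · rw [sum_eq_single_of_mem _ hm]
      · rw [FP.ind_of rfl, FP.ind_of]
        rw [hI, mem_filter] at hm
        exact mem_cl.1 hm.2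
      · intro C _ hC
        exact FP.ind_not fun h => hC h.symm
    · rw [sum_eq_zero]
      · exact FP.ind_nonneg _
      · intro C hC
        exact FP.ind_not fun h => hm (h ▸ hC)
  have := mul_le_mul_of_nonneg_left hsum (mul_nonneg h0 (U12.tau_nonneg (G := G) h0 h1 L z y))
  linarith [this]

/-- the Simon-Lieb inequality -/
theorem simon_lieb {p : ℝ} (h0 : 0 ≤ p) (h1 : p ≤ 1) {L S : Finset V} {x y : V} (hx : x ∈ S)
    (hy : y ∉ S) :
    tau G p L x y ≤
      ∑ u ∈ S, ∑ z ∈ G.neighborFinset u \ S, p * tau G p S x u * tau G p L z y := by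
  classical
  have hnn : ∀ u z, 0 ≤ p * tau G p S x u * tau G p L z y := fun u z =>
    mul_nonneg (mul_nonneg h0 (U12.tau_nonneg h0 h1 _ _ _)) (U12.tau_nonneg h0 h1 _ _ _)
  by_cases hxL : x ∈ L
  swap
  · rw [U12.tau_eq_zero_left hxL]
    exact sum_nonneg fun u _ => sum_nonneg fun z _ => hnn u z
  have hxT : x ∈ S ∩ L := mem_inter.2 ⟨hx, hxL⟩
  have h2 : tau G p L x y ≤ pr p (ed G L) (fun ω => ∃ u ∈ S ∩ L,
      ∃ z ∈ G.neighborFinset u \ S, Cn ω (S ∩ L) x u ∧ s(u, z) ∈ ω ∧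
        Cn ω (L \ cl ω (S ∩ L) x) z y) :=
    FP.pr_mono h0 h1 fun ω hω h => exit_event hω hx hy h
  refine h2.trans ((FP.pr_exists_le h0 h1 _ _).trans ?_)
  have h3 : ∀ u ∈ S ∩ L, pr p (ed G L) (fun ω => ∃ z ∈ G.neighborFinset u \ S,
      Cn ω (S ∩ L) x u ∧ s(u, z) ∈ ω ∧ Cn ω (L \ cl ω (S ∩ L) x) z y) ≤
      ∑ z ∈ G.neighborFinset u \ S, p * tau G p S x u * tau G p L z y := by
    intro u hu
    refine (FP.pr_exists_le h0 h1 _ _).trans (sum_le_sum fun z hz => ?_)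
    rw [mem_sdiff, SimpleGraph.mem_neighborFinset] at hz
    refine (term h0 h1 inter_subset_right hxT (fun h => hz.2 (mem_inter.1 h).1) hz.1).trans ?_
    refine mul_le_mul_of_nonneg_right ?_ (U12.tau_nonneg h0 h1 _ _ _)
    exact mul_le_mul_of_nonneg_left (U12.tau_mono h0 h1 inter_subset_left _ _) h0
  refine (sum_le_sum h3).trans ?_
  exact sum_le_sum_of_subset_of_nonneg inter_subset_left
    fun u _ _ => sum_nonneg fun z _ => hnn u z

theorem chi_nonneg {p : ℝ} (h0 : 0 ≤ p) (h1 : p ≤ 1) (L : Finset V) (x : V) :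
    0 ≤ chi G p L x :=
  sum_nonneg fun y _ => U12.tau_nonneg h0 h1 _ _ _

theorem chi_step {p M : ℝ} (h0 : 0 ≤ p) (h1 : p ≤ 1) {L S : Finset V} {x : V} (hx : x ∈ S)
    (hM : ∀ z, chi G p L z ≤ M) : chi G p L x ≤ S.card + phi G p S x * M := by
  classical
  have hsplit : chi G p L x = ∑ y ∈ L.filter (fun y => y ∈ S), tau G p L x y +
      ∑ y ∈ L.filter (fun y => ¬ y ∈ S), tau G p L x y := by
    unfold chi
    rw [sum_filter_add_sum_filter_not]
  have ha : ∑ y ∈ L.filter (fun y => y ∈ S), tau G p L x y ≤ S.card := by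
    refine (sum_le_sum (g := fun _ => (1 : ℝ)) fun _ _ => U12.tau_le_one h0 h1 _ _ _).trans ?_
    rw [sum_const, nsmul_eq_mul, mul_one]
    exact_mod_cast card_le_card fun y hy => (mem_filter.1 hy).2
  have hb : ∑ y ∈ L.filter (fun y => ¬ y ∈ S), tau G p L x y ≤ phi G p S x * M := by
    have hb1 : ∑ y ∈ L.filter (fun y => ¬ y ∈ S), tau G p L x y ≤
        ∑ y ∈ L.filter (fun y => ¬ y ∈ S),
          ∑ u ∈ S, ∑ z ∈ G.neighborFinset u \ S, p * tau G p S x u * tau G p L z y :=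
      sum_le_sum fun y hy => simon_lieb h0 h1 hx (mem_filter.1 hy).2
    have hb2 : ∑ y ∈ L.filter (fun y => ¬ y ∈ S),
          ∑ u ∈ S, ∑ z ∈ G.neighborFinset u \ S, p * tau G p S x u * tau G p L z y ≤
        ∑ u ∈ S, ∑ z ∈ G.neighborFinset u \ S, p * tau G p S x u * chi G p L z := by
      rw [sum_comm]
      refine sum_le_sum fun u _ => ?_
      rw [sum_comm]
      refine sum_le_sum fun z _ => ?_
      rw [← mul_sum]
      refine mul_le_mul_of_nonneg_left ?_ (mul_nonneg h0 (U12.tau_nonneg h0 h1 _ _ _))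
      unfold chi
      exact sum_le_sum_of_subset_of_nonneg (filter_subset _ _)
        fun y _ _ => U12.tau_nonneg h0 h1 _ _ _
    have hb3 : ∑ u ∈ S, ∑ z ∈ G.neighborFinset u \ S, p * tau G p S x u * chi G p L z ≤
        ∑ u ∈ S, ∑ _z ∈ G.neighborFinset u \ S, p * tau G p S x u * M :=
      sum_le_sum fun u _ => sum_le_sum fun z _ =>
        mul_le_mul_of_nonneg_left (hM z) (mul_nonneg h0 (U12.tau_nonneg h0 h1 _ _ _))
    have hb4 : ∑ u ∈ S, ∑ _z ∈ G.neighborFinset u \ S, p * tau G p S x u * M =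
        phi G p S x * M := by
      unfold phi
      rw [mul_sum, sum_mul]
      refine sum_congr rfl fun u _ => ?_
      rw [mul_sum, sum_mul]
    linarith
  linarith

end DAx

variable {V : Type*} [DecidableEq V] {G : SimpleGraph V} [G.LocallyFinite]

/-- row DA -/
theorem DA {p : ℝ} (h0 : 0 ≤ p) (h1 : p ≤ 1) (htr : ∀ x y : V, ∃ f : G ≃g G, f x = y)
    {S : Finset V} {o : V} (ho : o ∈ S) (hphi : phi G p S o < 1) (L : Finset V) (x : V) :
    chi G p L x ≤ S.card / (1 - phi G p S o) := by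
  classical
  have hpos : 0 < 1 - phi G p S o := by linarith
  have hzero : ∀ z, z ∉ L → chi G p L z = 0 := fun z hz =>
    sum_eq_zero fun y _ => U12.tau_eq_zero_left hz
  have hrhs : 0 ≤ (S.card : ℝ) / (1 - phi G p S o) :=
    div_nonneg (Nat.cast_nonneg _) hpos.le
  by_cases hL : L.Nonempty
  swap
  · rw [not_nonempty_iff_eq_empty] at hL
    rw [hzero x (by rw [hL]; exact notMem_empty x)]
    exact hrhs
  obtain ⟨w, hw, hmax⟩ := exists_max_image L (chi G p L) hL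
  have hM : ∀ z, chi G p L z ≤ chi G p L w := by
    intro z
    by_cases hz : z ∈ L
    · exact hmax z hz
    · rw [hzero z hz]
      exact DAx.chi_nonneg h0 h1 L w
  obtain ⟨e, he⟩ := htr o w
  have hwS : w ∈ S.image e := he ▸ mem_image_of_mem e ho
  have hstep := DAx.chi_step (G := G) h0 h1 hwS hM
  have hcard : (S.image e).card = S.card := card_image_of_injective _ e.injective
  have hph : phi G p (S.image e) w = phi G p S o := by
    rw [← he]
    exact Iso.phi_iso e p S o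
  rw [hcard, hph] at hstep
  refine (hM x).trans ?_
  rw [le_div_iff₀ hpos]
  linarith

end Vale.Agent.P165
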