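import Mathlib
import Vale.Agent.P165.Bern

/-!
# P165, row DB: the differential inequality of Duminil-Copin and Tassion in finite volume
-/

namespace Vale.Agent.P165

open Finset

set_option linter.unusedSectionVars false

variable {V : Type*}

namespace DBaux

/-! ### paths -/

theorem Cn.mono {ω ω' : Finset (Sym2 V)} {S S' : Finset V} {x y : V} (h : Cn ω S x y)
    (hω : ω ⊆ ω') (hS : S ⊆ S') : Cn ω' S' x y :=
  ⟨hS h.1, Relation.ReflTransGen.mono
    (r := fun a b => s(a, b) ∈ ω ∧ b ∈ S) (p := fun a b => s(a, b) ∈ ω' ∧ b ∈ S')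
    (fun _ _ hab => ⟨hω hab.1, hS hab.2⟩) _ _ h.2⟩

theorem Exit.mono {ω ω' : Finset (Sym2 V)} {S : Finset V} {x : V} (h : Exit ω S x)
    (hω : ω ⊆ ω') : Exit ω' S x := by
  obtain ⟨y, z, h1, h2, h3⟩ := h
  exact ⟨y, z, Cn.mono h1 hω (Finset.Subset.refl _), h2, hω h3⟩

theorem Exit.mem {ω : Finset (Sym2 V)} {S : Finset V} {x : V} (h : Exit ω S x) : x ∈ S := by
  obtain ⟨y, z, h1, -⟩ := h
  exact h1.1

theorem Exit.of_step {ω : Finset (Sym2 V)} {S : Finset V} {x z : V} (hx : x ∈ S) (hz : z ∈ S)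
    (he : s(x, z) ∈ ω) (h : Exit ω S z) : Exit ω S x := by
  obtain ⟨y, w, h1, h2, h3⟩ := h
  exact ⟨y, w, ⟨hx, Relation.ReflTransGen.head ⟨he, hz⟩ h1.2⟩, h2, h3⟩

theorem Exit.of_direct {ω : Finset (Sym2 V)} {S : Finset V} {x z : V} (hx : x ∈ S) (hz : z ∉ S)
    (he : s(x, z) ∈ ω) : Exit ω S x :=
  ⟨x, z, ⟨hx, Relation.ReflTransGen.refl⟩, hz, he⟩

theorem Exit.of_cn {ω : Finset (Sym2 V)} {S : Finset V} {x y : V} (h : Cn ω S x y)
    (hy : Exit ω S y) : Exit ω S x := by
  obtain ⟨z, w, h1, h2, h3⟩ := hy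
  exact ⟨z, w, ⟨h.1, h.2.trans h1.2⟩, h2, h3⟩

theorem ind_nonneg (P : Prop) : 0 ≤ ind P := by
  unfold ind
  split_ifs <;> norm_num

theorem ind_mono {P Q : Prop} (h : P → Q) : ind P ≤ ind Q := by
  unfold ind
  by_cases hP : P
  · rw [if_pos hP, if_pos (h hP)]
  · rw [if_neg hP]
    split_ifs <;> norm_num

theorem ind_true {P : Prop} (h : P) : ind P = 1 := by
  unfold ind
  rw [if_pos h]

theorem ind_false {P : Prop} (h : ¬ P) : ind P = 0 := by
  unfold ind
  rw [if_neg h]

theorem ind_congr {P Q : Prop} (h : P ↔ Q) : ind P = ind Q := by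
  unfold ind
  by_cases hP : P
  · rw [if_pos hP, if_pos (h.1 hP)]
  · rw [if_neg hP, if_neg (fun hQ => hP (h.2 hQ))]

theorem sum_ind {α : Type*} (s : Finset α) (P : α → Prop) [DecidablePred P] :
    ∑ a ∈ s, ind (P a) = ((s.filter P).card : ℝ) := by
  classical
  rw [card_filter]
  push_cast
  refine sum_congr rfl fun a _ => ?_
  unfold ind
  by_cases h : P a
  · rw [if_pos h, if_pos h]
  · rw [if_neg h, if_neg h]

open Classical in
/-- the vertices of `S` which are not joined to the complement -/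
noncomputable def R (ω : Finset (Sym2 V)) (S : Finset V) : Finset V :=
  S.filter (fun x => ¬ Exit ω S x)

theorem mem_R {ω : Finset (Sym2 V)} {S : Finset V} {x : V} :
    x ∈ R ω S ↔ x ∈ S ∧ ¬ Exit ω S x := by
  classical
  unfold R
  rw [mem_filter]

theorem R_sub {ω : Finset (Sym2 V)} {S : Finset V} : R ω S ⊆ S := fun _ h => (mem_R.1 h).1

variable [DecidableEq V]

theorem mem_ed {G : SimpleGraph V} {T : Finset V} {e : Sym2 V} :
    e ∈ ed G T ↔ (∀ x ∈ e, x ∈ T) ∧ e ∈ G.edgeSet := by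
  classical
  unfold ed
  rw [mem_filter, Finset.mem_sym2_iff]

theorem mem_edT {G : SimpleGraph V} [G.LocallyFinite] {S : Finset V} {e : Sym2 V} :
    e ∈ edT G S ↔ (∃ x ∈ e, x ∈ S) ∧ e ∈ G.edgeSet := by
  unfold edT
  rw [mem_biUnion]
  constructor
  · rintro ⟨x, hx, he⟩
    obtain ⟨z, hz, rfl⟩ := mem_image.1 he
    exact ⟨⟨x, Sym2.mem_mk_left x z, hx⟩, (G.mem_neighborFinset x z).1 hz⟩
  · rintro ⟨⟨x, hxe, hx⟩, he⟩
    obtain ⟨z, rfl⟩ := Sym2.mem_iff_exists.1 hxe
    exact ⟨x, hx, mem_image.2 ⟨z, (G.mem_neighborFinset x z).2 he, rfl⟩⟩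

theorem ed_sub_edT {G : SimpleGraph V} [G.LocallyFinite] {S T : Finset V} (hT : T ⊆ S) :
    ed G T ⊆ edT G S := by
  intro e he
  obtain ⟨h1, h2⟩ := mem_ed.1 he
  refine mem_edT.2 ⟨?_, h2⟩
  induction e using Sym2.ind with
  | _ a b => exact ⟨a, Sym2.mem_mk_left a b, hT (h1 a (Sym2.mem_mk_left a b))⟩

/-- connections inside `T` depend only on the edges inside `T` -/
theorem cn_union {G : SimpleGraph V} {T : Finset V} {ω η : Finset (Sym2 V)}
    (hη : ∀ e ∈ η, e ∉ ed G T) (hG : ∀ e ∈ η, e ∈ G.edgeSet) (o x : V) :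
    Cn (ω ∪ η) T o x ↔ Cn ω T o x := by
  constructor
  · rintro ⟨ho, h⟩
    refine ⟨ho, ?_⟩
    induction h with
    | refl => exact Relation.ReflTransGen.refl
    | tail h1 h2 ih =>
      rename_i a b
      refine ih.tail ⟨?_, h2.2⟩
      rcases mem_union.1 h2.1 with h | h
      · exact h
      · exfalso
        have ha : a ∈ T := by
          rcases Relation.ReflTransGen.cases_tail h1 with h' | ⟨c, _, h'⟩
          · rw [h']; exact ho
          · exact h'.2
        refine hη _ h (mem_ed.2 ⟨?_, hG _ h⟩)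
        intro y hy
        rcases Sym2.mem_iff.1 hy with rfl | rfl
        · exact ha
        · exact h2.2
  · intro h
    exact Cn.mono h subset_union_left (Finset.Subset.refl _)

/-- vertices of an exit path are not in `R` -/
theorem exit_avoid {ω : Finset (Sym2 V)} {S : Finset V} {η : Finset (Sym2 V)} {y : V}
    (hy : Exit ω S y)
    (hη : ∀ a b, a ∈ S → Exit ω S a → s(a, b) ∈ ω → (b ∉ S ∨ Exit ω S b) → s(a, b) ∈ η) :
    Exit η S y := by
  obtain ⟨z, w, h1, h2, h3⟩ := hy
  obtain ⟨hyS, h1⟩ := h1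
  induction h1 using Relation.ReflTransGen.head_induction_on with
  | refl => exact Exit.of_direct hyS h2 (hη _ _ hyS (Exit.of_direct hyS h2 h3) h3 (Or.inl h2))
  | head h4 h5 ih =>
    rename_i a b
    have hb : Exit ω S b := ⟨z, w, ⟨h4.2, h5⟩, h2, h3⟩
    have ha : Exit ω S a := Exit.of_step hyS h4.2 h4.1 hb
    exact Exit.of_step hyS h4.2 (hη a b hyS ha h4.1 (Or.inr hb)) (ih h4.2)

/-- the event `R = T` depends only on the edges not inside `T` -/
theorem R_union {G : SimpleGraph V} [G.LocallyFinite] {S T : Finset V} (hT : T ⊆ S)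
    {ω η : Finset (Sym2 V)} (hω : ω ⊆ ed G T) (hη : ∀ e ∈ η, e ∉ ed G T)
    (hG : ∀ e ∈ η, e ∈ G.edgeSet) : R (ω ∪ η) S = T ↔ R η S = T := by
  constructor
  · intro h
    ext y
    rw [mem_R]
    constructor
    · rintro ⟨hyS, hy⟩
      by_contra hyT
      have h1 : y ∉ R (ω ∪ η) S := by rw [h]; exact hyT
      have h2 : Exit (ω ∪ η) S y := by
        by_contra h2
        exact h1 (mem_R.2 ⟨hyS, h2⟩)
      refine hy (exit_avoid h2 ?_)
      intro a b haS ha hab _
      rcases mem_union.1 hab with h3 | h3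
      · exfalso
        have haT : a ∈ T := (mem_ed.1 (hω h3)).1 a (Sym2.mem_mk_left a b)
        rw [← h, mem_R] at haT
        exact haT.2 ha
      · exact h3
    · intro hyT
      have h1 := hyT
      rw [← h, mem_R] at h1
      exact ⟨h1.1, fun h2 => h1.2 (Exit.mono h2 subset_union_right)⟩
  · intro h
    have key : ∀ y ∈ T, ¬ Exit (ω ∪ η) S y := by
      intro y hyT hy
      obtain ⟨z, w, h1, h2, h3⟩ := hy
      obtain ⟨hyS, h1⟩ := h1
      have hnot : ∀ a ∈ T, ¬ Exit η S a := by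
        intro a ha
        rw [← h, mem_R] at ha
        exact ha.2
      have hexit : ∀ b ∈ S, b ∉ T → Exit η S b := by
        intro b hb hbT
        by_contra hc
        exact hbT (by rw [← h, mem_R]; exact ⟨hb, hc⟩)
      induction h1 using Relation.ReflTransGen.head_induction_on with
      | refl =>
        rcases mem_union.1 h3 with h4 | h4
        · exact h2 (hT ((mem_ed.1 (hω h4)).1 w (Sym2.mem_mk_right _ w)))
        · exact hnot _ hyT (Exit.of_direct hyS h2 h4)
      | head h4 h5 ih =>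
        rename_i a b
        by_cases hb : b ∈ T
        · exact ih hb h4.2
        · rcases mem_union.1 h4.1 with h6 | h6
          · exact hb ((mem_ed.1 (hω h6)).1 b (Sym2.mem_mk_right a b))
          · exact hnot a hyT (Exit.of_step hyS h4.2 h6 (hexit b h4.2 hb))
    ext y
    rw [mem_R]
    constructor
    · rintro ⟨hyS, hy⟩
      rw [← h, mem_R]
      exact ⟨hyS, fun h2 => hy (Exit.mono h2 subset_union_right)⟩
    · intro hyT
      exact ⟨hT hyT, key y hyT⟩

variable {G : SimpleGraph V} [G.LocallyFinite]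

/-- pointwise lower bound for the number of pivotal edges -/
theorem pivotal_ge (S : Finset V) (o : V) (ω : Finset (Sym2 V)) :
    ∑ T ∈ S.powerset.filter (fun T => o ∈ T),
        ∑ x ∈ T, ∑ _z ∈ G.neighborFinset x \ T, ind (Cn ω T o x) * ind (R ω S = T) ≤
      ∑ e ∈ edT G S, (ind (Exit (insert e ω) S o) - ind (Exit (ω.erase e) S o)) := by
  classical
  have hnn : ∀ e ∈ edT G S, 0 ≤ ind (Exit (insert e ω) S o) - ind (Exit (ω.erase e) S o) := by
    intro e _
    have := ind_mono (P := Exit (ω.erase e) S o) (Q := Exit (insert e ω) S o)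
      (fun h => Exit.mono h ((erase_subset _ _).trans (subset_insert _ _)))
    linarith
  by_cases ho : o ∈ R ω S
  · have hne : ¬ Exit ω S o := (mem_R.1 ho).2
    have hL : ∑ T ∈ S.powerset.filter (fun T => o ∈ T),
        ∑ x ∈ T, ∑ _z ∈ G.neighborFinset x \ T, ind (Cn ω T o x) * ind (R ω S = T) =
        ∑ x ∈ R ω S, ∑ _z ∈ G.neighborFinset x \ R ω S, ind (Cn ω (R ω S) o x) := by
      rw [sum_eq_single (R ω S)]
      · refine sum_congr rfl fun x _ => sum_congr rfl fun z _ => ?_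
        rw [ind_true rfl, mul_one]
      · intro T _ hT
        refine sum_eq_zero fun x _ => sum_eq_zero fun z _ => ?_
        rw [ind_false (P := R ω S = T) (fun h => hT h.symm), mul_zero]
      · intro h
        exact absurd (mem_filter.2 ⟨mem_powerset.2 R_sub, ho⟩) h
    rw [hL]
    have hR : ∑ e ∈ edT G S, (ind (Exit (insert e ω) S o) - ind (Exit (ω.erase e) S o)) =
        (((edT G S).filter (fun e => Exit (insert e ω) S o)).card : ℝ) := by
      rw [← sum_ind]
      refine sum_congr rfl fun e _ => ?_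
      rw [ind_false (fun h => hne (Exit.mono h (erase_subset _ _))), sub_zero]
    rw [hR, sum_sigma' (R ω S) (fun x => G.neighborFinset x \ R ω S)
      (fun x _ => ind (Cn ω (R ω S) o x))]
    rw [sum_ind ((R ω S).sigma fun x => G.neighborFinset x \ R ω S)
      (fun q => Cn ω (R ω S) o q.1)]
    norm_cast
    apply card_le_card_of_injOn (fun q => s(q.1, q.2))
    · rintro ⟨x, z⟩ hq
      obtain ⟨hq1, hq2⟩ := mem_filter.1 (mem_coe.1 hq)
      obtain ⟨hx, hz⟩ := mem_sigma.1 hq1
      obtain ⟨hz1, hz2⟩ := mem_sdiff.1 hz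
      have hadj := (G.mem_neighborFinset x z).1 hz1
      have hxS : x ∈ S := R_sub hx
      refine mem_coe.2 (mem_filter.2 ⟨mem_edT.2 ⟨⟨x, Sym2.mem_mk_left x z, hxS⟩, hadj⟩, ?_⟩)
      have hc : Cn (insert s(x, z) ω) S o x := Cn.mono hq2 (subset_insert _ _) R_sub
      refine Exit.of_cn hc ?_
      by_cases hzS : z ∈ S
      · have hze : Exit ω S z := by
          by_contra h
          exact hz2 (mem_R.2 ⟨hzS, h⟩)
        exact Exit.of_step hxS hzS (mem_insert_self _ _) (Exit.mono hze (subset_insert _ _))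
      · exact Exit.of_direct hxS hzS (mem_insert_self _ _)
    · rintro ⟨x, z⟩ hq ⟨x', z'⟩ hq' he
      obtain ⟨hx, hz⟩ := mem_sigma.1 (mem_filter.1 (mem_coe.1 hq)).1
      obtain ⟨hx', hz'⟩ := mem_sigma.1 (mem_filter.1 (mem_coe.1 hq')).1
      have he' : s(x, z) = s(x', z') := he
      rw [Sym2.eq_iff] at he'
      rcases he' with ⟨h1, h2⟩ | ⟨h1, h2⟩
      · subst h1; subst h2; rfl
      · exact absurd (h1 ▸ hx) (mem_sdiff.1 hz').2
  · refine le_trans (le_of_eq ?_) (sum_nonneg hnn)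
    refine sum_eq_zero fun T hT => sum_eq_zero fun x _ => sum_eq_zero fun z _ => ?_
    rw [ind_false (P := R ω S = T) (fun h => ho (by rw [h]; exact (mem_filter.1 hT).2)), mul_zero]

/-- the differential inequality, integrated form of the sum -/
theorem russo_ge {p : ℝ} (hp0 : 0 < p) (hp1 : p ≤ 1) (S : Finset V) (o : V)
    (hφ : ∀ T ⊆ S, o ∈ T → 1 ≤ phi G p T o) (ho : o ∈ S) :
    1 - theta G p S o ≤ p * ∑ e ∈ edT G S,
      ex p (edT G S) (fun ω => ind (Exit (insert e ω) S o) - ind (Exit (ω.erase e) S o)) := by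
  classical
  set E := edT G S with hE
  have h1 : ∑ e ∈ E, ex p E (fun ω => ind (Exit (insert e ω) S o) - ind (Exit (ω.erase e) S o)) =
      ex p E (fun ω => ∑ e ∈ E, (ind (Exit (insert e ω) S o) - ind (Exit (ω.erase e) S o))) :=
    (ex_sum p E E _).symm
  have h2 : ex p E (fun ω => ∑ T ∈ S.powerset.filter (fun T => o ∈ T),
        ∑ x ∈ T, ∑ _z ∈ G.neighborFinset x \ T, ind (Cn ω T o x) * ind (R ω S = T)) ≤
      ex p E (fun ω => ∑ e ∈ E, (ind (Exit (insert e ω) S o) - ind (Exit (ω.erase e) S o))) :=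
    ex_mono hp0.le hp1 fun ω _ => pivotal_ge S o ω
  -- evaluate the left side
  have h3 : ∀ T ∈ S.powerset.filter (fun T => o ∈ T),
      ex p E (fun ω => ∑ x ∈ T, ∑ _z ∈ G.neighborFinset x \ T,
        ind (Cn ω T o x) * ind (R ω S = T)) =
      (∑ x ∈ T, ∑ _z ∈ G.neighborFinset x \ T, tau G p T o x) * ex p E (fun ω => ind (R ω S = T)) := by
    intro T hT
    have hTS : T ⊆ S := mem_powerset.1 (mem_filter.1 hT).1
    have hEE : ed G T ∪ (E \ ed G T) = E := union_sdiff_of_subset (ed_sub_edT hTS)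
    have hdis : Disjoint (ed G T) (E \ ed G T) := disjoint_sdiff
    have hnot : ∀ η ⊆ E \ ed G T, ∀ e ∈ η, e ∉ ed G T := fun η hη e he =>
      (mem_sdiff.1 (hη he)).2
    have hGe : ∀ η ⊆ E \ ed G T, ∀ e ∈ η, e ∈ G.edgeSet := fun η hη e he =>
      (mem_edT.1 (mem_sdiff.1 (hη he)).1).2
    have hq : ex p E (fun ω => ind (R ω S = T)) = ex p (E \ ed G T) (fun ω => ind (R ω S = T)) := by
      have h := ex_restrict p (E \ ed G T) (ed G T) hdis.symm (fun ω => ind (R ω S = T))
        (fun η hη ω hω => by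
          beta_reduce
          rw [union_comm]
          exact ind_congr (R_union hTS hω (hnot η hη) (hGe η hη)))
      rw [union_comm, hEE] at h
      exact h
    rw [ex_sum, sum_mul]
    refine sum_congr rfl fun x _ => ?_
    rw [ex_sum, sum_mul]
    refine sum_congr rfl fun z _ => ?_
    have h := ex_mul p (ed G T) (E \ ed G T) hdis (fun ω => ind (Cn ω T o x))
      (fun ω => ind (R ω S = T))
      (fun ω _ η hη => ind_congr (cn_union (hnot η hη) (hGe η hη) o x))
      (fun ω hω η hη => ind_congr (R_union hTS hω (hnot η hη) (hGe η hη)))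
    rw [hEE] at h
    rw [h, hq]
    rfl
  have h4 : ∑ T ∈ S.powerset.filter (fun T => o ∈ T), ex p E (fun ω => ind (R ω S = T)) =
      1 - theta G p S o := by
    rw [← ex_sum]
    have h5 : ∀ ω ⊆ E, ∑ T ∈ S.powerset.filter (fun T => o ∈ T), ind (R ω S = T) =
        1 - ind (Exit ω S o) := by
      intro ω _
      by_cases hoR : o ∈ R ω S
      · rw [sum_eq_single (R ω S), ind_true rfl, ind_false (mem_R.1 hoR).2, sub_zero]
        · intro T _ hT
          exact ind_false (fun h => hT h.symm)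
        · intro h
          exact absurd (mem_filter.2 ⟨mem_powerset.2 R_sub, hoR⟩) h
      · have hex : Exit ω S o := by
          by_contra h
          exact hoR (mem_R.2 ⟨ho, h⟩)
        rw [ind_true hex, sub_self]
        refine sum_eq_zero fun T hT => ?_
        exact ind_false (fun h => hoR (by rw [h]; exact (mem_filter.1 hT).2))
    rw [ex_congr p h5, ex_sub, ex_one]
    rfl
  have h6 : ex p E (fun ω => ∑ T ∈ S.powerset.filter (fun T => o ∈ T),
        ∑ x ∈ T, ∑ _z ∈ G.neighborFinset x \ T, ind (Cn ω T o x) * ind (R ω S = T)) =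
      ∑ T ∈ S.powerset.filter (fun T => o ∈ T),
        (∑ x ∈ T, ∑ _z ∈ G.neighborFinset x \ T, tau G p T o x) *
          ex p E (fun ω => ind (R ω S = T)) := by
    rw [ex_sum]
    exact sum_congr rfl h3
  rw [h1]
  refine le_trans ?_ (mul_le_mul_of_nonneg_left h2 hp0.le)
  rw [h6, mul_sum, ← h4]
  refine sum_le_sum fun T hT => ?_
  have hTS : T ⊆ S := mem_powerset.1 (mem_filter.1 hT).1
  have h7 := hφ T hTS (mem_filter.1 hT).2
  have h8 : 0 ≤ ex p E (fun ω => ind (R ω S = T)) :=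
    ex_nonneg hp0.le hp1 fun ω _ => ind_nonneg _
  unfold phi at h7
  rw [← mul_assoc]
  nlinarith

end DBaux

open DBaux in
/-- ROW DB, with the hypothesis only for the subsets of `S`. -/
theorem theta_ge_sub [DecidableEq V] (G : SimpleGraph V) [G.LocallyFinite] (S : Finset V) (o : V)
    (ho : o ∈ S) (p1 p0 : ℝ) (h1 : 0 < p1) (h10 : p1 ≤ p0) (hp0 : p0 ≤ 1)
    (hφ : ∀ p ∈ Set.Icc p1 p0, ∀ T ⊆ S, o ∈ T → 1 ≤ phi G p T o) :
    1 - p1 / p0 ≤ theta G p0 S o := by
  have hder : ∀ p : ℝ, HasDerivAt (fun p => theta G p S o)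
      (∑ e ∈ edT G S, ex p (edT G S)
        (fun ω => ind (Exit (insert e ω) S o) - ind (Exit (ω.erase e) S o))) p :=
    fun p => ex_hasDerivAt (edT G S) (fun ω => ind (Exit ω S o)) p
  have hder2 : ∀ p : ℝ, HasDerivAt (fun p => p * (1 - theta G p S o))
      ((1 - theta G p S o) - p * ∑ e ∈ edT G S, ex p (edT G S)
        (fun ω => ind (Exit (insert e ω) S o) - ind (Exit (ω.erase e) S o))) p := by
    intro p
    have h := (hasDerivAt_id p).mul ((hasDerivAt_const p (1 : ℝ)).sub (hder p))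
    refine h.congr_deriv ?_
    simp only [id, Pi.sub_apply]
    ring
  have hanti : AntitoneOn (fun p => p * (1 - theta G p S o)) (Set.Icc p1 p0) := by
    refine antitoneOn_of_deriv_nonpos (convex_Icc _ _)
      (fun p _ => (hder2 p).continuousAt.continuousWithinAt)
      (fun p _ => (hder2 p).differentiableAt.differentiableWithinAt) ?_
    intro p hp
    rw [interior_Icc] at hp
    rw [(hder2 p).deriv]
    have hpp : 0 < p := lt_trans h1 hp.1
    have h := russo_ge hpp (hp.2.le.trans hp0) S o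
      (fun T hT hoT => hφ p ⟨hp.1.le, hp.2.le⟩ T hT hoT) ho
    linarith
  have h2 := hanti (Set.left_mem_Icc.2 h10) (Set.right_mem_Icc.2 h10) h10
  beta_reduce at h2
  have hθ : 0 ≤ theta G p1 S o :=
    ex_nonneg h1.le (h10.trans hp0) fun ω _ => ind_nonneg _
  have hp0' : 0 < p0 := lt_of_lt_of_le h1 h10
  rw [sub_le_comm, le_div_iff₀ hp0']
  nlinarith

/-- ROW DB. -/
theorem theta_ge [DecidableEq V] {G : SimpleGraph V} [G.LocallyFinite] {o : V} {p1 p0 : ℝ}
    (h1 : 0 < p1) (h10 : p1 ≤ p0) (hp0 : p0 ≤ 1)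
    (hphi : ∀ p ∈ Set.Icc p1 p0, ∀ S : Finset V, o ∈ S → 1 ≤ phi G p S o) :
    ∀ L : Finset V, o ∈ L → 1 - p1 / p0 ≤ theta G p0 L o :=
  fun L hL => theta_ge_sub G L o hL p1 p0 h1 h10 hp0 fun p hp T _ hT => hphi p hp T hT

end Vale.Agent.P165
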