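import Vale.Agent.P165.Bern

/-! P165: exploration from outside (row DB1). -/

open Finset

namespace Vale.Agent.P165.DB1

open Vale.Agent.P165

variable {V : Type*} {ω ω' : Finset (Sym2 V)} {L S : Finset V} {x y z : V}

theorem cn_cons (hx : x ∈ L) (he : s(x, y) ∈ ω) (h : Cn ω L y z) : Cn ω L x z :=
  ⟨hx, Relation.ReflTransGen.head ⟨he, h.1⟩ h.2⟩

theorem cn_refl (hx : x ∈ L) : Cn ω L x x := ⟨hx, Relation.ReflTransGen.refl⟩

theorem cn_mono (h : Cn ω S x y) (hω : ω ⊆ ω') (hS : S ⊆ L) : Cn ω' L x y :=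
  ⟨hS h.1, Relation.ReflTransGen.mono (fun _ _ h' => ⟨hω h'.1, hS h'.2⟩) _ _ h.2⟩

theorem cn_trans (h : Cn ω S x y) (h' : Cn ω S y z) : Cn ω S x z :=
  ⟨h.1, h.2.trans h'.2⟩

theorem cn_right (h : Cn ω S x y) : y ∈ S := by
  obtain ⟨hx, h⟩ := h
  induction h with
  | refl => exact hx
  | tail _ h _ => exact h.2

theorem exit_base (hx : x ∈ L) (hz : z ∉ L) (he : s(x, z) ∈ ω) : Exit ω L x :=
  ⟨x, z, cn_refl hx, hz, he⟩

theorem exit_step (hx : x ∈ L) (he : s(x, y) ∈ ω) (h : Exit ω L y) : Exit ω L x := by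
  obtain ⟨a, b, h1, h2, h3⟩ := h
  exact ⟨a, b, cn_cons hx he h1, h2, h3⟩

theorem exit_of_cn (h : Cn ω L x y) (h' : Exit ω L y) : Exit ω L x := by
  obtain ⟨a, b, h1, h2, h3⟩ := h'
  exact ⟨a, b, cn_trans h h1, h2, h3⟩

theorem exit_mono (h : Exit ω L x) (hω : ω ⊆ ω') : Exit ω' L x := by
  obtain ⟨a, b, h1, h2, h3⟩ := h
  exact ⟨a, b, cn_mono h1 hω subset_rfl, h2, hω h3⟩

/-- induction on exit paths -/
theorem exit_induct {P : V → Prop}
    (hb : ∀ x z, x ∈ L → z ∉ L → s(x, z) ∈ ω → P x)
    (hs : ∀ x y, x ∈ L → y ∈ L → s(x, y) ∈ ω → Exit ω L y → P y → P x)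
    (h : Exit ω L x) : P x := by
  obtain ⟨a, b, ⟨hx, h1⟩, h2, h3⟩ := h
  have key : ∀ c, Relation.ReflTransGen (fun a b => s(a, b) ∈ ω ∧ b ∈ L) c a → c ∈ L →
      P c ∧ Exit ω L c := by
    intro c hc
    induction hc using Relation.ReflTransGen.head_induction_on with
    | refl => intro ha; exact ⟨hb a b ha h2 h3, exit_base ha h2 h3⟩
    | @head c d hcd _ ih =>
      intro hcL
      obtain ⟨ih1, ih2⟩ := ih hcd.2
      exact ⟨hs c d hcL hcd.2 hcd.1 ih2 ih1, exit_step hcL hcd.1 ih2⟩
  exact (key x h1 hx).1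

/-- the vertices of `L` not joined to the outside -/
noncomputable def ins (ω : Finset (Sym2 V)) (L : Finset V) : Finset V := by
  classical exact L.filter (fun x => ¬ Exit ω L x)

theorem mem_ins : x ∈ ins ω L ↔ x ∈ L ∧ ¬ Exit ω L x := by
  classical
  unfold ins
  simp

theorem ins_subset : ins ω L ⊆ L := fun _ h => (mem_ins.1 h).1

/-- if `ω` and `ω'` agree off the pairs inside `ins ω L`, then they have the same `ins` -/
theorem ins_congr (h : ∀ x z, x ∈ L → z ∉ ins ω L → (s(x, z) ∈ ω ↔ s(x, z) ∈ ω')) :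
    ins ω' L = ins ω L := by
  have h1 : ∀ x, Exit ω L x → Exit ω' L x := by
    intro x hx
    refine exit_induct (ω := ω) (L := L) ?_ ?_ hx
    · intro a b ha hb he
      exact exit_base ha hb ((h a b ha (fun hb' => hb (ins_subset hb'))).1 he)
    · intro a b ha hb he hEb hPb
      exact exit_step ha ((h a b ha (fun hb' => (mem_ins.1 hb').2 hEb)).1 he) hPb
  have h2 : ∀ x, Exit ω' L x → Exit ω L x := by
    intro x hx
    refine exit_induct (ω := ω') (L := L) ?_ ?_ hx
    · intro a b ha hb he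
      exact exit_base ha hb ((h a b ha (fun hb' => hb (ins_subset hb'))).2 he)
    · intro a b ha hb he _ hPb
      exact exit_step ha ((h a b ha (fun hb' => (mem_ins.1 hb').2 hPb)).2 he) hPb
  ext x
  rw [mem_ins, mem_ins]
  constructor
  · rintro ⟨hx, hn⟩; exact ⟨hx, fun hE => hn (h1 x hE)⟩
  · rintro ⟨hx, hn⟩; exact ⟨hx, fun hE => hn (h2 x hE)⟩

/-- boundary edges of `ins ω L` reached from `o` are pivotal -/
theorem pivotal [DecidableEq V] {o : V} (ho : o ∈ ins ω L) (hc : Cn ω (ins ω L) o x)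
    (hz : z ∉ ins ω L) :
    ¬ Exit ω L o ∧ Exit (insert s(x, z) ω) L o := by
  refine ⟨(mem_ins.1 ho).2, ?_⟩
  have hx : x ∈ L := ins_subset (cn_right hc)
  have hc' : Cn (insert s(x, z) ω) L o x := cn_mono hc (subset_insert _ _) ins_subset
  refine exit_of_cn hc' ?_
  by_cases hzL : z ∈ L
  · have : Exit ω L z := by
      by_contra hn
      exact hz (mem_ins.2 ⟨hzL, hn⟩)
    exact exit_step hx (mem_insert_self _ _) (exit_mono this (subset_insert _ _))
  · exact exit_base hx hzL (mem_insert_self _ _)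



section prob

variable [DecidableEq V] {G : SimpleGraph V} [G.LocallyFinite] {p : ℝ} {o : V}

theorem ind_nonneg (P : Prop) : 0 ≤ ind P := by
  unfold ind; split_ifs <;> norm_num

theorem ind_of {P : Prop} (h : P) : ind P = 1 := by simp [ind, h]

theorem ind_not {P : Prop} (h : ¬ P) : ind P = 0 := by simp [ind, h]

theorem ind_congr {P Q : Prop} (h : P ↔ Q) : ind P = ind Q := by rw [propext h]

omit [DecidableEq V] [G.LocallyFinite] in
theorem mem_ed : s(x, z) ∈ ed G S ↔ x ∈ S ∧ z ∈ S ∧ G.Adj x z := by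
  classical
  unfold ed
  simp only [mem_filter, Finset.mk_mem_sym2_iff, SimpleGraph.mem_edgeSet]
  tauto

theorem adj_of_mem_edT (h : s(x, z) ∈ edT G L) : G.Adj x z := by
  unfold edT at h
  simp only [mem_biUnion, mem_image, SimpleGraph.mem_neighborFinset] at h
  obtain ⟨a, _, b, hb, he⟩ := h
  rcases Sym2.eq_iff.1 he with ⟨rfl, rfl⟩ | ⟨rfl, rfl⟩
  · exact hb
  · exact hb.symm

theorem mem_edT_of (hx : x ∈ L) (h : G.Adj x z) : s(x, z) ∈ edT G L := by
  unfold edT
  simp only [mem_biUnion, mem_image, SimpleGraph.mem_neighborFinset]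
  exact ⟨x, hx, z, h, rfl⟩

theorem ed_subset_edT (h : S ⊆ L) : ed G S ⊆ edT G L := by
  intro e
  induction e using Sym2.ind with
  | _ a b =>
    intro he
    obtain ⟨h1, _, h3⟩ := mem_ed.1 he
    exact mem_edT_of (h h1) h3

/-- the event `ins ω L = S` does not depend on the edges inside `S` -/
theorem ins_union {η : Finset (Sym2 V)} (hη : η ⊆ ed G S) :
    ins (ω ∪ η) L = S ↔ ins ω L = S := by
  have key : ∀ x z, z ∉ S → (s(x, z) ∈ ω ↔ s(x, z) ∈ ω ∪ η) := by
    intro x z hz
    constructor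
    · exact fun h => mem_union_left _ h
    · intro h
      rcases mem_union.1 h with h | h
      · exact h
      · exact absurd (mem_ed.1 (hη h)).2.1 hz
  constructor
  · intro h
    have := ins_congr (ω := ω ∪ η) (ω' := ω) (L := L)
      (fun x z _ hz => (key x z (by rw [h] at hz; exact hz)).symm)
    rw [this, h]
  · intro h
    have := ins_congr (ω := ω) (ω' := ω ∪ η) (L := L)
      (fun x z _ hz => key x z (by rw [h] at hz; exact hz))
    rw [this, h]

/-- `Cn ω S` depends only on the edges inside `S` -/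
theorem cn_union {η : Finset (Sym2 V)} (hω : ω ⊆ edT G L \ ed G S) :
    Cn (ω ∪ η) S x y ↔ Cn η S x y := by
  constructor
  · rintro ⟨hx, h⟩
    refine ⟨hx, ?_⟩
    have key : ∀ b, Relation.ReflTransGen (fun a b => s(a, b) ∈ ω ∪ η ∧ b ∈ S) x b →
        b ∈ S ∧ Relation.ReflTransGen (fun a b => s(a, b) ∈ η ∧ b ∈ S) x b := by
      intro b hb
      induction hb with
      | refl => exact ⟨hx, Relation.ReflTransGen.refl⟩
      | @tail b c _ hbc ih =>
        refine ⟨hbc.2, ih.2.tail ⟨?_, hbc.2⟩⟩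
        rcases mem_union.1 hbc.1 with h' | h'
        · exfalso
          have h2 := mem_sdiff.1 (hω h')
          exact h2.2 (mem_ed.2 ⟨ih.1, hbc.2, adj_of_mem_edT h2.1⟩)
        · exact h'
    exact (key y h).2
  · intro h
    exact cn_mono h subset_union_right subset_rfl

/-- independence of the exploration and of the configuration inside `S` -/
theorem ex_indep (hS : S ⊆ L) :
    ex p (edT G L) (fun ω => ind (ins ω L = S) * ind (Cn ω S o x)) =
      ex p (edT G L) (fun ω => ind (ins ω L = S)) * tau G p S o x := by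
  have hd : Disjoint (edT G L \ ed G S) (ed G S) := sdiff_disjoint
  have hu : edT G L \ ed G S ∪ ed G S = edT G L := sdiff_union_of_subset (ed_subset_edT hS)
  have h1 := ex_mul p (edT G L \ ed G S) (ed G S) hd
    (fun ω => ind (ins ω L = S)) (fun ω => ind (Cn ω S o x))
    (fun ω _ η hη => ind_congr (ins_union hη))
    (fun ω hω η _ => ind_congr (cn_union hω))
  have h2 := ex_restrict p (edT G L \ ed G S) (ed G S) hd
    (fun ω => ind (ins ω L = S)) (fun ω _ η hη => ind_congr (ins_union hη))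
  rw [hu] at h1 h2
  rw [h1, h2]
  rfl

theorem pointwise (hω : ω ⊆ edT G L) :
    (∑ S ∈ L.powerset.filter (fun S => o ∈ S), ∑ x ∈ S, ∑ _z ∈ G.neighborFinset x \ S,
      ind (ins ω L = S) * ind (Cn ω S o x)) ≤
    ∑ e ∈ edT G L, ind (¬ Exit ω L o ∧ Exit (insert e ω) L o) := by
  by_cases ho : o ∈ ins ω L
  · set I := ins ω L with hI
    have hmem : I ∈ L.powerset.filter (fun S => o ∈ S) :=
      mem_filter.2 ⟨mem_powerset.2 ins_subset, ho⟩
    rw [sum_eq_single_of_mem I hmem]
    · have h11 : ind True = 1 := ind_of trivial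
      simp only [h11, one_mul]
      rw [Finset.sum_sigma' I (fun x => G.neighborFinset x \ I) (fun x _ => ind (Cn ω I o x))]
      have hinj : Set.InjOn (fun q : (_ : V) × V => s(q.1, q.2))
          (I.sigma (fun x => G.neighborFinset x \ I) : Set ((_ : V) × V)) := by
        rintro ⟨a, b⟩ hq ⟨c, d⟩ hq' he
        rw [mem_coe, mem_sigma, mem_sdiff] at hq hq'
        rcases Sym2.eq_iff.1 he with ⟨h1, h2⟩ | ⟨h1, h2⟩
        · simp only at h1 h2
          subst h1 h2
          rfl
        · simp only at h1 h2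
          exact absurd hq.1 (by rw [h1]; exact hq'.2.2)
      calc (∑ q ∈ I.sigma (fun x => G.neighborFinset x \ I), ind (Cn ω I o q.1))
          ≤ ∑ q ∈ I.sigma (fun x => G.neighborFinset x \ I),
              ind (¬ Exit ω L o ∧ Exit (insert s(q.1, q.2) ω) L o) := by
            refine sum_le_sum fun q hq => ?_
            rw [mem_sigma, mem_sdiff] at hq
            by_cases hc : Cn ω I o q.1
            · rw [ind_of hc, ind_of (pivotal ho hc hq.2.2)]
            · rw [ind_not hc]; exact ind_nonneg _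
        _ = ∑ e ∈ (I.sigma (fun x => G.neighborFinset x \ I)).image (fun q => s(q.1, q.2)),
              ind (¬ Exit ω L o ∧ Exit (insert e ω) L o) := by
            rw [sum_image hinj]
        _ ≤ _ := by
            refine sum_le_sum_of_subset_of_nonneg ?_ (fun _ _ _ => ind_nonneg _)
            intro e he
            rw [mem_image] at he
            obtain ⟨q, hq, rfl⟩ := he
            rw [mem_sigma, mem_sdiff, SimpleGraph.mem_neighborFinset] at hq
            exact mem_edT_of (ins_subset hq.1) hq.2.1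
    · intro S _ hS
      refine sum_eq_zero fun x _ => sum_eq_zero fun z _ => ?_
      rw [ind_not (fun h => hS h.symm), zero_mul]
  · refine le_trans (le_of_eq ?_) (sum_nonneg fun _ _ => ind_nonneg _)
    refine sum_eq_zero fun S hS => sum_eq_zero fun x _ => sum_eq_zero fun z _ => ?_
    rw [ind_not, zero_mul]
    rintro h
    rw [h] at ho
    exact ho (mem_filter.1 hS).2

/-- **Row DB1.** -/
theorem db1 (h0 : 0 ≤ p) (h1 : p ≤ 1) (ho : o ∈ L)
    (hphi : ∀ S : Finset V, S ⊆ L → o ∈ S → 1 ≤ phi G p S o) :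
    1 - theta G p L o ≤
      p * ∑ e ∈ edT G L, pr p (edT G L) (fun ω => ¬ Exit ω L o ∧ Exit (insert e ω) L o) := by
  have hA : 1 - theta G p L o =
      ∑ S ∈ L.powerset.filter (fun S => o ∈ S), ex p (edT G L) (fun ω => ind (ins ω L = S)) := by
    rw [← ex_sum]
    unfold theta pr
    rw [← ex_one p (edT G L), ← ex_sub]
    refine ex_congr p fun ω _ => ?_
    by_cases hE : Exit ω L o
    · rw [ind_of hE, sub_self]
      symm
      refine sum_eq_zero fun S hS => ind_not ?_
      rintro rfl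
      exact (mem_ins.1 (mem_filter.1 hS).2).2 hE
    · rw [ind_not hE, sub_zero]
      symm
      have hoI : o ∈ ins ω L := mem_ins.2 ⟨ho, hE⟩
      rw [sum_eq_single_of_mem (ins ω L) (mem_filter.2 ⟨mem_powerset.2 ins_subset, hoI⟩)]
      · exact ind_of rfl
      · intro S _ hS
        exact ind_not fun h => hS h.symm
  rw [hA]
  calc ∑ S ∈ L.powerset.filter (fun S => o ∈ S), ex p (edT G L) (fun ω => ind (ins ω L = S))
      ≤ ∑ S ∈ L.powerset.filter (fun S => o ∈ S),
          ex p (edT G L) (fun ω => ind (ins ω L = S)) * phi G p S o := by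
        refine sum_le_sum fun S hS => ?_
        rw [mem_filter, mem_powerset] at hS
        exact le_mul_of_one_le_right (ex_nonneg h0 h1 fun _ _ => ind_nonneg _)
          (hphi S hS.1 hS.2)
    _ = p * ex p (edT G L) (fun ω => ∑ S ∈ L.powerset.filter (fun S => o ∈ S), ∑ x ∈ S,
          ∑ _z ∈ G.neighborFinset x \ S, ind (ins ω L = S) * ind (Cn ω S o x)) := by
        rw [ex_sum, mul_sum]
        refine sum_congr rfl fun S hS => ?_
        rw [mem_filter, mem_powerset] at hS
        rw [ex_sum]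
        unfold phi
        rw [mul_left_comm, mul_sum]
        congr 1
        refine sum_congr rfl fun x _ => ?_
        rw [ex_sum, mul_sum]
        refine sum_congr rfl fun z _ => ?_
        exact (ex_indep hS.1).symm
    _ ≤ p * ex p (edT G L) (fun ω => ∑ e ∈ edT G L,
          ind (¬ Exit ω L o ∧ Exit (insert e ω) L o)) := by
        exact mul_le_mul_of_nonneg_left (ex_mono h0 h1 fun ω hω => pointwise hω) h0
    _ = _ := by
        rw [ex_sum]
        rfl

end prob

end Vale.Agent.P165.DB1
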