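import Vale.Agent.P165.DB

/-! P165: row DBW: the differential inequality from `c ≤ phi`. -/

open Finset

namespace Vale.Agent.P165

namespace DBW

open DBaux

variable {V : Type*} [DecidableEq V] {G : SimpleGraph V} [G.LocallyFinite]

theorem russo_ge_w {p c : ℝ} (hp0 : 0 < p) (hp1 : p ≤ 1) (S : Finset V) (o : V)
    (hφ : ∀ T ⊆ S, o ∈ T → c ≤ phi G p T o) (ho : o ∈ S) :
    c * (1 - theta G p S o) ≤ p * ∑ e ∈ edT G S,
      ex p (edT G S) (fun ω => ind (Exit (insert e ω) S o) - ind (Exit (ω.erase e) S o)) := by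
  classical
  set E := edT G S with hE
  have h1 : ∑ e ∈ E, ex p E (fun ω => ind (Exit (insert e ω) S o) - ind (Exit (ω.erase e) S o)) =
      ex p E (fun ω => ∑ e ∈ E, (ind (Exit (insert e ω) S o) - ind (Exit (ω.erase e) S o))) :=
    (ex_sum p E E _).symm
  have h2 : ex p E (fun ω => ∑ T ∈ S.powerset.filter (fun T => o ∈ T),
        ∑ x ∈ T, ∑ _z ∈ G.neighborFinset x \ T, ind (Cn ω T o x) * ind (R ω S = T)) ≤
      ex p E (fun ω => ∑ e ∈ E, (ind (Exit (insert e ω) S o) - ind (Exit (ω.erase e) S o))) :=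
    ex_mono hp0.le hp1 fun ω _ => pivotal_ge S o ω
  -- evaluate the left side
  have h3 : ∀ T ∈ S.powerset.filter (fun T => o ∈ T),
      ex p E (fun ω => ∑ x ∈ T, ∑ _z ∈ G.neighborFinset x \ T,
        ind (Cn ω T o x) * ind (R ω S = T)) =
      (∑ x ∈ T, ∑ _z ∈ G.neighborFinset x \ T, tau G p T o x) * ex p E (fun ω => ind (R ω S = T)) := by
    intro T hT
    have hTS : T ⊆ S := mem_powerset.1 (mem_filter.1 hT).1
    have hEE : ed G T ∪ (E \ ed G T) = E := union_sdiff_of_subset (ed_sub_edT hTS)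
    have hdis : Disjoint (ed G T) (E \ ed G T) := disjoint_sdiff
    have hnot : ∀ η ⊆ E \ ed G T, ∀ e ∈ η, e ∉ ed G T := fun η hη e he =>
      (mem_sdiff.1 (hη he)).2
    have hGe : ∀ η ⊆ E \ ed G T, ∀ e ∈ η, e ∈ G.edgeSet := fun η hη e he =>
      (mem_edT.1 (mem_sdiff.1 (hη he)).1).2
    have hq : ex p E (fun ω => ind (R ω S = T)) = ex p (E \ ed G T) (fun ω => ind (R ω S = T)) := by
      have h := ex_restrict p (E \ ed G T) (ed G T) hdis.symm (fun ω => ind (R ω S = T))
        (fun η hη ω hω => by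
          beta_reduce
          rw [union_comm]
          exact ind_congr (R_union hTS hω (hnot η hη) (hGe η hη)))
      rw [union_comm, hEE] at h
      exact h
    rw [ex_sum, sum_mul]
    refine sum_congr rfl fun x _ => ?_
    rw [ex_sum, sum_mul]
    refine sum_congr rfl fun z _ => ?_
    have h := ex_mul p (ed G T) (E \ ed G T) hdis (fun ω => ind (Cn ω T o x))
      (fun ω => ind (R ω S = T))
      (fun ω _ η hη => ind_congr (cn_union (hnot η hη) (hGe η hη) o x))
      (fun ω hω η hη => ind_congr (R_union hTS hω (hnot η hη) (hGe η hη)))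
    rw [hEE] at h
    rw [h, hq]
    rfl
  have h4 : ∑ T ∈ S.powerset.filter (fun T => o ∈ T), ex p E (fun ω => ind (R ω S = T)) =
      1 - theta G p S o := by
    rw [← ex_sum]
    have h5 : ∀ ω ⊆ E, ∑ T ∈ S.powerset.filter (fun T => o ∈ T), ind (R ω S = T) =
        1 - ind (Exit ω S o) := by
      intro ω _
      by_cases hoR : o ∈ R ω S
      · rw [sum_eq_single (R ω S), ind_true rfl, ind_false (mem_R.1 hoR).2, sub_zero]
        · intro T _ hT
          exact ind_false (fun h => hT h.symm)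
        · intro h
          exact absurd (mem_filter.2 ⟨mem_powerset.2 R_sub, hoR⟩) h
      · have hex : Exit ω S o := by
          by_contra h
          exact hoR (mem_R.2 ⟨ho, h⟩)
        rw [ind_true hex, sub_self]
        refine sum_eq_zero fun T hT => ?_
        exact ind_false (fun h => hoR (by rw [h]; exact (mem_filter.1 hT).2))
    rw [ex_congr p h5, ex_sub, ex_one]
    rfl
  have h6 : ex p E (fun ω => ∑ T ∈ S.powerset.filter (fun T => o ∈ T),
        ∑ x ∈ T, ∑ _z ∈ G.neighborFinset x \ T, ind (Cn ω T o x) * ind (R ω S = T)) =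
      ∑ T ∈ S.powerset.filter (fun T => o ∈ T),
        (∑ x ∈ T, ∑ _z ∈ G.neighborFinset x \ T, tau G p T o x) *
          ex p E (fun ω => ind (R ω S = T)) := by
    rw [ex_sum]
    exact sum_congr rfl h3
  rw [h1]
  refine le_trans ?_ (mul_le_mul_of_nonneg_left h2 hp0.le)
  rw [h6, mul_sum, ← h4, mul_sum]
  refine sum_le_sum fun T hT => ?_
  have hTS : T ⊆ S := mem_powerset.1 (mem_filter.1 hT).1
  have h7 := hφ T hTS (mem_filter.1 hT).2
  have h8 : 0 ≤ ex p E (fun ω => ind (R ω S = T)) :=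
    ex_nonneg hp0.le hp1 fun ω _ => ind_nonneg _
  unfold phi at h7
  rw [← mul_assoc]
  nlinarith

end DBW

open DBaux in
/-- **Row DBW**, with the hypothesis only for the subsets of `S`. -/
theorem theta_ge_w_sub {V : Type*} [DecidableEq V] (G : SimpleGraph V) [G.LocallyFinite]
    (S : Finset V) (o : V) (ho : o ∈ S) (p1 p0 c : ℝ) (h1 : 0 < p1) (h10 : p1 ≤ p0)
    (hp0 : p0 ≤ 1) (hφ : ∀ p ∈ Set.Icc p1 p0, ∀ T ⊆ S, o ∈ T → c ≤ phi G p T o) :
    1 - (p1 / p0) ^ c ≤ theta G p0 S o := by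
  have hder : ∀ p : ℝ, HasDerivAt (fun p => theta G p S o)
      (∑ e ∈ edT G S, ex p (edT G S)
        (fun ω => ind (Exit (insert e ω) S o) - ind (Exit (ω.erase e) S o))) p :=
    fun p => ex_hasDerivAt (edT G S) (fun ω => ind (Exit ω S o)) p
  have hder2 : ∀ p : ℝ, 0 < p → HasDerivAt (fun p => p ^ c * (1 - theta G p S o))
      (c * p ^ (c - 1) * (1 - theta G p S o) - p ^ c * ∑ e ∈ edT G S, ex p (edT G S)
        (fun ω => ind (Exit (insert e ω) S o) - ind (Exit (ω.erase e) S o))) p := by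
    intro p hp
    have h := (Real.hasDerivAt_rpow_const (x := p) (p := c) (Or.inl hp.ne')).mul
      ((hasDerivAt_const p (1 : ℝ)).sub (hder p))
    refine h.congr_deriv ?_
    simp only [Pi.sub_apply]
    ring
  have hanti : AntitoneOn (fun p => p ^ c * (1 - theta G p S o)) (Set.Icc p1 p0) := by
    refine antitoneOn_of_deriv_nonpos (convex_Icc _ _)
      (fun p hp => (hder2 p (lt_of_lt_of_le h1 hp.1)).continuousAt.continuousWithinAt)
      (fun p hp => ?_) ?_
    · rw [interior_Icc] at hp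
      exact (hder2 p (lt_trans h1 hp.1)).differentiableAt.differentiableWithinAt
    intro p hp
    rw [interior_Icc] at hp
    have hpp : 0 < p := lt_trans h1 hp.1
    rw [(hder2 p hpp).deriv]
    have h := DBW.russo_ge_w hpp (hp.2.le.trans hp0) S o
      (fun T hT hoT => hφ p ⟨hp.1.le, hp.2.le⟩ T hT hoT) ho
    have h2 : p ^ c = p ^ (c - 1) * p := by
      rw [← Real.rpow_add_one hpp.ne' (c - 1), sub_add_cancel]
    have h3 : 0 < p ^ (c - 1) := Real.rpow_pos_of_pos hpp _
    rw [h2]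
    have h4 := mul_le_mul_of_nonneg_left h h3.le
    linarith
  have h2 := hanti (Set.left_mem_Icc.2 h10) (Set.right_mem_Icc.2 h10) h10
  beta_reduce at h2
  have hθ : 0 ≤ theta G p1 S o :=
    ex_nonneg h1.le (h10.trans hp0) fun ω _ => ind_nonneg _
  have hp0' : 0 < p0 := lt_of_lt_of_le h1 h10
  have hc0 : 0 < p0 ^ c := Real.rpow_pos_of_pos hp0' _
  have hc1 : 0 < p1 ^ c := Real.rpow_pos_of_pos h1 _
  rw [sub_le_comm, Real.div_rpow h1.le hp0'.le, le_div_iff₀ hc0]
  nlinarith

/-- **Row DBW**. -/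
theorem theta_ge_w {V : Type*} [DecidableEq V] {G : SimpleGraph V} [G.LocallyFinite] {o : V}
    {p1 p0 c : ℝ} (h1 : 0 < p1) (h10 : p1 ≤ p0) (hp0 : p0 ≤ 1)
    (hphi : ∀ p ∈ Set.Icc p1 p0, ∀ S : Finset V, o ∈ S → c ≤ phi G p S o) :
    ∀ L : Finset V, o ∈ L → 1 - (p1 / p0) ^ c ≤ theta G p0 L o :=
  fun L hL => theta_ge_w_sub G L o hL p1 p0 c h1 h10 hp0 fun p hp T _ hT => hphi p hp T hT

/-- the lower bound is positive -/
theorem theta_ge_w_pos {p1 p0 c : ℝ} (h1 : 0 < p1) (h10 : p1 < p0) (hc : 0 < c) :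
    0 < 1 - (p1 / p0) ^ c := by
  have h2 : p1 / p0 < 1 := (div_lt_one (lt_trans h1 h10)).2 h10
  have h3 : 0 ≤ p1 / p0 := (div_pos h1 (lt_trans h1 h10)).le
  have := Real.rpow_lt_one h3 h2 hc
  linarith

end Vale.Agent.P165
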