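import Vale.Agent.P165.CH
import Vale.Agent.P165.CritX

/-!
# P165, row FIN: the numbers

For every `d`-regular graph with edge boundary at least `eps * d * |A|` and `d > 432 / eps ^ 6`
there are `0 < p1 < p0 < 1` and `r > 0` with `p0 * r < 1`, `nw G k x y ≤ r ^ k` and
`crit G p o < p * d - 1` for `p1 ≤ p ≤ p0`.
-/

open Finset

namespace Vale.Agent.P165

/-- the edge-isoperimetric constant of a `d`-regular graph is at most `d` -/
theorem eps_le_one {V : Type*} [DecidableEq V] [Nonempty V] (G : SimpleGraph V) [G.LocallyFinite]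
    {eps : ℝ} {d : ℕ} (hd : 0 < d) (hreg : ∀ v, G.degree v = d)
    (hE : ∀ A : Finset V, eps * d * A.card ≤ (ebd G A : ℝ)) : eps ≤ 1 := by
  obtain ⟨x⟩ := ‹Nonempty V›
  have h := hE {x}
  have h1 : (ebd G {x} : ℝ) ≤ d := by
    unfold ebd
    rw [Finset.sum_singleton]
    have : (G.neighborFinset x \ {x}).card ≤ (G.neighborFinset x).card :=
      Finset.card_le_card Finset.sdiff_subset
    rw [SimpleGraph.card_neighborFinset_eq_degree, hreg x] at this
    exact_mod_cast this
  have hd' : (0 : ℝ) < d := by exact_mod_cast hd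
  simp only [Finset.card_singleton, Nat.cast_one, mul_one] at h
  nlinarith

/-- the edge-isoperimetric constant of a `d`-regular graph, `d ≥ 2`, is smaller than `d`: test
with the two ends of an edge -/
theorem eps_lt_one {V : Type*} [DecidableEq V] [Nonempty V] (G : SimpleGraph V) [G.LocallyFinite]
    {eps : ℝ} {d : ℕ} (hd : 0 < d) (hreg : ∀ v, G.degree v = d)
    (hE : ∀ A : Finset V, eps * d * A.card ≤ (ebd G A : ℝ)) : eps < 1 := by
  obtain ⟨x⟩ := ‹Nonempty V›
  obtain ⟨y, hy⟩ : (G.neighborFinset x).Nonempty := by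
    rw [← Finset.card_pos, SimpleGraph.card_neighborFinset_eq_degree, hreg x]
    exact hd
  rw [SimpleGraph.mem_neighborFinset] at hy
  have hne : x ≠ y := hy.ne
  have h := hE {x, y}
  have c1 : (G.neighborFinset x \ {x, y}).card + 1 ≤ d := by
    rw [← hreg x, ← SimpleGraph.card_neighborFinset_eq_degree]
    refine Nat.succ_le_of_lt (Finset.card_lt_card ?_)
    refine Finset.ssubset_iff_subset_ne.2 ⟨Finset.sdiff_subset, fun he => ?_⟩
    have : y ∈ G.neighborFinset x \ {x, y} := by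
      rw [he]; simpa using hy
    simp at this
  have c2 : (G.neighborFinset y \ {x, y}).card + 1 ≤ d := by
    rw [← hreg y, ← SimpleGraph.card_neighborFinset_eq_degree]
    refine Nat.succ_le_of_lt (Finset.card_lt_card ?_)
    refine Finset.ssubset_iff_subset_ne.2 ⟨Finset.sdiff_subset, fun he => ?_⟩
    have : x ∈ G.neighborFinset y \ {x, y} := by
      rw [he]; simpa using hy.symm
    simp at this
  have h1 : (ebd G {x, y} : ℝ) + 2 ≤ 2 * d := by
    have : ebd G {x, y} + 2 ≤ 2 * d := by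
      unfold ebd
      rw [Finset.sum_pair hne]
      omega
    exact_mod_cast this
  have hd' : (0 : ℝ) < d := by exact_mod_cast hd
  rw [Finset.card_pair hne] at h
  push_cast at h
  by_contra hc
  push Not at hc
  nlinarith

theorem fin_numbers {eps : ℝ} (heps : 0 < eps) {d : ℕ} (hd : 432 / eps ^ 6 < d)
    {V : Type*} [DecidableEq V] [Nonempty V] (G : SimpleGraph V) [G.LocallyFinite]
    (hreg : ∀ v, G.degree v = d)
    (hE : ∀ A : Finset V, eps * d * A.card ≤ (ebd G A : ℝ)) :
    ∃ r p1 p0 : ℝ, 0 < r ∧ 0 < p1 ∧ p1 < p0 ∧ p0 < 1 ∧ p0 * r < 1 ∧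
      (∀ k x y, nw G k x y ≤ r ^ k) ∧
      (∀ k (B : Finset V), ∑ x ∈ B, ∑ y ∈ B, nw G k x y ≤ r ^ k * B.card) ∧
      ∀ p, p1 ≤ p → p ≤ p0 → ∀ o, crit G p o < p * d - 1 := by
  have hd0 : (0 : ℝ) < d := lt_trans (by positivity) hd
  have hdn : 0 < d := by exact_mod_cast hd0
  have heps1 : eps < 1 := eps_lt_one G hdn hreg hE
  have hd2 : (432 : ℝ) < d := by
    refine lt_of_le_of_lt ?_ hd
    rw [le_div_iff₀ (by positivity)]
    have : eps ^ 6 ≤ 1 := pow_le_one₀ heps.le heps1.le
    linarith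
  set rho : ℝ := Real.sqrt (1 - eps ^ 2) with hrho
  have hrho0 : 0 < rho := Real.sqrt_pos.2 (by nlinarith)
  have hrho1 : rho < 1 := by
    rw [hrho, Real.sqrt_lt' one_pos]
    nlinarith [mul_pos heps heps]
  have hr : Real.sqrt ((d : ℝ) ^ 2 - (eps * d) ^ 2) = rho * d := by
    rw [hrho, show (d : ℝ) ^ 2 - (eps * d) ^ 2 = (1 - eps ^ 2) * d ^ 2 by ring,
      Real.sqrt_mul (by nlinarith), Real.sqrt_sq hd0.le]
  have hnw : ∀ k x y, nw G k x y ≤ (rho * d) ^ k := by
    intro k x y
    have := CH.nw_le G d hreg (eps * d) (by positivity) hE k x y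
    rwa [hr] at this
  have hnws : ∀ k (B : Finset V), ∑ x ∈ B, ∑ y ∈ B, nw G k x y ≤ (rho * d) ^ k * B.card := by
    intro k B
    have := CH.nw_sum_le G d hreg (eps * d) (by positivity) hE k B
    rwa [hr] at this
  refine ⟨rho * d, (1 + (1 - rho) / 4) / d, (1 + (1 - rho) / 2) / d, by positivity, ?_, ?_, ?_,
    ?_, hnw, hnws, ?_⟩
  · exact div_pos (by linarith) hd0
  · exact div_lt_div_of_pos_right (by linarith) hd0
  · rw [div_lt_one hd0]; linarith
  · rw [show (1 + (1 - rho) / 2) / d * (rho * d) = (1 + (1 - rho) / 2) * rho by field_simp]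
    nlinarith [mul_pos (sub_pos.2 hrho1) (by linarith : (0 : ℝ) < 2 - rho)]
  · intro p hp1 hp0 o
    rw [div_le_iff₀ hd0] at hp1
    rw [le_div_iff₀ hd0] at hp0
    have hB : ∀ k, ∑ x ∈ G.neighborFinset o, ∑ y ∈ G.neighborFinset o, nw G k x y
        ≤ Real.sqrt ((d : ℝ) ^ 2 - (eps * d) ^ 2) ^ k * d := by
      intro k
      have := CH.nw_sum_le G d hreg (eps * d) (by positivity) hE k (G.neighborFinset o)
      rwa [SimpleGraph.card_neighborFinset_eq_degree, hreg o] at this
    have := (Ser.crit_lt_explicit (G := G) (o := o) heps heps1.le hd hB (p * d) hp1 hp0).2.2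
    rwa [show p * d / (d : ℝ) = p by field_simp] at this

end Vale.Agent.P165
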