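import Vale.Agent.P165.CH
import Vale.Agent.P165.CritX

/-!
# P165, rows FIN2 and FIN3: the numbers for non-regular graphs

`fin3` is the weighted form: `Lam` is the eigenvalue of a positive function with values in
`[1, R]`, the degrees are at most `R * Lam` and the adjacency norm is at most
`(1 - delta) * Lam`. `fin2` is the form with a lower bound `d` for the degrees.
-/

open Finset

namespace Vale.Agent.P165

/-- general bound of the criterion series at one vertex -/
theorem crit_le_deg {V : Type*} [DecidableEq V] (G : SimpleGraph V) [G.LocallyFinite] {r p : ℝ}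
    (hp : 0 ≤ p) (hr : 0 ≤ r) (hpr : p * r < 1)
    (hB : ∀ k (B : Finset V), ∑ x ∈ B, ∑ y ∈ B, nw G k x y ≤ r ^ k * B.card) (o : V) :
    crit G p o ≤ 3 / 2 * (p ^ 2 * G.degree o) / (1 - p * r) ^ 2 := by
  refine (Ser.crit_le G (d := G.degree o) o hp hr hpr fun k => ?_).2
  have := hB k (G.neighborFinset o)
  rwa [SimpleGraph.card_neighborFinset_eq_degree] at this

/-- `1 - p r ≥ δ / 2` for `p ≤ (1 + δ / 2) / Lam` and `r = (1 - δ) Lam` -/
theorem one_sub_pr {delta Lam p : ℝ} (h0 : 0 < delta) (h1 : delta < 1) (hL : 0 < Lam)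
    (hp0 : p ≤ (1 + delta / 2) / Lam) : delta / 2 ≤ 1 - p * ((1 - delta) * Lam) := by
  rw [le_div_iff₀ hL] at hp0
  have h2 : p * ((1 - delta) * Lam) = (1 - delta) * (p * Lam) := by ring
  rw [h2]
  nlinarith [mul_le_mul_of_nonneg_left hp0 (by linarith : (0 : ℝ) ≤ 1 - delta), sq_nonneg delta]

/-- the numbers, weighted form -/
theorem fin3 {V : Type*} [DecidableEq V] (G : SimpleGraph V) [G.LocallyFinite]
    {delta Lam R : ℝ} (h0 : 0 < delta) (h1 : delta < 1) (hR : 1 ≤ R)
    (hL : 54 * R ^ 2 ≤ Lam * delta ^ 3) (hdeg : ∀ y, (G.degree y : ℝ) ≤ R * Lam)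
    (hB : ∀ k (B : Finset V), ∑ x ∈ B, ∑ y ∈ B, nw G k x y
      ≤ ((1 - delta) * Lam) ^ k * B.card) :
    0 < (1 + delta / 4) / Lam ∧ (1 + delta / 4) / Lam < (1 + delta / 2) / Lam ∧
      (1 + delta / 2) / Lam ≤ 1 ∧ (1 + delta / 2) / Lam * ((1 - delta) * Lam) < 1 ∧
      ∀ p : ℝ, (1 + delta / 4) / Lam ≤ p → p ≤ (1 + delta / 2) / Lam → ∀ y,
        R * crit G p y ≤ p * Lam - 1 := by
  have hd3 : delta ^ 3 ≤ 1 := pow_le_one₀ h0.le h1.le
  have hd3' : 0 < delta ^ 3 := by positivity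
  have hR2 : 1 ≤ R ^ 2 := by nlinarith
  have hLpos : 0 < Lam := by
    by_contra h
    push Not at h
    nlinarith
  have hL54 : 54 ≤ Lam := by nlinarith
  refine ⟨by positivity, div_lt_div_of_pos_right (by linarith) hLpos, ?_, ?_, ?_⟩
  · rw [div_le_one hLpos]; linarith
  · have := one_sub_pr h0 h1 hLpos (le_refl ((1 + delta / 2) / Lam))
    linarith
  · intro p hp1 hp0 y
    have hpL1 : 1 + delta / 4 ≤ p * Lam := (div_le_iff₀ hLpos).1 hp1
    have hpL0 : p * Lam ≤ 1 + delta / 2 := (le_div_iff₀ hLpos).1 hp0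
    have hp : 0 < p := lt_of_lt_of_le (by positivity) hp1
    have hgap := one_sub_pr h0 h1 hLpos hp0
    have hpr : p * ((1 - delta) * Lam) < 1 := by linarith
    have hc := crit_le_deg G hp.le (mul_nonneg (by linarith) hLpos.le) hpr hB y
    -- numerator and denominator
    have hden : (delta / 2) ^ 2 ≤ (1 - p * ((1 - delta) * Lam)) ^ 2 :=
      pow_le_pow_left₀ (by linarith) hgap 2
    have hnum : 3 / 2 * (p ^ 2 * (G.degree y : ℝ)) ≤ 3 / 2 * (p ^ 2 * (R * Lam)) := by
      have := mul_le_mul_of_nonneg_left (hdeg y) (by positivity : (0 : ℝ) ≤ p ^ 2)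
      linarith
    have hc2 : crit G p y ≤ 3 / 2 * (p ^ 2 * (R * Lam)) / (delta / 2) ^ 2 := by
      refine hc.trans ?_
      exact div_le_div₀ (by positivity) hnum (by positivity) hden
    have hq : (p * Lam) ^ 2 ≤ 9 / 4 := by
      have h2 : p * Lam ≤ 3 / 2 := by linarith
      have h3 : 0 ≤ p * Lam := by positivity
      nlinarith
    -- `R * crit ≤ 6 R² (p Lam)² / (Lam δ²) ≤ δ / 4`
    have hc3 : R * crit G p y ≤ delta / 4 := by
      have h2 : R * crit G p y ≤ R * (3 / 2 * (p ^ 2 * (R * Lam)) / (delta / 2) ^ 2) :=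
        mul_le_mul_of_nonneg_left hc2 (by linarith)
      refine h2.trans ?_
      have h3 : R * (3 / 2 * (p ^ 2 * (R * Lam)) / (delta / 2) ^ 2)
          = 6 * R ^ 2 * (p * Lam) ^ 2 / (Lam * delta ^ 2) := by
        field_simp
        ring
      rw [h3, div_le_iff₀ (by positivity)]
      have h4 : 6 * R ^ 2 * (p * Lam) ^ 2 ≤ 6 * R ^ 2 * (9 / 4) :=
        mul_le_mul_of_nonneg_left hq (by positivity)
      have h5 : delta / 4 * (Lam * delta ^ 2) = Lam * delta ^ 3 / 4 := by ring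
      rw [h5]
      linarith
    linarith

/-- the numbers for a graph with minimal degree at least `d` and adjacency norm at most
`(1 - δ) d` -/
theorem fin2 {V : Type*} [DecidableEq V] (G : SimpleGraph V) [G.LocallyFinite]
    {delta d : ℝ} (h0 : 0 < delta) (h1 : delta < 1)
    (hd : 54 ≤ d * delta ^ 3) (hdeg : ∀ y, d ≤ (G.degree y : ℝ))
    (hB : ∀ k (B : Finset V), ∑ x ∈ B, ∑ y ∈ B, nw G k x y
      ≤ ((1 - delta) * d) ^ k * B.card) :
    0 < (1 + delta / 4) / d ∧ (1 + delta / 4) / d < (1 + delta / 2) / d ∧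
      (1 + delta / 2) / d ≤ 1 ∧ (1 + delta / 2) / d * ((1 - delta) * d) < 1 ∧
      ∀ p : ℝ, (1 + delta / 4) / d ≤ p → p ≤ (1 + delta / 2) / d → ∀ y,
        crit G p y ≤ p * G.degree y - 1 := by
  have hd3 : delta ^ 3 ≤ 1 := pow_le_one₀ h0.le h1.le
  have hd3' : 0 < delta ^ 3 := by positivity
  have hdpos : 0 < d := by
    by_contra h
    push Not at h
    nlinarith
  have hd54 : 54 ≤ d := by nlinarith
  refine ⟨by positivity, div_lt_div_of_pos_right (by linarith) hdpos, ?_, ?_, ?_⟩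
  · rw [div_le_one hdpos]; linarith
  · have := one_sub_pr h0 h1 hdpos (le_refl ((1 + delta / 2) / d))
    linarith
  · intro p hp1 hp0 y
    have hpL1 : 1 + delta / 4 ≤ p * d := (div_le_iff₀ hdpos).1 hp1
    have hpL0 : p * d ≤ 1 + delta / 2 := (le_div_iff₀ hdpos).1 hp0
    have hp : 0 < p := lt_of_lt_of_le (by positivity) hp1
    have hgap := one_sub_pr h0 h1 hdpos hp0
    have hpr : p * ((1 - delta) * d) < 1 := by linarith
    have hc := crit_le_deg G hp.le (mul_nonneg (by linarith) hdpos.le) hpr hB y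
    have hden : (delta / 2) ^ 2 ≤ (1 - p * ((1 - delta) * d)) ^ 2 :=
      pow_le_pow_left₀ (by linarith) hgap 2
    set D : ℝ := (G.degree y : ℝ) with hD
    have hDd : d ≤ D := hdeg y
    have hDpos : 0 < D := by linarith
    have hc2 : crit G p y ≤ 3 / 2 * (p ^ 2 * D) / (delta / 2) ^ 2 :=
      hc.trans (div_le_div₀ (by positivity) le_rfl (by positivity) hden)
    -- `3 / 2 p² D / (δ / 2)² ≤ p D * (9 / (d δ²)) ≤ p D * (δ / 6)`
    have h3 : 3 / 2 * (p ^ 2 * D) / (delta / 2) ^ 2 ≤ p * D * (delta / 6) := by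
      rw [div_le_iff₀ (by positivity)]
      have h4 : p * D * (delta / 6) * (delta / 2) ^ 2 = p * D * delta ^ 3 / 24 := by ring
      rw [h4]
      have h5 : 3 / 2 * (p ^ 2 * D) = p * D * (3 / 2 * p) := by ring
      rw [h5, mul_div_assoc]
      refine mul_le_mul_of_nonneg_left ?_ (by positivity)
      -- `36 p ≤ δ³`
      have h6 : 36 * p * d ≤ 54 := by nlinarith
      have h7 : 36 * p * d ≤ delta ^ 3 * d := by linarith [mul_comm d (delta ^ 3)]
      have h8 : 36 * p ≤ delta ^ 3 := le_of_mul_le_mul_right h7 hdpos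
      linarith
    have h9 : 1 + delta / 4 ≤ p * D := hpL1.trans (mul_le_mul_of_nonneg_left hDd hp.le)
    -- `p D (1 - δ / 6) ≥ (1 + δ / 4) (1 - δ / 6) ≥ 1`
    have h10 : (1 + delta / 4) * (1 - delta / 6) ≤ p * D * (1 - delta / 6) :=
      mul_le_mul_of_nonneg_right h9 (by linarith)
    nlinarith [mul_pos h0 (by linarith : (0 : ℝ) < 1 - delta)]

end Vale.Agent.P165
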