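import Vale.Agent.P165.Defs

/-!
# P165: calculus of the Green function; the two identities that turn the second order inequality
into the criterion `crit`
-/

open Finset

namespace Vale.Agent.P165.Green

variable {V : Type*} [DecidableEq V] (G : SimpleGraph V) [G.LocallyFinite]

theorem nw_nonneg (k : ℕ) (x y : V) : 0 ≤ nw G k x y := by
  induction k generalizing x with
  | zero => simp only [nw]; split_ifs <;> norm_num
  | succ k ih => exact sum_nonneg fun z _ => ih z

theorem nw_succ' (k : ℕ) (x y : V) : nw G (k + 1) x y = ∑ z ∈ G.neighborFinset y, nw G k x z := by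
  induction k generalizing x with
  | zero =>
    change (∑ z ∈ G.neighborFinset x, if z = y then (1 : ℝ) else 0) =
      ∑ z ∈ G.neighborFinset y, if x = z then (1 : ℝ) else 0
    rw [sum_ite_eq', sum_ite_eq]
    by_cases h : G.Adj x y
    · rw [if_pos ((G.mem_neighborFinset x y).2 h), if_pos ((G.mem_neighborFinset y x).2 h.symm)]
    · rw [if_neg (fun h' => h ((G.mem_neighborFinset x y).1 h')),
        if_neg (fun h' => h ((G.mem_neighborFinset y x).1 h').symm)]
  | succ k ih =>
    have h1 : nw G (k + 1 + 1) x y = ∑ a ∈ G.neighborFinset x, nw G (k + 1) a y := rfl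
    rw [h1]
    simp only [ih]
    rw [sum_comm]
    rfl

theorem nw_symm (k : ℕ) (x y : V) : nw G k x y = nw G k y x := by
  induction k generalizing x y with
  | zero => simp only [nw, eq_comm]
  | succ k ih =>
    rw [nw_succ' G k y x]
    exact sum_congr rfl fun z _ => ih z y

/-- Chapman-Kolmogorov, restricted to a finite set. -/
theorem nw_conv_le (L : Finset V) (j k : ℕ) (x y : V) :
    ∑ w ∈ L, nw G j x w * nw G k w y ≤ nw G (j + k) x y := by
  induction j generalizing x with
  | zero =>
    rw [zero_add]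
    have h1 : ∀ w ∈ L, nw G 0 x w * nw G k w y = if x = w then nw G k x y else 0 := by
      intro w _
      by_cases h : x = w
      · subst h; simp [nw]
      · simp [nw, h]
    rw [sum_congr rfl h1, sum_ite_eq]
    split_ifs
    · exact le_rfl
    · exact nw_nonneg G k x y
  | succ j ih =>
    have h1 : ∑ w ∈ L, nw G (j + 1) x w * nw G k w y =
        ∑ z ∈ G.neighborFinset x, ∑ w ∈ L, nw G j z w * nw G k w y := by
      rw [sum_comm]
      refine sum_congr rfl fun w _ => ?_
      rw [← sum_mul]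
      rfl
    rw [h1]
    have h2 : nw G (j + 1 + k) x y = ∑ z ∈ G.neighborFinset x, nw G (j + k) z y := by
      have : j + 1 + k = (j + k) + 1 := by omega
      rw [this]
      rfl
    rw [h2]
    exact sum_le_sum fun z _ => ih z

theorem nw_one_self (o : V) : nw G 1 o o = 0 := by
  change ∑ z ∈ G.neighborFinset o, nw G 0 z o = 0
  refine sum_eq_zero fun z hz => ?_
  have : z ≠ o := by
    rintro rfl
    exact G.loopless.1 z ((G.mem_neighborFinset z z).1 hz)
  simp [nw, this]

theorem sum_sum_nw (k : ℕ) (o : V) :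
    ∑ v ∈ G.neighborFinset o, ∑ v' ∈ G.neighborFinset o, nw G k v v' = nw G (k + 2) o o := by
  have h1 : nw G (k + 2) o o = ∑ v ∈ G.neighborFinset o, nw G (k + 1) v o := rfl
  rw [h1]
  exact sum_congr rfl fun v _ => (nw_succ' G k v o).symm

variable {G} {p r : ℝ}

section
variable (hp : 0 ≤ p) (hr0 : 0 ≤ r) (hr : ∀ k x y, nw G k x y ≤ r ^ k) (hpr : p * r < 1)
include hp hr0 hr hpr

theorem term_summable (x y : V) : Summable (fun k => p ^ k * nw G k x y) := by
  refine Summable.of_nonneg_of_le (fun k => mul_nonneg (pow_nonneg hp k) (nw_nonneg G k x y))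
    (fun k => ?_) (summable_geometric_of_lt_one (mul_nonneg hp hr0) hpr)
  rw [mul_pow]
  exact mul_le_mul_of_nonneg_left (hr k x y) (pow_nonneg hp k)

omit hr0 hr hpr in
theorem term_nonneg (k : ℕ) (x y : V) : 0 ≤ p ^ k * nw G k x y :=
  mul_nonneg (pow_nonneg hp k) (nw_nonneg G k x y)

omit hr0 hr hpr in
theorem gr_nonneg (x y : V) : 0 ≤ gr G p x y :=
  tsum_nonneg fun k => term_nonneg hp k x y

omit hp hr0 hr hpr in
theorem gr_symm (x y : V) : gr G p x y = gr G p y x := by
  unfold gr
  exact tsum_congr fun k => by rw [nw_symm]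

theorem gr_step (x y : V) :
    gr G p x y = (if x = y then 1 else 0) + p * ∑ z ∈ G.neighborFinset x, gr G p z y := by
  have hs := term_summable hp hr0 hr hpr (G := G)
  unfold gr
  rw [(hs x y).tsum_eq_zero_add, ← Summable.tsum_finsetSum (fun z _ => hs z y), ← tsum_mul_left]
  congr 1
  · simp [nw]
  · refine tsum_congr fun k => ?_
    change p ^ (k + 1) * ∑ z ∈ G.neighborFinset x, nw G k z y = _
    rw [mul_sum, mul_sum]
    exact sum_congr rfl fun z _ => by ring

/-- The first identity. -/
theorem first_identity (o : V) :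
    p * ∑ v ∈ G.neighborFinset o, gr G p v o = ∑' k : ℕ, p ^ (k + 2) * nw G (k + 2) o o := by
  have hs := term_summable hp hr0 hr hpr (G := G) o o
  have h1 := gr_step hp hr0 hr hpr (G := G) o o
  rw [if_pos rfl] at h1
  have h2 : gr G p o o = 1 + ∑' k : ℕ, p ^ (k + 2) * nw G (k + 2) o o := by
    unfold gr
    have h3 := hs.sum_add_tsum_nat_add 2
    rw [← h3, sum_range_succ, sum_range_one, nw_one_self]
    simp [nw]
  linarith

theorem summable_weighted (a b : ℝ) (o : V) :
    Summable (fun k : ℕ => (a * k + b) * (p ^ (k + 2) * nw G (k + 2) o o)) := by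
  have hg : Summable (fun k : ℕ => (|a| * k + |b|) * (p * r) ^ (k + 2)) := by
    have h0 := mul_nonneg hp hr0
    have hn : ‖p * r‖ < 1 := by rw [Real.norm_of_nonneg h0]; exact hpr
    have h1 := summable_pow_mul_geometric_of_norm_lt_one 1 hn
    have h2 := summable_geometric_of_lt_one h0 hpr
    have h3 := ((h1.mul_left (|a| * (p * r) ^ 2)).add (h2.mul_left (|b| * (p * r) ^ 2)))
    refine h3.congr fun k => ?_
    rw [pow_one]
    ring
  refine Summable.of_norm_bounded hg fun k => ?_
  rw [norm_mul, Real.norm_eq_abs, Real.norm_of_nonneg (term_nonneg hp (k + 2) o o)]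
  refine mul_le_mul ?_ ?_ (term_nonneg hp (k + 2) o o) (by positivity)
  · calc |a * k + b| ≤ |a * k| + |b| := abs_add_le _ _
      _ = |a| * k + |b| := by rw [abs_mul, Nat.abs_cast]
  · rw [mul_pow]
    exact mul_le_mul_of_nonneg_left (hr _ o o) (pow_nonneg hp _)

/-- The second identity (as an inequality, for a finite set `L`). -/
theorem second_identity (L : Finset V) (o : V) :
    p ^ 2 * ∑ v ∈ G.neighborFinset o, ∑ v' ∈ G.neighborFinset o, ∑ w ∈ L,
      gr G p v w * gr G p v' w ≤
      ∑' k : ℕ, ((k : ℝ) + 1) * (p ^ (k + 2) * nw G (k + 2) o o) := by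
  have hs := term_summable hp hr0 hr hpr (G := G)
  have hn : ∀ x y, Summable (fun k => ‖p ^ k * nw G k x y‖) := fun x y =>
    (hs x y).congr fun k => (Real.norm_of_nonneg (term_nonneg hp k x y)).symm
  have h1 : ∀ v v' w, gr G p v w * gr G p v' w = ∑' n, ∑ kl ∈ antidiagonal n,
      (p ^ kl.1 * nw G kl.1 v w) * (p ^ kl.2 * nw G kl.2 v' w) := fun v v' w =>
    tsum_mul_tsum_eq_tsum_sum_antidiagonal_of_summable_norm (hn v w) (hn v' w)
  have h2 : ∀ v v' w, Summable (fun n => ∑ kl ∈ antidiagonal n,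
      (p ^ kl.1 * nw G kl.1 v w) * (p ^ kl.2 * nw G kl.2 v' w)) := fun v v' w =>
    (summable_norm_sum_mul_antidiagonal_of_summable_norm (hn v w) (hn v' w)).of_norm
  have h3 : p ^ 2 * ∑ v ∈ G.neighborFinset o, ∑ v' ∈ G.neighborFinset o, ∑ w ∈ L,
      gr G p v w * gr G p v' w = ∑' n, p ^ 2 * ∑ v ∈ G.neighborFinset o,
        ∑ v' ∈ G.neighborFinset o, ∑ w ∈ L, ∑ kl ∈ antidiagonal n,
          (p ^ kl.1 * nw G kl.1 v w) * (p ^ kl.2 * nw G kl.2 v' w) := by
    rw [tsum_mul_left]
    congr 1
    rw [Summable.tsum_finsetSum (fun v _ => summable_sum fun v' _ => summable_sum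
      fun w _ => h2 v v' w)]
    refine sum_congr rfl fun v _ => ?_
    rw [Summable.tsum_finsetSum (fun v' _ => summable_sum fun w _ => h2 v v' w)]
    refine sum_congr rfl fun v' _ => ?_
    rw [Summable.tsum_finsetSum (fun w _ => h2 v v' w)]
    exact sum_congr rfl fun w _ => h1 v v' w
  rw [h3]
  refine Summable.tsum_le_tsum (fun n => ?_) ?_ ?_
  · have h4 : ∀ v v', ∑ w ∈ L, ∑ kl ∈ antidiagonal n,
        (p ^ kl.1 * nw G kl.1 v w) * (p ^ kl.2 * nw G kl.2 v' w) ≤
        ((n : ℝ) + 1) * (p ^ n * nw G n v v') := by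
      intro v v'
      rw [sum_comm]
      have h5 : ∀ kl ∈ antidiagonal n, ∑ w ∈ L,
          (p ^ kl.1 * nw G kl.1 v w) * (p ^ kl.2 * nw G kl.2 v' w) ≤ p ^ n * nw G n v v' := by
        intro kl hkl
        have hk := mem_antidiagonal.1 hkl
        have h6 : ∑ w ∈ L, (p ^ kl.1 * nw G kl.1 v w) * (p ^ kl.2 * nw G kl.2 v' w) =
            p ^ n * ∑ w ∈ L, nw G kl.1 v w * nw G kl.2 w v' := by
          rw [mul_sum]
          refine sum_congr rfl fun w _ => ?_
          rw [nw_symm G kl.2 v' w, ← hk, pow_add]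
          ring
        rw [h6]
        have h7 := nw_conv_le G L kl.1 kl.2 v v'
        rw [hk] at h7
        exact mul_le_mul_of_nonneg_left h7 (pow_nonneg hp n)
      refine (sum_le_sum h5).trans (le_of_eq ?_)
      rw [sum_const, Nat.card_antidiagonal, nsmul_eq_mul]
      push_cast
      ring
    calc p ^ 2 * ∑ v ∈ G.neighborFinset o, ∑ v' ∈ G.neighborFinset o, ∑ w ∈ L,
          ∑ kl ∈ antidiagonal n, (p ^ kl.1 * nw G kl.1 v w) * (p ^ kl.2 * nw G kl.2 v' w)
        ≤ p ^ 2 * ∑ v ∈ G.neighborFinset o, ∑ v' ∈ G.neighborFinset o,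
          ((n : ℝ) + 1) * (p ^ n * nw G n v v') :=
          mul_le_mul_of_nonneg_left (sum_le_sum fun v _ => sum_le_sum fun v' _ => h4 v v')
            (by positivity)
      _ = ((n : ℝ) + 1) * (p ^ (n + 2) * nw G (n + 2) o o) := by
          rw [← sum_sum_nw G n o]
          simp only [mul_sum]
          refine sum_congr rfl fun v _ => sum_congr rfl fun v' _ => ?_
          ring
  · exact (summable_sum fun v _ => summable_sum fun v' _ => summable_sum
      fun w _ => h2 v v' w).mul_left _
  · have := summable_weighted hp hr0 hr hpr (G := G) 1 1 o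
    exact this.congr fun k => by ring

theorem crit_summable (o : V) :
    Summable (fun k : ℕ => ((k : ℝ) + 3) / 2 * (p ^ (k + 2) * nw G (k + 2) o o)) :=
  (summable_weighted hp hr0 hr hpr (G := G) (1 / 2) (3 / 2) o).congr fun k => by ring

/-- The two terms together are at most `crit`. -/
theorem le_crit (L : Finset V) (o : V) :
    p * ∑ v ∈ G.neighborFinset o, gr G p v o +
      p ^ 2 / 2 * ∑ v ∈ G.neighborFinset o, ∑ v' ∈ G.neighborFinset o, ∑ w ∈ L,
        gr G p v w * gr G p v' w ≤ crit G p o := by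
  have h1 := first_identity hp hr0 hr hpr (G := G) o
  have h2 := second_identity hp hr0 hr hpr (G := G) L o
  have hs1 : Summable (fun k : ℕ => p ^ (k + 2) * nw G (k + 2) o o) :=
    (summable_weighted hp hr0 hr hpr (G := G) 0 1 o).congr fun k => by ring
  have hs2 : Summable (fun k : ℕ => ((k : ℝ) + 1) * (p ^ (k + 2) * nw G (k + 2) o o)) :=
    (summable_weighted hp hr0 hr hpr (G := G) 1 1 o).congr fun k => by ring
  have h3 : crit G p o = (∑' k : ℕ, p ^ (k + 2) * nw G (k + 2) o o) +
      1 / 2 * ∑' k : ℕ, ((k : ℝ) + 1) * (p ^ (k + 2) * nw G (k + 2) o o) := by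
    unfold crit
    rw [← tsum_mul_left, ← hs1.tsum_add (hs2.mul_left _)]
    exact tsum_congr fun k => by ring
  rw [h3, h1]
  linarith

/-- The Green function is at least `1` on the diagonal. -/
theorem one_le_gr (o : V) : 1 ≤ gr G p o o := by
  rw [gr_step hp hr0 hr hpr (G := G) o o, if_pos rfl]
  have : 0 ≤ p * ∑ z ∈ G.neighborFinset o, gr G p z o :=
    mul_nonneg hp (sum_nonneg fun z _ => gr_nonneg hp z o)
  linarith

end

end Vale.Agent.P165.Green
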