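import Vale.Agent.P165.Defs

/-! P165: infinite volume. -/

open Finset MeasureTheory

namespace Vale.Agent.P165

variable {V : Type*}

namespace Inf

open Classical in
/-- the open edges of `ω` in `F` -/
noncomputable def res (F : Finset (Sym2 V)) (ω : Sym2 V → Bool) : Finset (Sym2 V) :=
  F.filter (fun e => ω e = true)

theorem mem_res {F : Finset (Sym2 V)} {ω : Sym2 V → Bool} {e : Sym2 V} :
    e ∈ res F ω ↔ e ∈ F ∧ ω e = true := by
  classical
  unfold res
  rw [mem_filter]

theorem res_sub (F : Finset (Sym2 V)) (ω : Sym2 V → Bool) : res F ω ⊆ F := fun _ h =>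
  (mem_res.1 h).1

theorem bern_true (p : unitInterval) : bern p {true} = ENNReal.ofReal (p : ℝ) := by
  simp [bern]

theorem bern_false (p : unitInterval) : bern p {false} = ENNReal.ofReal (1 - (p : ℝ)) := by
  simp [bern]

theorem res_eq_iff [DecidableEq (Sym2 V)] {F S : Finset (Sym2 V)} (hS : S ⊆ F) :
    {ω : Sym2 V → Bool | res F ω = S} =
      Set.pi (F : Set (Sym2 V)) (fun e => if e ∈ S then {true} else {false}) := by
  ext ω
  simp only [Set.mem_ofPred_eq, Set.mem_pi]
  constructor
  · intro h e he
    split_ifs with h1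
    · rw [← h] at h1
      exact (mem_res.1 h1).2
    · by_contra h2
      apply h1
      rw [← h]
      refine mem_res.2 ⟨he, ?_⟩
      cases hω : ω e
      · exact absurd hω h2
      · rfl
  · intro h
    ext e
    rw [mem_res]
    constructor
    · rintro ⟨he, hω⟩
      by_contra h1
      have := h e he
      rw [if_neg h1] at this
      rw [Set.mem_singleton_iff.1 this] at hω
      exact absurd hω (by decide)
    · intro he
      refine ⟨hS he, ?_⟩
      have := h e (hS he)
      rw [if_pos he] at this
      exact this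

theorem perc_res (p : unitInterval) {F S : Finset (Sym2 V)} (hS : S ⊆ F) :
    (perc V p).real {ω | res F ω = S} = (p : ℝ) ^ S.card * (1 - p) ^ (F.card - S.card) := by
  classical
  rw [measureReal_def, res_eq_iff hS]
  unfold perc
  rw [Measure.infinitePi_pi _ (fun e _ => by split_ifs <;> exact measurableSet_singleton _)]
  have e1 : ∀ e ∈ F, bern p (if e ∈ S then {true} else {false}) =
      if e ∈ S then ENNReal.ofReal (p : ℝ) else ENNReal.ofReal (1 - (p : ℝ)) := by
    intro e _
    split_ifs
    · exact bern_true p
    · exact bern_false p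
  rw [Finset.prod_congr rfl e1, Finset.prod_ite, Finset.prod_const, Finset.prod_const,
    ENNReal.toReal_mul, ENNReal.toReal_pow, ENNReal.toReal_pow, ENNReal.toReal_ofReal p.2.1,
    ENNReal.toReal_ofReal (by linarith [p.2.2])]
  have h1 : F.filter (fun e => e ∈ S) = S := by
    ext e
    rw [mem_filter]
    exact ⟨fun h => h.2, fun h => ⟨hS h, h⟩⟩
  have h2 : F.filter (fun e => e ∉ S) = F \ S := by
    ext e
    rw [mem_filter, mem_sdiff]
  rw [h1, h2, card_sdiff_of_subset hS]

theorem measurable_res (F : Finset (Sym2 V)) (A : Finset (Sym2 V) → Prop) :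
    MeasurableSet {ω : Sym2 V → Bool | A (res F ω)} := by
  classical
  have h : {ω : Sym2 V → Bool | A (res F ω)} =
      ⋃ S ∈ F.powerset.filter A, {ω | res F ω = S} := by
    ext ω
    simp only [Set.mem_ofPred_eq, Set.mem_iUnion, mem_filter, mem_powerset, exists_prop]
    constructor
    · intro h
      exact ⟨res F ω, ⟨res_sub F ω, h⟩, rfl⟩
    · rintro ⟨S, ⟨_, hA⟩, h⟩
      rw [h]
      exact hA
  rw [h]
  refine Finset.measurableSet_biUnion _ fun S hS => ?_
  rw [res_eq_iff (mem_powerset.1 (mem_filter.1 hS).1)]
  refine MeasurableSet.pi (Finset.countable_toSet F) fun e _ => ?_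
  split_ifs <;> exact measurableSet_singleton _

theorem perc_real (p : unitInterval) (F : Finset (Sym2 V)) (A : Finset (Sym2 V) → Prop) :
    (perc V p).real {ω | A (res F ω)} = pr (p : ℝ) F A := by
  classical
  have h : {ω : Sym2 V → Bool | A (res F ω)} =
      ⋃ S ∈ F.powerset.filter A, {ω | res F ω = S} := by
    ext ω
    simp only [Set.mem_ofPred_eq, Set.mem_iUnion, mem_filter, mem_powerset, exists_prop]
    constructor
    · intro h
      exact ⟨res F ω, ⟨res_sub F ω, h⟩, rfl⟩
    · rintro ⟨S, ⟨_, hA⟩, h⟩
      rw [h]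
      exact hA
  rw [h, measureReal_biUnion_finset]
  · unfold pr ex ind
    rw [Finset.sum_filter]
    refine Finset.sum_congr rfl fun S hS => ?_
    by_cases hA : A S
    · simp only [hA, if_true, mul_one]
      exact perc_res p (mem_powerset.1 hS)
    · simp only [hA, if_false, mul_zero]
  · intro S _ T _ hST
    show Disjoint _ _
    rw [Set.disjoint_left]
    intro ω h1 h2
    exact hST (h1.symm.trans h2)
  · intro S hS
    exact measurable_res F (fun T => T = S)

end Inf

end Vale.Agent.P165
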