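import Vale.Agent.P165.Inf
import Vale.Agent.P165.FinPerc

/-! P165: infinite volume: exhaustion, connection events, infinite clusters, `p_c`. -/

open Finset MeasureTheory

namespace Vale.Agent.P165

variable {V : Type*} [DecidableEq V] {G : SimpleGraph V} [G.LocallyFinite]

namespace Inf

/-- the balls around `o` -/
def ball (G : SimpleGraph V) [G.LocallyFinite] (o : V) : ℕ → Finset V
  | 0 => {o}
  | n + 1 => ball G o n ∪ (ball G o n).biUnion (fun x => G.neighborFinset x)

theorem ball_mono (o : V) {m n : ℕ} (h : m ≤ n) : ball G o m ⊆ ball G o n :=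
  monotone_nat_of_le_succ (f := ball G o) (fun _ => Finset.subset_union_left) h

theorem self_mem_ball (o : V) (n : ℕ) : o ∈ ball G o n :=
  ball_mono o (Nat.zero_le n) (Finset.mem_singleton_self o)

theorem mem_ball (hG : G.Connected) (o x : V) : ∃ n, x ∈ ball G o n := by
  have h := (SimpleGraph.reachable_iff_reflTransGen o x).1 (hG.preconnected o x)
  induction h with
  | refl => exact ⟨0, Finset.mem_singleton_self o⟩
  | tail _ hbc ih =>
    obtain ⟨n, hn⟩ := ih
    exact ⟨n + 1, mem_union_right _ (mem_biUnion.2 ⟨_, hn, (G.mem_neighborFinset _ _).2 hbc⟩)⟩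

theorem countable_of_connected (hG : G.Connected) : Countable V := by
  obtain ⟨o⟩ := hG.nonempty
  have h : (Set.univ : Set V) = ⋃ n, (ball G o n : Set V) := by
    ext x
    obtain ⟨n, hn⟩ := mem_ball hG o x
    simp only [Set.mem_univ, Set.mem_iUnion, true_iff]
    exact ⟨n, hn⟩
  rw [← Set.countable_univ_iff, h]
  exact Set.countable_iUnion fun n => (ball G o n).countable_toSet

theorem subset_ball (hG : G.Connected) (o : V) (T : Finset V) : ∃ n, T ⊆ ball G o n := by
  induction T using Finset.induction_on with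
  | empty => exact ⟨0, empty_subset _⟩
  | insert x T _ ih =>
    obtain ⟨n, hn⟩ := ih
    obtain ⟨m, hm⟩ := mem_ball hG o x
    exact ⟨max m n, insert_subset (ball_mono _ (le_max_left _ _) hm)
      (hn.trans (ball_mono _ (le_max_right _ _)))⟩

omit [DecidableEq V] in
theorem res_mono {F F' : Finset (Sym2 V)} (h : F ⊆ F') (ω : Sym2 V → Bool) :
    res F ω ⊆ res F' ω :=
  fun _ he => mem_res.2 ⟨h (mem_res.1 he).1, (mem_res.1 he).2⟩

omit [DecidableEq V] [G.LocallyFinite] in
theorem reach_of_cn {F : Finset (Sym2 V)} (hF : ∀ e ∈ F, e ∈ G.edgeSet) {S : Finset V}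
    {ω : Sym2 V → Bool} {x y : V} (h : Cn (res F ω) S x y) : (opn G ω).Reachable x y := by
  obtain ⟨_, h⟩ := h
  rw [SimpleGraph.reachable_iff_reflTransGen]
  refine Relation.ReflTransGen.mono (fun a b hab => ?_) _ _ h
  exact ⟨(SimpleGraph.mem_edgeSet G).1 (hF _ (mem_res.1 hab.1).1), (mem_res.1 hab.1).2⟩

omit [DecidableEq V] [G.LocallyFinite] in
theorem ed_edge (S : Finset V) : ∀ e ∈ ed G S, e ∈ G.edgeSet := by
  intro e he
  induction e with
  | h x z => exact (mem_ed.1 he).2.2

theorem edT_edge (S : Finset V) : ∀ e ∈ edT G S, e ∈ G.edgeSet := by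
  intro e he
  unfold edT at he
  rw [mem_biUnion] at he
  obtain ⟨x, _, he⟩ := he
  rw [mem_image] at he
  obtain ⟨z, hz, rfl⟩ := he
  exact (SimpleGraph.mem_edgeSet G).2 ((G.mem_neighborFinset _ _).1 hz)

theorem cn_of_reach (hG : G.Connected) (o : V) {ω : Sym2 V → Bool} {x y : V}
    (h : (opn G ω).Reachable x y) :
    ∃ n, Cn (res (ed G (ball G o n)) ω) (ball G o n) x y := by
  rw [SimpleGraph.reachable_iff_reflTransGen] at h
  induction h with
  | refl =>
    obtain ⟨n, hn⟩ := mem_ball hG o x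
    exact ⟨n, Cn.refl hn⟩
  | tail _ hbc ih =>
    rename_i b c _
    obtain ⟨n, hn⟩ := ih
    obtain ⟨m, hm⟩ := mem_ball hG o c
    have h1 := hn.mono (res_mono (ed_mono (ball_mono o (le_max_left n m))) ω)
      (ball_mono o (le_max_left n m))
    have hc : c ∈ ball G o (max n m) := ball_mono _ (le_max_right _ _) hm
    exact ⟨max n m, h1.1, h1.2.tail ⟨mem_res.2 ⟨mem_ed.2 ⟨h1.right_mem, hc, hbc.1⟩, hbc.2⟩, hc⟩⟩

/-- the event that `x` and `y` are connected -/
def R (G : SimpleGraph V) (x y : V) : Set (Sym2 V → Bool) := {ω | (opn G ω).Reachable x y}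

theorem R_eq (hG : G.Connected) (o x y : V) :
    R G x y = ⋃ n, {ω | Cn (res (ed G (ball G o n)) ω) (ball G o n) x y} := by
  ext ω
  simp only [R, Set.mem_ofPred_eq, Set.mem_iUnion]
  exact ⟨fun h => cn_of_reach hG o h, fun ⟨n, h⟩ => reach_of_cn (ed_edge _) h⟩

theorem measurable_R (hG : G.Connected) (x y : V) : MeasurableSet (R G x y) := by
  rw [R_eq hG x x y]
  exact MeasurableSet.iUnion fun n => measurable_res _ (fun w => Cn w (ball G x n) x y)

theorem perc_R_le (hG : G.Connected) (p : unitInterval) {x y : V} {c : ℝ}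
    (hc : ∀ S, tau G p S x y ≤ c) : (perc V p).real (R G x y) ≤ c := by
  have hm : Monotone (fun n => {ω : Sym2 V → Bool |
      Cn (res (ed G (ball G x n)) ω) (ball G x n) x y}) := by
    intro m n hmn ω h
    exact Cn.mono h (res_mono (ed_mono (ball_mono x hmn)) ω) (ball_mono x hmn)
  have h0 : ∀ n, (perc V p).real {ω : Sym2 V → Bool |
      Cn (res (ed G (ball G x n)) ω) (ball G x n) x y} ≤ c := by
    intro n
    rw [perc_real p (ed G (ball G x n)) (fun w => Cn w (ball G x n) x y)]
    exact hc (ball G x n)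
  have hc0 : 0 ≤ c := le_trans measureReal_nonneg (h0 0)
  rw [measureReal_def, R_eq hG x x y, hm.measure_iUnion]
  refine ENNReal.toReal_le_of_le_ofReal hc0 (iSup_le fun n => ?_)
  rw [← ENNReal.ofReal_toReal (measure_ne_top (perc V p) _)]
  exact ENNReal.ofReal_le_ofReal (h0 n)

/-- the event that the cluster of `x` is infinite -/
def I (G : SimpleGraph V) (x : V) : Set (Sym2 V → Bool) :=
  {ω | ((opn G ω).connectedComponentMk x).supp.Infinite}

/-- the event that `x` is connected to the complement of the `n`-th ball -/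
def A (G : SimpleGraph V) [G.LocallyFinite] (x : V) (n : ℕ) : Set (Sym2 V → Bool) :=
  ⋃ z ∈ ((ball G x n : Finset V) : Set V)ᶜ, R G x z

omit [DecidableEq V] [G.LocallyFinite] in
theorem mem_supp_mk {H : SimpleGraph V} {x z : V} :
    z ∈ (H.connectedComponentMk x).supp ↔ H.Reachable x z := by
  rw [SimpleGraph.ConnectedComponent.mem_supp_iff, SimpleGraph.ConnectedComponent.eq]
  exact ⟨fun h => h.symm, fun h => h.symm⟩

theorem I_eq (hG : G.Connected) (x : V) : I G x = ⋂ n, A G x n := by
  ext ω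
  simp only [I, A, Set.mem_ofPred_eq, Set.mem_iInter, Set.mem_iUnion, exists_prop,
    Set.mem_compl_iff, Finset.mem_coe]
  constructor
  · intro h n
    by_contra hcon
    push Not at hcon
    apply h
    refine (ball G x n).finite_toSet.subset fun z hz => ?_
    by_contra hz2
    exact hcon z hz2 (mem_supp_mk.1 hz)
  · intro h hfin
    obtain ⟨n, hn⟩ := subset_ball hG x hfin.toFinset
    obtain ⟨z, hz, hr⟩ := h n
    exact hz (hn (hfin.mem_toFinset.2 (mem_supp_mk.2 hr)))

theorem measurable_A (hG : G.Connected) (x : V) (n : ℕ) : MeasurableSet (A G x n) := by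
  have := countable_of_connected hG
  exact MeasurableSet.biUnion (Set.to_countable _) fun z _ => measurable_R hG x z

theorem measurable_I (hG : G.Connected) (x : V) : MeasurableSet (I G x) := by
  rw [I_eq hG x]
  exact MeasurableSet.iInter fun n => measurable_A hG x n

theorem A_anti (x : V) : Antitone (A G x) := by
  intro m n hmn
  refine Set.biUnion_subset_biUnion_left (Set.compl_subset_compl.2 ?_)
  exact_mod_cast ball_mono x hmn

theorem exit_sub (x : V) (n : ℕ) :
    {ω : Sym2 V → Bool | Exit (res (edT G (ball G x n)) ω) (ball G x n) x} ⊆ A G x n := by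
  rintro ω ⟨y, z, hy, hz, he⟩
  simp only [A, Set.mem_iUnion, Set.mem_compl_iff, Finset.mem_coe, exists_prop]
  refine ⟨z, hz, ?_⟩
  have h1 : (opn G ω).Reachable x y := reach_of_cn (edT_edge _) hy
  refine h1.trans (SimpleGraph.Adj.reachable ?_)
  exact ⟨(SimpleGraph.mem_edgeSet G).1 (edT_edge _ _ (mem_res.1 he).1), (mem_res.1 he).2⟩

theorem le_perc_I (hG : G.Connected) (p : unitInterval) {x : V} {c : ℝ}
    (hc : ∀ S : Finset V, x ∈ S → c ≤ theta G p S x) : c ≤ (perc V p).real (I G x) := by
  have h1 : ∀ n, c ≤ (perc V p).real (A G x n) := by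
    intro n
    refine le_trans (hc (ball G x n) (self_mem_ball x n)) ?_
    have h2 := perc_real p (edT G (ball G x n)) (fun w => Exit w (ball G x n) x)
    unfold theta
    rw [← h2]
    exact measureReal_mono (exit_sub x n) (measure_ne_top _ _)
  rw [measureReal_def, I_eq hG x, (A_anti x).measure_iInter
    (fun n => (measurable_A hG x n).nullMeasurableSet) ⟨0, measure_ne_top _ _⟩]
  have h3 : ENNReal.ofReal c ≤ ⨅ n, perc V p (A G x n) := by
    refine le_iInf fun n => ?_
    rw [← ENNReal.ofReal_toReal (measure_ne_top (perc V p) _)]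
    exact ENNReal.ofReal_le_ofReal (h1 n)
  have h4 : ⨅ n, perc V p (A G x n) ≠ ⊤ :=
    ne_top_of_le_ne_top (measure_ne_top (perc V p) (A G x 0)) (iInf_le _ 0)
  exact (ENNReal.ofReal_le_iff_le_toReal h4).1 h3

end Inf

/-- **Infinite cluster**: a uniform lower bound for the exit probabilities -/
theorem perc_infinite_pos (hG : G.Connected) (p : unitInterval) {x : V} {c : ℝ} (hc0 : 0 < c)
    (hc : ∀ S : Finset V, x ∈ S → c ≤ theta G p S x) :
    0 < perc V p {ω | ∃ C : (opn G ω).ConnectedComponent, C.supp.Infinite} := by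
  have h1 : 0 < perc V p (Inf.I G x) := by
    have h2 := Inf.le_perc_I hG p hc
    rw [pos_iff_ne_zero]
    intro h3
    rw [measureReal_def, h3, ENNReal.toReal_zero] at h2
    linarith
  refine lt_of_lt_of_le h1 (measure_mono fun ω hω => ?_)
  exact ⟨_, hω⟩

/-- **INFC** -/
theorem pc_le (hG : G.Connected) (p : unitInterval) {x : V} {c : ℝ} (hc0 : 0 < c)
    (hc : ∀ S : Finset V, x ∈ S → c ≤ theta G p S x) : pc G ≤ p := by
  refine csInf_le ⟨0, ?_⟩ ⟨p, rfl, perc_infinite_pos hG p hc0 hc⟩
  rintro q ⟨p', rfl, _⟩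
  exact p'.2.1

end Vale.Agent.P165
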