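import Vale.Agent.P165.Inf2

/-! P165: infinite volume: invariance under automorphisms, second moment, nonuniqueness, `p_u`. -/

open Finset MeasureTheory

namespace Vale.Agent.P165

variable {V : Type*} [DecidableEq V] {G : SimpleGraph V} [G.LocallyFinite]

namespace Inf

/-- the action of a permutation of the vertices on the configurations -/
def act (e : V ≃ V) (ω : Sym2 V → Bool) : Sym2 V → Bool := fun a => ω (Sym2.map e a)

omit [DecidableEq V] in
theorem measurable_act (e : V ≃ V) : Measurable (act e) :=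
  measurable_pi_lambda _ fun _ => measurable_pi_apply _

omit [DecidableEq V] in
theorem map_symm_map (e : V ≃ V) (a : Sym2 V) : Sym2.map e.symm (Sym2.map e a) = a := by
  rw [Sym2.map_map]
  have h : (e.symm : V → V) ∘ e = id := by
    funext x
    simp
  rw [h, Sym2.map_id]
  rfl

theorem map_act (e : V ≃ V) (p : unitInterval) : (perc V p).map (act e) = perc V p := by
  unfold perc
  refine Measure.eq_infinitePi _ fun s t ht => ?_
  rw [Measure.map_apply (measurable_act e)
    (MeasurableSet.pi (Finset.countable_toSet s) fun i _ => ht i)]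
  have h1 : act e ⁻¹' (Set.pi (s : Set (Sym2 V)) t) =
      Set.pi ((s.image (Sym2.map e) : Finset (Sym2 V)) : Set (Sym2 V))
        (fun a => t (Sym2.map e.symm a)) := by
    ext ω
    simp only [Set.mem_preimage, Set.mem_pi, Finset.mem_coe, Finset.mem_image, act]
    constructor
    · rintro h a ⟨b, hb, rfl⟩
      rw [map_symm_map]
      exact h b hb
    · intro h a ha
      have h2 := h _ ⟨a, ha, rfl⟩
      rw [map_symm_map] at h2
      exact h2
  rw [h1, Measure.infinitePi_pi _ (fun i _ => ht _), Finset.prod_image]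
  · refine Finset.prod_congr rfl fun a _ => ?_
    rw [map_symm_map]
  · intro a _ b _ hab
    have h2 := congrArg (Sym2.map e.symm) hab
    rwa [map_symm_map, map_symm_map] at h2

/-- an automorphism of `G` is an isomorphism between the open graphs -/
def isoAct (e : G ≃g G) (ω : Sym2 V → Bool) : opn G (act e.toEquiv ω) ≃g opn G ω where
  toEquiv := e.toEquiv
  map_rel_iff' := by
    intro a b
    show G.Adj (e a) (e b) ∧ ω s(e a, e b) = true ↔ G.Adj a b ∧ ω (Sym2.map e s(a, b)) = true
    rw [e.map_adj_iff]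
    rfl

omit [DecidableEq V] [G.LocallyFinite] in
theorem I_act (e : G ≃g G) (x : V) : act e.toEquiv ⁻¹' (I G x) = I G (e x) := by
  ext ω
  have h1 : ((opn G ω).connectedComponentMk (e x)).supp =
      e '' ((opn G (act e.toEquiv ω)).connectedComponentMk x).supp := by
    ext z
    rw [mem_supp_mk, Set.mem_image]
    constructor
    · intro h
      refine ⟨e.symm z, mem_supp_mk.2 ?_, e.apply_symm_apply z⟩
      rw [← SimpleGraph.Iso.reachable_iff (φ := isoAct e ω)]
      have h2 : (isoAct e ω) (e.symm z) = z := e.apply_symm_apply z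
      rw [h2]
      exact h
    · rintro ⟨a, ha, rfl⟩
      have h2 := mem_supp_mk.1 ha
      rw [← SimpleGraph.Iso.reachable_iff (φ := isoAct e ω)] at h2
      exact h2
  show ((opn G (act e.toEquiv ω)).connectedComponentMk x).supp.Infinite ↔
    ((opn G ω).connectedComponentMk (e x)).supp.Infinite
  rw [h1, Set.infinite_image_iff e.injective.injOn]

theorem perc_I_iso (hG : G.Connected) (p : unitInterval) (e : G ≃g G) (x : V) :
    (perc V p).real (I G (e x)) = (perc V p).real (I G x) := by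
  rw [measureReal_def, measureReal_def, ← I_act e x]
  rw [← Measure.map_apply (measurable_act e.toEquiv) (measurable_I hG x), map_act]

/-- second moment inequality -/
theorem second_moment {Ω ι : Type*} [MeasurableSpace Ω] (μ : Measure Ω) [IsProbabilityMeasure μ]
    (B : Finset ι) (s : ι → Set Ω) (hs : ∀ i, MeasurableSet (s i)) :
    (∑ i ∈ B, μ.real (s i)) ^ 2 ≤ ∑ i ∈ B, ∑ j ∈ B, μ.real (s i ∩ s j) := by
  set m := ∑ i ∈ B, μ.real (s i) with hm
  have hint : ∀ t : Set Ω, MeasurableSet t → Integrable (t.indicator (fun _ => (1 : ℝ))) μ :=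
    fun t ht => (integrable_const 1).indicator ht
  have hval : ∀ t : Set Ω, MeasurableSet t →
      ∫ ω, t.indicator (fun _ => (1 : ℝ)) ω ∂μ = μ.real t := by
    intro t ht
    rw [integral_indicator_const _ ht, smul_eq_mul, mul_one]
  have hN1 : ∫ ω, (∑ i ∈ B, (s i).indicator (fun _ => (1 : ℝ)) ω) ∂μ = m := by
    rw [integral_finsetSum _ (fun i _ => hint _ (hs i)), hm]
    exact Finset.sum_congr rfl fun i _ => hval _ (hs i)
  have hNi : Integrable (fun ω => ∑ i ∈ B, (s i).indicator (fun _ => (1 : ℝ)) ω) μ :=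
    integrable_finsetSum _ fun i _ => hint _ (hs i)
  have hN2 : ∀ ω, (∑ i ∈ B, (s i).indicator (fun _ => (1 : ℝ)) ω) ^ 2 =
      ∑ i ∈ B, ∑ j ∈ B, (s i ∩ s j).indicator (fun _ => (1 : ℝ)) ω := by
    intro ω
    rw [sq, Finset.sum_mul_sum]
    refine Finset.sum_congr rfl fun i _ => Finset.sum_congr rfl fun j _ => ?_
    by_cases h1 : ω ∈ s i <;> by_cases h2 : ω ∈ s j <;> simp [h1, h2]
  have hQi : Integrable (fun ω => ∑ i ∈ B, ∑ j ∈ B,
      (s i ∩ s j).indicator (fun _ => (1 : ℝ)) ω) μ :=
    integrable_finsetSum _ fun i _ => integrable_finsetSum _ fun j _ =>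
      hint _ ((hs i).inter (hs j))
  have hQ : ∫ ω, (∑ i ∈ B, ∑ j ∈ B, (s i ∩ s j).indicator (fun _ => (1 : ℝ)) ω) ∂μ =
      ∑ i ∈ B, ∑ j ∈ B, μ.real (s i ∩ s j) := by
    rw [integral_finsetSum _ (fun i _ => integrable_finsetSum _ fun j _ =>
      hint _ ((hs i).inter (hs j)))]
    refine Finset.sum_congr rfl fun i _ => ?_
    rw [integral_finsetSum _ (fun j _ => hint _ ((hs i).inter (hs j)))]
    exact Finset.sum_congr rfl fun j _ => hval _ ((hs i).inter (hs j))
  have h3 : ∫ ω, (2 * m * (∑ i ∈ B, (s i).indicator (fun _ => (1 : ℝ)) ω) - m ^ 2) ∂μ ≤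
      ∫ ω, (∑ i ∈ B, ∑ j ∈ B, (s i ∩ s j).indicator (fun _ => (1 : ℝ)) ω) ∂μ := by
    refine integral_mono ((hNi.const_mul _).sub (integrable_const _)) hQi fun ω => ?_
    show 2 * m * (∑ i ∈ B, (s i).indicator (fun _ => (1 : ℝ)) ω) - m ^ 2 ≤
      ∑ i ∈ B, ∑ j ∈ B, (s i ∩ s j).indicator (fun _ => (1 : ℝ)) ω
    rw [← hN2 ω]
    nlinarith [sq_nonneg ((∑ i ∈ B, (s i).indicator (fun _ => (1 : ℝ)) ω) - m)]
  rw [integral_sub (hNi.const_mul _) (integrable_const _), integral_const_mul, hN1, hQ,
    integral_const] at h3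
  simp only [probReal_univ, smul_eq_mul, one_mul] at h3
  nlinarith [h3]

theorem theta_zero [Infinite V] (hG : G.Connected) (hT : ∀ x y, ∃ e : G ≃g G, e x = y)
    (p : unitInterval) (T : V → V → ℝ) (hT1 : ∀ S x y, tau G p S x y ≤ T x y) (K : ℝ)
    (hK : ∀ B : Finset V, ∑ x ∈ B, ∑ y ∈ B, T x y ≤ K * B.card)
    (hu : ∀ᵐ ω ∂(perc V p), ∃! C : (opn G ω).ConnectedComponent, C.supp.Infinite) (o : V) :
    (perc V p).real (I G o) = 0 := by
  set θ := (perc V p).real (I G o) with hθ
  have hθ0 : 0 ≤ θ := measureReal_nonneg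
  have hx : ∀ x, (perc V p).real (I G x) = θ := by
    intro x
    obtain ⟨e, he⟩ := hT o x
    rw [← he, perc_I_iso hG p e o]
  have hxy : ∀ x y, (perc V p).real (I G x ∩ I G y) ≤ T x y := by
    intro x y
    refine le_trans ?_ (perc_R_le hG p (fun S => hT1 S x y))
    have h1 : (perc V p) (I G x ∩ I G y) ≤ (perc V p) (R G x y) := by
      refine measure_mono_ae ?_
      filter_upwards [hu] with ω hω h
      obtain ⟨C, _, hC⟩ := hω
      have h2 : (opn G ω).connectedComponentMk x = (opn G ω).connectedComponentMk y :=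
        (hC _ h.1).trans (hC _ h.2).symm
      exact SimpleGraph.ConnectedComponent.eq.1 h2
    exact ENNReal.toReal_mono (measure_ne_top _ _) h1
  have hB : ∀ B : Finset V, (θ * B.card) ^ 2 ≤ K * B.card := by
    intro B
    have h1 := second_moment (perc V p) B (fun x => I G x) (fun x => measurable_I hG x)
    have h2 : ∑ x ∈ B, (perc V p).real (I G x) = θ * B.card := by
      rw [Finset.sum_congr rfl (fun x _ => hx x), Finset.sum_const, nsmul_eq_mul, mul_comm]
    rw [h2] at h1
    refine h1.trans (le_trans ?_ (hK B))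
    exact Finset.sum_le_sum fun x _ => Finset.sum_le_sum fun y _ => hxy x y
  by_contra hne
  have hpos : 0 < θ := lt_of_le_of_ne hθ0 (Ne.symm hne)
  obtain ⟨n, hn⟩ := exists_nat_gt (K / θ ^ 2)
  obtain ⟨B, hBc⟩ := Infinite.exists_subset_card_eq V (n + 1)
  have h1 := hB B
  rw [hBc] at h1
  have h2 : K < θ ^ 2 * n := by
    rw [div_lt_iff₀ (by positivity)] at hn
    linarith
  push_cast at h1
  have hn0 : (0 : ℝ) ≤ n := Nat.cast_nonneg n
  nlinarith [mul_pos hpos hpos, mul_nonneg (mul_nonneg hθ0 hθ0) hn0,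
    mul_nonneg (mul_nonneg (mul_nonneg hθ0 hθ0) hn0) hn0]

end Inf

/-- **Nonuniqueness** -/
theorem not_unique [Infinite V] (hG : G.Connected) (hT : ∀ x y, ∃ e : G ≃g G, e x = y)
    (p : unitInterval) (T : V → V → ℝ) (hT1 : ∀ S x y, tau G p S x y ≤ T x y) (K : ℝ)
    (hK : ∀ B : Finset V, ∑ x ∈ B, ∑ y ∈ B, T x y ≤ K * B.card) :
    ¬ ∀ᵐ ω ∂(perc V p), ∃! C : (opn G ω).ConnectedComponent, C.supp.Infinite := by
  intro hu
  have := Inf.countable_of_connected hG
  have h1 : ∀ᵐ ω ∂(perc V p), ∀ x : V, ω ∉ Inf.I G x := by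
    rw [ae_all_iff]
    intro x
    have h2 := Inf.theta_zero hG hT p T hT1 K hK hu x
    rw [measureReal_def, ENNReal.toReal_eq_zero_iff] at h2
    rcases h2 with h2 | h2
    · rw [ae_iff]
      simpa using h2
    · exact absurd h2 (measure_ne_top _ _)
  have h3 : ∀ᵐ _ω ∂(perc V p), False := by
    filter_upwards [hu, h1] with ω hω h
    obtain ⟨C, hC, _⟩ := hω
    obtain ⟨x, hx⟩ := C.exists_rep
    refine h x ?_
    show ((opn G ω).connectedComponentMk x).supp.Infinite
    have h4 : (opn G ω).connectedComponentMk x = C := hx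
    rw [h4]
    exact hC
  rw [ae_iff] at h3
  simp at h3

theorem unique_one [Infinite V] (hG : G.Connected) :
    ∀ᵐ ω ∂(perc V 1), ∃! C : (opn G ω).ConnectedComponent, C.supp.Infinite := by
  have := Inf.countable_of_connected hG
  have h1 : ∀ᵐ ω ∂(perc V 1), ∀ e : Sym2 V, ω e = true := by
    have hc : Countable (Sym2 V) := Quot.mk_surjective.countable
    rw [ae_all_iff]
    intro e
    rw [ae_iff]
    have h2 : {ω : Sym2 V → Bool | ¬ ω e = true} =
        Set.pi (({e} : Finset (Sym2 V)) : Set (Sym2 V)) (fun _ => {false}) := by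
      ext ω
      simp
    rw [h2]
    unfold perc
    rw [Measure.infinitePi_pi _ (fun e _ => measurableSet_singleton _), Finset.prod_singleton,
      Inf.bern_false]
    simp
  filter_upwards [h1] with ω hω
  have h2 : opn G ω = G := by
    ext x y
    show G.Adj x y ∧ ω s(x, y) = true ↔ G.Adj x y
    exact ⟨fun h => h.1, fun h => ⟨h, hω _⟩⟩
  rw [h2]
  obtain ⟨o⟩ := hG.nonempty
  refine ⟨G.connectedComponentMk o, ?_, ?_⟩
  · have h3 : (G.connectedComponentMk o).supp = Set.univ := by
      ext z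
      rw [Inf.mem_supp_mk]
      simp only [Set.mem_univ, iff_true]
      exact hG.preconnected o z
    show (G.connectedComponentMk o).supp.Infinite
    rw [h3]
    exact Set.infinite_univ
  · intro C _
    obtain ⟨x, hx⟩ := C.exists_rep
    rw [← hx]
    exact SimpleGraph.ConnectedComponent.eq.2 (hG.preconnected x o)

/-- lower bound for `p_u` -/
theorem le_pu [Infinite V] (hG : G.Connected) {b : ℝ}
    (h : ∀ p : unitInterval, (p : ℝ) < b →
      ¬ ∀ᵐ ω ∂(perc V p), ∃! C : (opn G ω).ConnectedComponent, C.supp.Infinite) :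
    b ≤ pu G := by
  refine le_csInf ⟨1, 1, rfl, unique_one hG⟩ ?_
  rintro q ⟨p, rfl, hp⟩
  by_contra hlt
  exact h p (not_le.1 hlt) hp

end Vale.Agent.P165
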