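import Vale.Agent.P165.Bern
import Vale.Agent.P165.FinPerc

/-! P165 row M: finite product measure toolkit (on top of Bern and FinPerc). -/

open Finset

namespace Vale.Agent.P165

variable {α : Type*} [DecidableEq α]

theorem ex_mul_left (p : ℝ) (F : Finset α) (c : ℝ) (f : Finset α → ℝ) :
    ex p F (fun ω => c * f ω) = c * ex p F f := FP.ex_mul c f

/-- marginals -/
theorem ex_marg (p : ℝ) {F F1 : Finset α} (h1 : F1 ⊆ F) (f : Finset α → ℝ) :
    ex p F (fun ω => f (ω ∩ F1)) = ex p F1 f := FP.ex_inter h1 f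

/-- independence -/
theorem ex_indep (p : ℝ) {F F1 F2 : Finset α} (h1 : F1 ⊆ F) (h2 : F2 ⊆ F)
    (hd : Disjoint F1 F2) (f g : Finset α → ℝ) :
    ex p F (fun ω => f (ω ∩ F1) * g (ω ∩ F2)) = ex p F1 f * ex p F2 g := by
  have hu : F1 ∪ F2 ⊆ F := union_subset h1 h2
  have e1 : ex p F (fun ω => f (ω ∩ F1) * g (ω ∩ F2)) =
      ex p (F1 ∪ F2) (fun ω => f (ω ∩ F1) * g (ω ∩ F2)) := by
    rw [← FP.ex_inter hu (fun ω => f (ω ∩ F1) * g (ω ∩ F2))]
    refine ex_congr p fun ω _ => ?_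
    have a1 : ω ∩ (F1 ∪ F2) ∩ F1 = ω ∩ F1 := by
      ext x; simp only [mem_inter, mem_union]; tauto
    have a2 : ω ∩ (F1 ∪ F2) ∩ F2 = ω ∩ F2 := by
      ext x; simp only [mem_inter, mem_union]; tauto
    simp only [a1, a2]
  have e2 := ex_mul p F1 F2 hd (fun ω => f (ω ∩ F1)) (fun ω => g (ω ∩ F2))
    (by
      intro ω _ η hη
      have : (ω ∪ η) ∩ F1 = ω ∩ F1 := by
        ext x
        simp only [mem_inter, mem_union]
        constructor
        · rintro ⟨h | h, hx⟩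
          · exact ⟨h, hx⟩
          · exact absurd (hη h) (disjoint_left.1 hd hx)
        · rintro ⟨h, hx⟩
          exact ⟨Or.inl h, hx⟩
      simp only [this])
    (by
      intro ω hω η _
      have : (ω ∪ η) ∩ F2 = η ∩ F2 := by
        ext x
        simp only [mem_inter, mem_union]
        constructor
        · rintro ⟨h | h, hx⟩
          · exact absurd hx (disjoint_left.1 hd (hω h))
          · exact ⟨h, hx⟩
        · rintro ⟨h, hx⟩
          exact ⟨Or.inr h, hx⟩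
      simp only [this])
  rw [e1, e2]
  congr 1
  · exact ex_congr p fun ω hω => by rw [inter_eq_left.2 hω]
  · exact ex_congr p fun ω hω => by rw [inter_eq_left.2 hω]

theorem pr_nonneg {p : ℝ} (h0 : 0 ≤ p) (h1 : p ≤ 1) (F : Finset α) (A : Finset α → Prop) :
    0 ≤ pr p F A := FP.pr_nonneg h0 h1 A

theorem pr_le_one {p : ℝ} (h0 : 0 ≤ p) (h1 : p ≤ 1) (F : Finset α) (A : Finset α → Prop) :
    pr p F A ≤ 1 := FP.pr_le_one h0 h1 A

theorem pr_congr {p : ℝ} {F : Finset α} {A B : Finset α → Prop}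
    (h : ∀ ω, ω ⊆ F → (A ω ↔ B ω)) : pr p F A = pr p F B := FP.pr_congr h

theorem pr_mono {p : ℝ} (h0 : 0 ≤ p) (h1 : p ≤ 1) {F : Finset α} {A B : Finset α → Prop}
    (h : ∀ ω, ω ⊆ F → A ω → B ω) : pr p F A ≤ pr p F B := FP.pr_mono h0 h1 h

theorem pr_eq_zero {p : ℝ} {F : Finset α} {A : Finset α → Prop}
    (h : ∀ ω, ω ⊆ F → ¬ A ω) : pr p F A = 0 := FP.pr_false h

theorem pr_eq_one {p : ℝ} {F : Finset α} {A : Finset α → Prop}
    (h : ∀ ω, ω ⊆ F → A ω) : pr p F A = 1 := FP.pr_true h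

/-- marginals -/
theorem pr_marg {p : ℝ} {F F1 : Finset α} (h1 : F1 ⊆ F) {A : Finset α → Prop}
    (hA : ∀ ω, ω ⊆ F → (A ω ↔ A (ω ∩ F1))) : pr p F A = pr p F1 A := by
  rw [pr_congr hA, FP.pr_inter h1]

theorem ind_and (P Q : Prop) : ind (P ∧ Q) = ind P * ind Q := by
  unfold ind
  by_cases hP : P <;> by_cases hQ : Q <;> simp [hP, hQ]

/-- independence -/
theorem pr_indep {p : ℝ} {F F1 F2 : Finset α} (h1 : F1 ⊆ F) (h2 : F2 ⊆ F)
    (hd : Disjoint F1 F2) {A B : Finset α → Prop}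
    (hA : ∀ ω, ω ⊆ F → (A ω ↔ A (ω ∩ F1))) (hB : ∀ ω, ω ⊆ F → (B ω ↔ B (ω ∩ F2))) :
    pr p F (fun ω => A ω ∧ B ω) = pr p F1 A * pr p F2 B := by
  unfold pr
  rw [← ex_indep p h1 h2 hd]
  refine ex_congr p fun ω hω => ?_
  rw [ind_and, propext (hA ω hω), propext (hB ω hω)]

/-- an edge `e` outside `F1` is independent of what happens in `F1` -/
theorem pr_edge_indep {p : ℝ} {F F1 : Finset α} (h1 : F1 ⊆ F) {e : α} (he : e ∈ F)
    (he1 : e ∉ F1) {A : Finset α → Prop} (hA : ∀ ω, ω ⊆ F → (A ω ↔ A (ω ∩ F1))) :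
    pr p F (fun ω => e ∈ ω ∧ A ω) = p * pr p F1 A := by
  rw [← FP.pr_edge he he1 h1 A]
  exact pr_congr fun ω hω => by rw [hA ω hω]

theorem pr_mem {p : ℝ} {F : Finset α} {e : α} (he : e ∈ F) :
    pr p F (fun ω => e ∈ ω) = p := by
  have h := pr_edge_indep (p := p) (F := F) (F1 := ∅) (empty_subset _) he (notMem_empty _)
    (A := fun _ => True) (fun _ _ => Iff.rfl)
  rw [pr_eq_one (fun _ _ => trivial), mul_one] at h
  exact (pr_congr fun ω _ => (and_iff_left trivial).symm).trans h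

/-- two different edges outside `F1` are independent of what happens in `F1` -/
theorem pr_edge2_indep {p : ℝ} {F F1 : Finset α} (h1 : F1 ⊆ F) {e e' : α} (he : e ∈ F)
    (he' : e' ∈ F) (hne : e ≠ e') (he1 : e ∉ F1) (he1' : e' ∉ F1) {A : Finset α → Prop}
    (hA : ∀ ω, ω ⊆ F → (A ω ↔ A (ω ∩ F1))) :
    pr p F (fun ω => e ∈ ω ∧ e' ∈ ω ∧ A ω) = p ^ 2 * pr p F1 A := by
  have hs : insert e' F1 ⊆ F := insert_subset he' h1
  have hn : e ∉ insert e' F1 := by
    rw [mem_insert]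
    exact fun h => h.elim hne he1
  have k1 := pr_edge_indep (p := p) hs he hn (A := fun ω => e' ∈ ω ∧ A ω) (by
    intro ω hω
    have c1 : A (ω ∩ insert e' F1) ↔ A ω := by
      rw [hA ω hω, hA (ω ∩ insert e' F1) (inter_subset_left.trans hω)]
      have : ω ∩ insert e' F1 ∩ F1 = ω ∩ F1 := by
        ext x; simp only [mem_inter, mem_insert]; tauto
      rw [this]
    rw [c1]
    simp)
  have k2 := pr_edge_indep (p := p) (F := insert e' F1) (F1 := F1) (subset_insert _ _)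
    (mem_insert_self _ _) he1' (A := A) (fun ω hω => hA ω (hω.trans hs))
  rw [k1, k2]
  ring

/-- union bound -/
theorem pr_exists_le {ι : Type*} {p : ℝ} (h0 : 0 ≤ p) (h1 : p ≤ 1) {F : Finset α}
    (s : Finset ι) (A : ι → Finset α → Prop) :
    pr p F (fun ω => ∃ i ∈ s, A i ω) ≤ ∑ i ∈ s, pr p F (A i) := FP.pr_exists_le h0 h1 s A

theorem pr_or_le {p : ℝ} (h0 : 0 ≤ p) (h1 : p ≤ 1) {F : Finset α}
    (A B : Finset α → Prop) :
    pr p F (fun ω => A ω ∨ B ω) ≤ pr p F A + pr p F B := FP.pr_or_le h0 h1 A B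

/-- disjoint decomposition according to the value of a random variable `C` -/
theorem pr_partition {ι : Type*} [DecidableEq ι] {p : ℝ} {F : Finset α} (C : Finset α → ι)
    (s : Finset ι) (hC : ∀ ω, ω ⊆ F → C ω ∈ s) (A : Finset α → Prop) :
    pr p F A = ∑ c ∈ s, pr p F (fun ω => C ω = c ∧ A ω) := by
  unfold pr
  rw [← ex_sum]
  refine ex_congr p fun ω hω => ?_
  rw [sum_eq_single_of_mem (C ω) (hC ω hω)]
  · congr 1
    simp
  · intro c _ hc
    exact FP.ind_not fun h => hc h.1.symm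

/-- Bonferroni -/
theorem pr_bonferroni {ι : Type*} [DecidableEq ι] {p : ℝ} (h0 : 0 ≤ p) (h1 : p ≤ 1)
    {F : Finset α} (s : Finset ι) (A : ι → Finset α → Prop) :
    ∑ i ∈ s, pr p F (A i) - 1 / 2 * ∑ i ∈ s, ∑ j ∈ s.erase i, pr p F (fun ω => A i ω ∧ A j ω)
      ≤ pr p F (fun ω => ∃ i ∈ s, A i ω) := by
  classical
  unfold pr
  have e1 : ∑ i ∈ s, ∑ j ∈ s.erase i, ex p F (fun ω => ind (A i ω ∧ A j ω)) =
      ex p F (fun ω => ∑ i ∈ s, ∑ j ∈ s.erase i, ind (A i ω ∧ A j ω)) := by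
    rw [ex_sum]
    exact sum_congr rfl fun i _ => (ex_sum p F _ _).symm
  rw [e1, ← ex_sum, ← ex_const_mul, ← ex_sub]
  refine ex_mono h0 h1 fun ω _ => ?_
  set m : ℕ := (s.filter (fun i => A i ω)).card with hm
  have c1 : ∑ i ∈ s, ind (A i ω) = (m : ℝ) := by
    unfold ind
    rw [sum_ite, sum_const_zero, add_zero, sum_const, nsmul_eq_mul, mul_one]
  have c2 : ∑ i ∈ s, ∑ j ∈ s.erase i, ind (A i ω ∧ A j ω) = (m : ℝ) * ((m : ℝ) - 1) := by
    have d1 : ∀ i ∈ s, ∑ j ∈ s.erase i, ind (A i ω ∧ A j ω) =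
        ind (A i ω) * ((m : ℝ) - 1) := by
      intro i hi
      have d2 : ∑ j ∈ s.erase i, ind (A i ω ∧ A j ω) =
          ind (A i ω) * ∑ j ∈ s.erase i, ind (A j ω) := by
        rw [mul_sum]
        exact sum_congr rfl fun j _ => ind_and _ _
      have d3 : ind (A i ω) + ∑ j ∈ s.erase i, ind (A j ω) = (m : ℝ) := by
        rw [add_sum_erase s (fun j => ind (A j ω)) hi, c1]
      rw [d2]
      by_cases hA : A i ω
      · rw [FP.ind_of hA] at d3 ⊢
        linarith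
      · rw [FP.ind_not hA]
        ring
    rw [sum_congr rfl d1, ← sum_mul, c1]
  rw [c1, c2]
  by_cases hex : ∃ i ∈ s, A i ω
  · rw [FP.ind_of hex]
    have hm2 : (0 : ℝ) ≤ ((m : ℝ) - 1) * ((m : ℝ) - 2) := by
      rcases Nat.lt_or_ge m 2 with h | h
      · interval_cases m <;> norm_num
      · have : (2 : ℝ) ≤ (m : ℝ) := by exact_mod_cast h
        nlinarith
    nlinarith
  · rw [FP.ind_not hex]
    have hm0 : m = 0 := by
      rw [hm, card_eq_zero, filter_eq_empty_iff]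
      intro i hi hA
      exact hex ⟨i, hi, hA⟩
    rw [hm0]
    norm_num

end Vale.Agent.P165
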