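import Vale.Agent.P165.Inf3
import Vale.Agent.P165.U12

/-! P165: row PU: the lower bound for `p_u`. -/

open Finset MeasureTheory

namespace Vale.Agent.P165

variable {V : Type*} [DecidableEq V] {G : SimpleGraph V} [G.LocallyFinite]

namespace PUaux

theorem sum_summable {p r : ℝ} (h0 : 0 ≤ p) (hr : 0 ≤ r) (hpr : p * r < 1)
    (hnw : ∀ k x y, nw G k x y ≤ r ^ k) (x y : V) :
    Summable fun k => p ^ k * nw G k x y := by
  refine Summable.of_nonneg_of_le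
    (fun k => mul_nonneg (pow_nonneg h0 k) (U12.nw_nonneg k x y)) (fun k => ?_)
    (summable_geometric_of_lt_one (mul_nonneg h0 hr) hpr)
  rw [mul_pow]
  exact mul_le_mul_of_nonneg_left (hnw k x y) (pow_nonneg h0 k)

theorem gr_sum_le {p r : ℝ} (h0 : 0 ≤ p) (hr : 0 ≤ r) (hpr : p * r < 1)
    (hnw : ∀ k x y, nw G k x y ≤ r ^ k)
    (hB : ∀ (k : ℕ) (B : Finset V), ∑ x ∈ B, ∑ y ∈ B, nw G k x y ≤ r ^ k * B.card)
    (B : Finset V) : ∑ x ∈ B, ∑ y ∈ B, gr G p x y ≤ 1 / (1 - p * r) * B.card := by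
  have hs := sum_summable h0 hr hpr hnw
  unfold gr
  have e1 : ∑ x ∈ B, ∑ y ∈ B, ∑' k, p ^ k * nw G k x y =
      ∑' k, ∑ x ∈ B, ∑ y ∈ B, p ^ k * nw G k x y := by
    rw [Summable.tsum_finsetSum fun x _ => summable_sum fun y _ => hs x y]
    refine Finset.sum_congr rfl fun x _ => ?_
    rw [Summable.tsum_finsetSum fun y _ => hs x y]
  have e2 : ∀ k, ∑ x ∈ B, ∑ y ∈ B, p ^ k * nw G k x y =
      p ^ k * ∑ x ∈ B, ∑ y ∈ B, nw G k x y := by
    intro k
    rw [Finset.mul_sum]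
    exact Finset.sum_congr rfl fun x _ => by rw [Finset.mul_sum]
  have hg : Summable fun k : ℕ => (p * r) ^ k * (B.card : ℝ) :=
    (summable_geometric_of_lt_one (mul_nonneg h0 hr) hpr).mul_right _
  rw [e1]
  have h3 : ∑' k : ℕ, (p * r) ^ k * (B.card : ℝ) = 1 / (1 - p * r) * B.card := by
    rw [tsum_mul_right, tsum_geometric_of_lt_one (mul_nonneg h0 hr) hpr, one_div]
  rw [← h3]
  refine Summable.tsum_le_tsum (fun k => ?_) (summable_sum fun x _ => summable_sum fun y _ => hs x y)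
    hg
  rw [e2 k, mul_pow, mul_assoc]
  exact mul_le_mul_of_nonneg_left (hB k B) (pow_nonneg h0 k)

end PUaux

/-- no uniqueness below the walk threshold -/
theorem not_unique_of_walks [Infinite V] (hG : G.Connected)
    (htr : ∀ x y : V, ∃ f : G ≃g G, f x = y) {r : ℝ} (hr : 0 ≤ r)
    (hnw : ∀ k x y, nw G k x y ≤ r ^ k)
    (hB : ∀ (k : ℕ) (B : Finset V), ∑ x ∈ B, ∑ y ∈ B, nw G k x y ≤ r ^ k * B.card)
    (p : unitInterval) (hp : (p : ℝ) * r < 1) :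
    ¬ ∀ᵐ ω ∂(perc V p), ∃! C : (opn G ω).ConnectedComponent, C.supp.Infinite :=
  not_unique hG htr p (gr G p)
    (fun S x y => U12.tau_le_gr p.2.1 p.2.2 (PUaux.sum_summable p.2.1 hr hp hnw) S x y)
    (1 / (1 - p * r)) (PUaux.gr_sum_le p.2.1 hr hp hnw hB)

/-- **Row PU** -/
theorem pu_ge [Infinite V] (hG : G.Connected) (htr : ∀ x y : V, ∃ f : G ≃g G, f x = y)
    {r : ℝ} (hr : 0 < r) (hnw : ∀ k x y, nw G k x y ≤ r ^ k)
    (hB : ∀ (k : ℕ) (B : Finset V), ∑ x ∈ B, ∑ y ∈ B, nw G k x y ≤ r ^ k * B.card) :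
    1 / r ≤ pu G :=
  le_pu hG fun p hp => not_unique_of_walks hG htr hr.le hnw hB p (by
    rwa [lt_div_iff₀ hr] at hp)

end Vale.Agent.P165
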