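import Vale.Agent.P165.Green
import Vale.Agent.P165.Iso
import Vale.Agent.P165.U12
import Vale.Agent.P165.BonX

/-!
# P165, row X: the susceptibility is unbounded when `crit G p o ≤ p d - 1`
-/

open Finset

namespace Vale.Agent.P165

namespace XX

variable {V : Type*} [DecidableEq V] {G : SimpleGraph V} [G.LocallyFinite] {p r : ℝ}

omit [G.LocallyFinite] in
theorem chi_nonneg (h0 : 0 ≤ p) (h1 : p ≤ 1) (S : Finset V) (x : V) : 0 ≤ chi G p S x :=
  Finset.sum_nonneg fun y _ => U12.tau_nonneg h0 h1 S x y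

omit [G.LocallyFinite] in
theorem chi_zero {S : Finset V} {x : V} (h : x ∉ S) : chi G p S x = 0 :=
  Finset.sum_eq_zero fun _ _ => U12.tau_eq_zero_left h

omit [G.LocallyFinite] in
theorem chi_mono (h0 : 0 ≤ p) (h1 : p ≤ 1) {S T : Finset V} (h : S ⊆ T) (x : V) :
    chi G p S x ≤ chi G p T x := by
  unfold chi
  calc ∑ y ∈ S, tau G p S x y ≤ ∑ y ∈ S, tau G p T x y :=
        Finset.sum_le_sum fun y _ => U12.tau_mono h0 h1 h x y
    _ ≤ ∑ y ∈ T, tau G p T x y :=
        Finset.sum_le_sum_of_subset_of_nonneg h fun y _ _ => U12.tau_nonneg h0 h1 T x y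

/-- The statement of row B at the pair `L, o`. -/
def RowB (G : SimpleGraph V) [G.LocallyFinite] (p : ℝ) (o : V) (L : Finset V) : Prop :=
  1 + p * ∑ v ∈ G.neighborFinset o, (chi G p L v - gr G p v o * chi G p L o)
    - p ^ 2 / 2 * ∑ v ∈ G.neighborFinset o, ∑ v' ∈ (G.neighborFinset o).erase v,
      ∑ w ∈ L, gr G p v w * gr G p v' w * chi G p L w ≤ chi G p L o

end XX

open XX in
/-- **Row X** from row B. -/
theorem chi_unbounded_of {V : Type*} [DecidableEq V] {G : SimpleGraph V} [G.LocallyFinite]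
    {p r : ℝ} {d : ℕ} {o : V} (h0 : 0 ≤ p) (h1 : p ≤ 1) (hr0 : 0 ≤ r) (hpr : p * r < 1)
    (hnw : ∀ k x y, nw G k x y ≤ r ^ k) (htr : ∀ x y : V, ∃ f : G ≃g G, f x = y)
    (hreg : G.IsRegularOfDegree d)
    (hB : ∀ L : Finset V, o ∈ L → G.neighborFinset o ⊆ L → RowB G p o L)
    (hc : crit G p o ≤ p * d - 1) : ∀ M : ℝ, ∃ L : Finset V, o ∈ L ∧ M < chi G p L o := by
  intro M
  by_contra hcon
  push Not at hcon
  -- the supremum
  set A : Set ℝ := {t | ∃ L : Finset V, o ∈ L ∧ chi G p L o = t} with hA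
  have hAne : A.Nonempty := ⟨_, {o}, Finset.mem_singleton_self o, rfl⟩
  have hAbd : BddAbove A := ⟨M, by rintro t ⟨L, hoL, rfl⟩; exact hcon L hoL⟩
  set X : ℝ := sSup A with hX
  have hXle : ∀ L : Finset V, chi G p L o ≤ X := by
    intro L
    by_cases hoL : o ∈ L
    · exact le_csSup hAbd ⟨L, hoL, rfl⟩
    · rw [chi_zero hoL]
      exact le_trans (chi_nonneg h0 h1 {o} o)
        (le_csSup hAbd ⟨{o}, Finset.mem_singleton_self o, rfl⟩)
  have hX0 : 0 ≤ X := le_trans (chi_nonneg h0 h1 {o} o) (hXle {o})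
  have hXall : ∀ (L : Finset V) (x : V), chi G p L x ≤ X := by
    intro L x
    obtain ⟨f, hf⟩ := htr x o
    rw [← Iso.chi_iso f p L x, hf]
    exact hXle _
  -- choose `L0` nearly optimal
  set δ : ℝ := 1 / (p * d + 1) / 2 with hδ
  have hpd : 0 ≤ p * (d : ℝ) := mul_nonneg h0 (Nat.cast_nonneg d)
  have hδ0 : 0 < δ := by rw [hδ]; positivity
  obtain ⟨t, ⟨L0, hoL0, rfl⟩, hL0⟩ : ∃ t ∈ A, X - δ < t :=
    exists_lt_of_lt_csSup hAne (by linarith)
  choose F hF using fun v => htr o v
  set L : Finset V := insert o (G.neighborFinset o ∪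
    (G.neighborFinset o).biUnion (fun v => L0.image (F v))) with hL
  have hoL : o ∈ L := by rw [hL]; exact Finset.mem_insert_self _ _
  have hNL : G.neighborFinset o ⊆ L := by
    rw [hL]
    exact (Finset.subset_union_left).trans (Finset.subset_insert _ _)
  have hchi : ∀ v ∈ G.neighborFinset o, X - δ ≤ chi G p L v := by
    intro v hv
    have hsub : L0.image (F v) ⊆ L := by
      rw [hL]
      refine Finset.Subset.trans ?_ (Finset.subset_insert _ _)
      refine Finset.Subset.trans ?_ Finset.subset_union_right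
      exact Finset.subset_biUnion_of_mem (fun v => L0.image (F v)) hv
    have h2 := chi_mono (G := G) h0 h1 hsub v
    have h3 : chi G p (L0.image (F v)) v = chi G p L0 o := by
      have h4 := Iso.chi_iso (F v) p L0 o
      rwa [hF v] at h4
    linarith
  have key := hB L hoL hNL
  unfold RowB at key
  have hgr : ∀ x y, 0 ≤ gr G p x y := fun x y => U12.gr_nonneg h0 x y
  have hcard : ((G.neighborFinset o).card : ℝ) = d := by
    have : (G.neighborFinset o).card = d := by
      rw [SimpleGraph.card_neighborFinset_eq_degree]; exact hreg o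
    exact_mod_cast this
  -- first sum
  have hS1 : (d : ℝ) * (X - δ) - X * ∑ v ∈ G.neighborFinset o, gr G p v o
      ≤ ∑ v ∈ G.neighborFinset o, (chi G p L v - gr G p v o * chi G p L o) := by
    rw [← hcard, ← nsmul_eq_mul, ← Finset.sum_const, Finset.mul_sum, ← Finset.sum_sub_distrib]
    refine Finset.sum_le_sum fun v hv => ?_
    have h2 := hchi v hv
    have h3 : gr G p v o * chi G p L o ≤ X * gr G p v o := by
      rw [mul_comm X]
      exact mul_le_mul_of_nonneg_left (hXle L) (hgr v o)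
    linarith
  -- second sum
  have hS2 : ∑ v ∈ G.neighborFinset o, ∑ v' ∈ (G.neighborFinset o).erase v,
      ∑ w ∈ L, gr G p v w * gr G p v' w * chi G p L w
      ≤ X * ∑ v ∈ G.neighborFinset o, ∑ v' ∈ G.neighborFinset o,
        ∑ w ∈ L, gr G p v w * gr G p v' w := by
    rw [Finset.mul_sum]
    refine Finset.sum_le_sum fun v _ => ?_
    rw [Finset.mul_sum]
    calc ∑ v' ∈ (G.neighborFinset o).erase v, ∑ w ∈ L, gr G p v w * gr G p v' w * chi G p L w
        ≤ ∑ v' ∈ G.neighborFinset o, ∑ w ∈ L, gr G p v w * gr G p v' w * chi G p L w := by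
          refine Finset.sum_le_sum_of_subset_of_nonneg (Finset.erase_subset _ _) ?_
          intro v' _ _
          exact Finset.sum_nonneg fun w _ => mul_nonneg (mul_nonneg (hgr _ _) (hgr _ _))
            (chi_nonneg h0 h1 L w)
      _ ≤ ∑ v' ∈ G.neighborFinset o, X * ∑ w ∈ L, gr G p v w * gr G p v' w := by
          refine Finset.sum_le_sum fun v' _ => ?_
          rw [Finset.mul_sum]
          refine Finset.sum_le_sum fun w _ => ?_
          rw [mul_comm X]
          exact mul_le_mul_of_nonneg_left (hXall L w) (mul_nonneg (hgr _ _) (hgr _ _))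
  have hgreen := Green.le_crit h0 hr0 hnw hpr (G := G) L o
  set s1 : ℝ := ∑ v ∈ G.neighborFinset o, gr G p v o with hs1
  set s2 : ℝ := ∑ v ∈ G.neighborFinset o, ∑ v' ∈ G.neighborFinset o,
        ∑ w ∈ L, gr G p v w * gr G p v' w with hs2
  have h5 := mul_le_mul_of_nonneg_left hS1 h0
  have h6 := mul_le_mul_of_nonneg_left hS2 (by positivity : (0 : ℝ) ≤ p ^ 2 / 2)
  have h7 : X * (p * s1 + p ^ 2 / 2 * s2) ≤ X * (p * d - 1) :=
    mul_le_mul_of_nonneg_left (hgreen.trans hc) hX0
  have h8 := hXle L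
  have h9 : p * d * δ < 1 := by
    rw [hδ, div_div, mul_one_div, div_lt_one (by positivity)]
    linarith
  nlinarith [h5, h6, h7, h8, h9, key]

/-- **Row X**: if `crit G p o ≤ p d - 1` then the susceptibility is unbounded. -/
theorem chi_unbounded {V : Type*} [DecidableEq V] {G : SimpleGraph V} [G.LocallyFinite]
    {p r : ℝ} {d : ℕ} {o : V} (h0 : 0 ≤ p) (h1 : p ≤ 1) (hr0 : 0 ≤ r) (hpr : p * r < 1)
    (hnw : ∀ k x y, nw G k x y ≤ r ^ k) (htr : ∀ x y : V, ∃ f : G ≃g G, f x = y)
    (hreg : G.IsRegularOfDegree d) (hc : crit G p o ≤ p * d - 1) :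
    ∀ M : ℝ, ∃ L : Finset V, o ∈ L ∧ M < chi G p L o := by
  refine chi_unbounded_of h0 h1 hr0 hpr hnw htr hreg (fun L hoL hNL => ?_) hc
  have h := BonX.B G h0 h1 (Green.term_summable h0 hr0 hnw hpr) L o hoL
  rw [Finset.inter_eq_left.2 hNL] at h
  exact h

end Vale.Agent.P165
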