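import Vale.Agent.P165.CH
import Vale.Agent.P165.X
import Vale.Agent.P165.DA
import Vale.Agent.P165.DB
import Vale.Agent.P165.PU

/-! P165: assembly. -/

open Finset

namespace Vale.Agent.P165
namespace Mn

variable {V : Type*} [DecidableEq V] {G : SimpleGraph V} [G.LocallyFinite]

theorem nw_succ_right (k : ℕ) (x y : V) :
    nw G (k + 1) x y = ∑ z ∈ G.neighborFinset y, nw G k x z := by
  induction k generalizing x with
  | zero =>
    show ∑ z ∈ G.neighborFinset x, (if z = y then (1:ℝ) else 0)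
      = ∑ z ∈ G.neighborFinset y, (if x = z then (1:ℝ) else 0)
    rw [Finset.sum_ite_eq', Finset.sum_ite_eq]
    by_cases h : G.Adj x y
    · rw [if_pos (by simpa using h), if_pos (by simpa using h.symm)]
    · rw [if_neg (by simpa using h), if_neg (by simpa using fun h' => h (SimpleGraph.Adj.symm h'))]
  | succ k ih =>
    show ∑ z ∈ G.neighborFinset x, nw G (k + 1) z y
      = ∑ z ∈ G.neighborFinset y, ∑ w ∈ G.neighborFinset x, nw G k w z
    rw [Finset.sum_comm]
    exact Finset.sum_congr rfl (fun w _ => ih w)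

theorem nw_two (k : ℕ) (o : V) :
    nw G (k + 2) o o = ∑ v ∈ G.neighborFinset o, ∑ v' ∈ G.neighborFinset o, nw G k v v' := by
  show ∑ v ∈ G.neighborFinset o, nw G (k + 1) v o = _
  exact Finset.sum_congr rfl (fun v _ => nw_succ_right k v o)

theorem nw_return_le {d : ℕ} (hreg : G.IsRegularOfDegree d) {r : ℝ}
    (hB : ∀ k (B : Finset V), ∑ x ∈ B, ∑ y ∈ B, nw G k x y ≤ r ^ k * B.card) (k : ℕ) (o : V) :
    nw G (k + 2) o o ≤ r ^ k * d := by
  rw [nw_two]
  refine le_trans (hB k _) (le_of_eq ?_)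
  rw [SimpleGraph.card_neighborFinset_eq_degree, hreg o]

theorem hasSum_q {q : ℝ} (h0 : 0 ≤ q) (h1 : q < 1) :
    HasSum (fun k : ℕ => ((k : ℝ) + 1) * q ^ k) (1 / (1 - q) ^ 2) := by
  have h := hasSum_coe_mul_geometric_of_norm_lt_one (r := q)
    (by rw [Real.norm_eq_abs, abs_of_nonneg h0]; exact h1)
  have h' := hasSum_geometric_of_lt_one h0 h1
  have := h.add h'
  have e : q / (1 - q) ^ 2 + (1 - q)⁻¹ = 1 / (1 - q) ^ 2 := by
    have : (1 - q) ≠ 0 := by linarith
    field_simp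
    ring
  rw [e] at this
  have h2 : (fun k : ℕ => ((k : ℝ) + 1) * q ^ k) = fun k : ℕ => (k : ℝ) * q ^ k + q ^ k := by
    funext k
    ring
  rw [h2]
  exact this

theorem crit_le {d : ℕ} (hreg : G.IsRegularOfDegree d) {p r : ℝ} (hp : 0 ≤ p) (hr : 0 ≤ r)
    (hpr : p * r < 1)
    (hB : ∀ k (B : Finset V), ∑ x ∈ B, ∑ y ∈ B, nw G k x y ≤ r ^ k * B.card) (o : V) :
    crit G p o ≤ p ^ 2 * d * (3 / 2) * (1 / (1 - p * r) ^ 2) := by
  have hs := (hasSum_q (mul_nonneg hp hr) hpr).mul_left (p ^ 2 * d * (3 / 2))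
  have hnn : ∀ k : ℕ, 0 ≤ ((k : ℝ) + 3) / 2 * (p ^ (k + 2) * nw G (k + 2) o o) := fun k => by
    have := CH.nw_nonneg G (k + 2) o o
    positivity
  have hle : ∀ k : ℕ, ((k : ℝ) + 3) / 2 * (p ^ (k + 2) * nw G (k + 2) o o)
      ≤ p ^ 2 * d * (3 / 2) * (((k : ℝ) + 1) * (p * r) ^ k) := fun k => by
    have h1 := nw_return_le hreg hB k o
    have hk : (0:ℝ) ≤ k := Nat.cast_nonneg k
    have h2 : p ^ (k + 2) * nw G (k + 2) o o ≤ p ^ (k + 2) * (r ^ k * d) :=
      mul_le_mul_of_nonneg_left h1 (by positivity)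
    have h3 : 0 ≤ p ^ (k + 2) * (r ^ k * d) := by positivity
    calc ((k : ℝ) + 3) / 2 * (p ^ (k + 2) * nw G (k + 2) o o)
        ≤ ((k : ℝ) + 3) / 2 * (p ^ (k + 2) * (r ^ k * d)) :=
          mul_le_mul_of_nonneg_left h2 (by positivity)
      _ ≤ (3 / 2 * ((k : ℝ) + 1)) * (p ^ (k + 2) * (r ^ k * d)) :=
          mul_le_mul_of_nonneg_right (by linarith) h3
      _ = p ^ 2 * d * (3 / 2) * (((k : ℝ) + 1) * (p * r) ^ k) := by
          rw [mul_pow, pow_add]; ring
  have hsum : Summable (fun k : ℕ => ((k : ℝ) + 3) / 2 * (p ^ (k + 2) * nw G (k + 2) o o)) :=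
    Summable.of_nonneg_of_le hnn hle hs.summable
  unfold crit
  calc ∑' k : ℕ, ((k : ℝ) + 3) / 2 * (p ^ (k + 2) * nw G (k + 2) o o)
      ≤ ∑' k : ℕ, p ^ 2 * d * (3 / 2) * (((k : ℝ) + 1) * (p * r) ^ k) :=
        hsum.tsum_le_tsum hle hs.summable
    _ = _ := hs.tsum_eq

end Mn

variable {V : Type*} [DecidableEq V] {G : SimpleGraph V} [G.LocallyFinite]

theorem main_explicit (hinf : Infinite V) (hconn : G.Connected)
    (htr : ∀ x y : V, ∃ f : G ≃g G, f x = y) {d : ℕ} (hreg : G.IsRegularOfDegree d)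
    {ε : ℝ} (hε : 0 < ε) (hd : 300 ≤ ε ^ 6 * d)
    (hE : ∀ A : Finset V, ε * d * A.card ≤ (ebd G A : ℝ)) : pc G < pu G := by
  obtain ⟨o⟩ : Nonempty V := inferInstance
  have hd0 : (0:ℝ) < d := by
    by_contra h
    have : (d:ℝ) ≤ 0 := not_lt.mp h
    have h6 : 0 < ε ^ 6 := by positivity
    nlinarith
  have hε1 : ε ≤ 1 := by
    have h1 := hE {o}
    have h2 : (ebd G {o} : ℝ) ≤ d := by
      unfold ebd
      rw [Finset.sum_singleton]
      have : (G.neighborFinset o \ {o}).card ≤ (G.neighborFinset o).card :=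
        Finset.card_le_card Finset.sdiff_subset
      rw [SimpleGraph.card_neighborFinset_eq_degree, hreg o] at this
      exact_mod_cast this
    rw [Finset.card_singleton] at h1
    have h3 : ε * d ≤ 1 * d := by push_cast at h1; linarith
    exact le_of_mul_le_mul_right h3 hd0
  have hε2 : 0 < ε ^ 2 := by positivity
  have hε21 : ε ^ 2 ≤ 1 := by nlinarith
  have hd300 : (300:ℝ) ≤ d := by
    have : ε ^ 6 ≤ 1 := pow_le_one₀ hε.le hε1
    nlinarith
  -- spectral bounds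
  set r0 : ℝ := Real.sqrt ((d:ℝ) ^ 2 - (ε * d) ^ 2) with hr0
  set r : ℝ := d * (1 - ε ^ 2 / 2) with hrdef
  have hrpos : 0 < r := by
    rw [hrdef]; exact mul_pos hd0 (by linarith)
  have hr0r : r0 ≤ r := by
    rw [hr0]
    apply Real.sqrt_le_iff.mpr
    refine ⟨hrpos.le, ?_⟩
    rw [hrdef]
    nlinarith [sq_nonneg (ε ^ 2 * d)]
  have hr00 : 0 ≤ r0 := Real.sqrt_nonneg _
  have hnw : ∀ k x y, nw G k x y ≤ r ^ k := fun k x y =>
    le_trans (CH.nw_le G d (fun v => hreg v) (ε * d) (by positivity) hE k x y)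
      (pow_le_pow_left₀ hr00 hr0r k)
  have hB : ∀ k (B : Finset V), ∑ x ∈ B, ∑ y ∈ B, nw G k x y ≤ r ^ k * B.card := fun k B =>
    le_trans (CH.nw_sum_le G d (fun v => hreg v) (ε * d) (by positivity) hE k B)
      (mul_le_mul_of_nonneg_right (pow_le_pow_left₀ hr00 hr0r k) (Nat.cast_nonneg _))
  set p0 : ℝ := (1 + ε ^ 2 / 4) / d with hp0
  set p1 : ℝ := (1 + ε ^ 2 / 8) / d with hp1
  have hp1pos : 0 < p1 := by rw [hp1]; positivity
  have hp10 : p1 < p0 := by
    rw [hp0, hp1]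
    exact div_lt_div_of_pos_right (by linarith) hd0
  have hp0pos : 0 < p0 := hp1pos.trans hp10
  have hp01 : p0 ≤ 1 := by
    rw [hp0, div_le_one hd0]; linarith
  have hp0r : p0 * r ≤ 1 - ε ^ 2 / 4 := by
    have : p0 * r = (1 + ε ^ 2 / 4) * (1 - ε ^ 2 / 2) := by
      rw [hp0, hrdef]; field_simp
    rw [this]
    nlinarith [sq_nonneg (ε ^ 2)]
  have hphi : ∀ p ∈ Set.Icc p1 p0, ∀ S : Finset V, o ∈ S → 1 ≤ phi G p S o := by
    intro p hp S hS
    have hp' : 0 ≤ p := hp1pos.le.trans hp.1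
    have hp1' : p ≤ 1 := hp.2.trans hp01
    have hpr : p * r ≤ 1 - ε ^ 2 / 4 :=
      le_trans (mul_le_mul_of_nonneg_right hp.2 hrpos.le) hp0r
    by_contra hlt
    rw [not_le] at hlt
    have hbd := DA (G := G) hp' hp1' htr hS hlt
    have hcrit : crit G p o ≤ p * d - 1 := by
      have h1 := Mn.crit_le hreg hp' hrpos.le (by linarith) hB o
      have h2 : ε ^ 2 / 8 ≤ p * d - 1 := by
        have : p1 * d ≤ p * d := mul_le_mul_of_nonneg_right hp.1 hd0.le
        have h3 : p1 * d = 1 + ε ^ 2 / 8 := by rw [hp1]; field_simp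
        linarith
      have h3 : p ^ 2 * d * (3 / 2) * (1 / (1 - p * r) ^ 2) ≤ ε ^ 2 / 8 := by
        have h4 : (ε ^ 2 / 4) ^ 2 ≤ (1 - p * r) ^ 2 :=
          pow_le_pow_left₀ (by positivity) (by linarith) 2
        have h5 : 1 / (1 - p * r) ^ 2 ≤ 1 / (ε ^ 2 / 4) ^ 2 :=
          one_div_le_one_div_of_le (by positivity) h4
        have h6 : p ^ 2 * d ≤ (25 / 16) / d := by
          have : p ^ 2 ≤ p0 ^ 2 := pow_le_pow_left₀ hp' hp.2 2
          calc p ^ 2 * d ≤ p0 ^ 2 * d := mul_le_mul_of_nonneg_right this hd0.le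
            _ = (1 + ε ^ 2 / 4) ^ 2 / d := by rw [hp0]; field_simp
            _ ≤ (25 / 16) / d := by
                apply div_le_div_of_nonneg_right _ hd0.le
                nlinarith
        calc p ^ 2 * d * (3 / 2) * (1 / (1 - p * r) ^ 2)
            ≤ (25 / 16) / d * (3 / 2) * (1 / (ε ^ 2 / 4) ^ 2) := by
              apply mul_le_mul _ h5 (by positivity) (by positivity)
              exact mul_le_mul_of_nonneg_right h6 (by norm_num)
          _ ≤ ε ^ 2 / 8 := by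
              have e : (25 / 16) / (d:ℝ) * (3 / 2) * (1 / (ε ^ 2 / 4) ^ 2)
                = (75 / 2) / (d * ε ^ 4) := by field_simp; ring
              rw [e, div_le_iff₀ (by positivity)]
              nlinarith
      linarith
    obtain ⟨L, hL, hM⟩ := chi_unbounded hp' hp1' hrpos.le (by linarith) hnw htr hreg hcrit
      ((S.card : ℝ) / (1 - phi G p S o))
    exact absurd (hbd L o) (not_le.mpr hM)
  have hth := theta_ge hp1pos hp10.le hp01 hphi
  have hc : 0 < 1 - p1 / p0 := by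
    have : p1 / p0 < 1 := (div_lt_one hp0pos).mpr hp10
    linarith
  have hpc : pc G ≤ p0 :=
    pc_le hconn (⟨p0, hp0pos.le, hp01⟩ : unitInterval) hc hth
  have hpu := pu_ge hconn htr hrpos hnw hB
  have hlt : p0 < 1 / r := by
    rw [lt_div_iff₀ hrpos]
    linarith
  linarith

end Vale.Agent.P165
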