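import Vale.Agent.P165.X
import Vale.Agent.P165.DA
import Vale.Agent.P165.DB
import Vale.Agent.P165.PU
import Vale.Agent.P165.Inf2
import Vale.Agent.P165.FIN
import Vale.Agent.P165.Cart

/-!
P165: the main theorem with the explicit threshold, and the corollaries for powers.
-/

namespace Vale.Agent.P165

namespace MainX

variable {V : Type*} [DecidableEq V]

/-- explicit form -/
theorem main_explicit [Infinite V] (G : SimpleGraph V) [G.LocallyFinite] (hG : G.Connected)
    (htr : ∀ x y : V, ∃ φ : G ≃g G, φ x = y) {ε : ℝ} (hε : 0 < ε) {d : ℕ}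
    (hreg : G.IsRegularOfDegree d) (hd : 432 / ε ^ 6 < d)
    (hE : ∀ A : Finset V, ε * d * A.card ≤ (ebd G A : ℝ)) : pc G < pu G := by
  obtain ⟨o⟩ : Nonempty V := inferInstance
  obtain ⟨r, p1, p0, hr, hp1, h10, hp0, hpr, hnw, hB, hcrit⟩ :=
    fin_numbers hε hd G hreg hE
  have hphi : ∀ p ∈ Set.Icc p1 p0, ∀ S : Finset V, o ∈ S → 1 ≤ phi G p S o := by
    intro p hp S hS
    by_contra hlt
    push Not at hlt
    have hp00 : 0 ≤ p := hp1.le.trans hp.1
    have hp01 : p ≤ 1 := hp.2.trans hp0.le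
    have hprr : p * r < 1 := lt_of_le_of_lt (mul_le_mul_of_nonneg_right hp.2 hr.le) hpr
    obtain ⟨L, -, hL⟩ := chi_unbounded hp00 hp01 hr.le hprr hnw htr hreg
      (hcrit p hp.1 hp.2 o).le ((S.card : ℝ) / (1 - phi G p S o))
    have h := DA hp00 hp01 htr hS hlt L o
    linarith
  have hth := theta_ge hp1 h10.le hp0.le hphi
  have hp0pos : 0 < p0 := hp1.trans h10
  have hc : 0 < 1 - p1 / p0 := by
    rw [sub_pos, div_lt_one hp0pos]
    exact h10
  have h1 := pc_le hG ⟨p0, hp0pos.le, hp0.le⟩ hc hth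
  have h2 := pu_ge hG htr hr hnw hB
  have h3 : p0 < 1 / r := by rwa [lt_div_iff₀ hr]
  calc pc G ≤ p0 := h1
    _ < 1 / r := h3
    _ ≤ pu G := h2

/-- the form used for the corollaries -/
theorem mainStmt : Pow.MainStmt := by
  intro ε hε
  obtain ⟨D0, hD0⟩ := exists_nat_gt (432 / ε ^ 6)
  refine ⟨D0, ?_⟩
  intro V _ _ G _ d hc ht hreg hd hE
  refine main_explicit G hc ht hε hreg (hD0.trans_le (by exact_mod_cast hd)) hE

/-- all large powers of every nonamenable transitive graph -/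
theorem pow_main (V : Type) [DecidableEq V] [Infinite V] (G : SimpleGraph V)
    [G.LocallyFinite] (hc : G.Connected) (ht : ∀ x y : V, ∃ φ : G ≃g G, φ x = y)
    {h : ℝ} (h0 : 0 < h) (hA : ∀ A : Finset V, h * (A.card : ℝ) ≤ ((Pow.vbd G A).card : ℝ)) :
    ∃ k0 : ℕ, ∀ k, k0 ≤ k → pc (pw G k) < pu (pw G k) :=
  Pow.of_main mainStmt V G hc ht h0 hA

/-- all large Cartesian powers of every nonamenable transitive graph -/
theorem cart_main (V : Type) [DecidableEq V] [Infinite V] (G : SimpleGraph V)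
    [G.LocallyFinite] (hc : G.Connected) (ht : ∀ x y : V, ∃ φ : G ≃g G, φ x = y)
    {h : ℝ} (h0 : 0 < h) (hA : ∀ A : Finset V, h * (A.card : ℝ) ≤ ((Pow.vbd G A).card : ℝ)) :
    ∃ n0 : ℕ, ∀ n, n0 ≤ n → pc (cart G n) < pu (cart G n) :=
  Cart.of_main mainStmt V G hc ht h0 hA

end MainX

end Vale.Agent.P165
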