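import Vale.Agent.P165.Cheeger

namespace Vale.Agent.P165
namespace Ch

open Finset

variable {V : Type*} [DecidableEq V] (G : SimpleGraph V) [G.LocallyFinite]

/-- adjacency operator -/
def ad (h : V → ℝ) : V → ℝ := fun x => ∑ z ∈ G.neighborFinset x, h z

/-- number of walks of length k from x to y -/
def nwk : ℕ → V → V → ℝ
  | 0, x, y => if x = y then 1 else 0
  | k + 1, x, y => ∑ z ∈ G.neighborFinset x, nwk k z y

/-- closed neighbourhood -/
def nb (B : Finset V) : Finset V := B ∪ B.biUnion (fun x => G.neighborFinset x)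

theorem sub_nb (B : Finset V) : B ⊆ nb G B := Finset.subset_union_left

theorem nb_mem {B : Finset V} {x y : V} (hx : x ∈ B) (hy : y ∈ G.neighborFinset x) : y ∈ nb G B := by
  rw [nb, Finset.mem_union, Finset.mem_biUnion]
  exact Or.inr ⟨x, hx, hy⟩

theorem ad_supp {B : Finset V} {h : V → ℝ} (hh : ∀ x, x ∉ B → h x = 0) :
    ∀ x, x ∉ nb G B → ad G h x = 0 := by
  intro x hx
  unfold ad
  apply Finset.sum_eq_zero
  intro z hz
  apply hh
  intro hzB
  apply hx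
  apply nb_mem G hzB
  rw [SimpleGraph.mem_neighborFinset] at hz ⊢
  exact hz.symm

omit [DecidableEq V] in
/-- extension of the domain of summation -/
theorem sum_ext {B C : Finset V} (hBC : B ⊆ C) {F : V → ℝ} (hF : ∀ x, x ∉ B → F x = 0) :
    ∑ x ∈ C, F x = ∑ x ∈ B, F x :=
  (Finset.sum_subset hBC (fun x _ hx => hF x hx)).symm

/-- symmetry of the adjacency operator, for finitely supported functions -/
theorem ad_symm {B C : Finset V} {u h : V → ℝ} (hu : ∀ x, x ∉ C → u x = 0)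
    (hh : ∀ x, x ∉ B → h x = 0) :
    ∑ x ∈ C, u x * ad G h x = ∑ x ∈ B, h x * ad G u x := by
  set D := nb G (B ∪ C) with hD
  have hB : B ⊆ D := subset_trans Finset.subset_union_left (sub_nb G _)
  have hC : C ⊆ D := subset_trans Finset.subset_union_right (sub_nb G _)
  have hNB : ∀ x ∈ B, G.neighborFinset x ⊆ D := by
    intro x hx y hy
    exact nb_mem G (Finset.mem_union_left _ hx) hy
  have hNC : ∀ x ∈ C, G.neighborFinset x ⊆ D := by
    intro x hx y hy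
    exact nb_mem G (Finset.mem_union_right _ hx) hy
  have e1 : ∑ x ∈ C, u x * ad G h x = ∑ p ∈ prs G D, u p.1 * h p.2 := by
    rw [sum_red G hC hNC (fun x y => u x * h y) (fun x hx y => by rw [hu x hx]; ring)]
    apply Finset.sum_congr rfl
    intro x _
    unfold ad
    rw [Finset.mul_sum]
  have e2 : ∑ x ∈ B, h x * ad G u x = ∑ p ∈ prs G D, h p.1 * u p.2 := by
    rw [sum_red G hB hNB (fun x y => h x * u y) (fun x hx y => by rw [hh x hx]; ring)]
    apply Finset.sum_congr rfl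
    intro x _
    unfold ad
    rw [Finset.mul_sum]
  rw [e1, e2, sum_swap G D (fun x y => u x * h y)]
  apply Finset.sum_congr rfl
  intro p _
  ring

omit [DecidableEq V] in
theorem ad_add (u h : V → ℝ) (a : ℝ) (x : V) :
    ad G (fun y => u y + a * h y) x = ad G u x + a * ad G h x := by
  unfold ad
  rw [Finset.sum_add_distrib, Finset.mul_sum]

/-- norm bound for one application of the adjacency operator -/
theorem ad_norm (r : ℝ) (hr : 0 ≤ r)
    (hQ : ∀ (B : Finset V) (f : V → ℝ), (∀ x, x ∉ B → f x = 0) →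
      |∑ x ∈ B, ∑ y ∈ G.neighborFinset x, f x * f y| ≤ r * ∑ x ∈ B, f x ^ 2)
    (B : Finset V) (h : V → ℝ) (hh : ∀ x, x ∉ B → h x = 0) :
    ∑ x ∈ nb G B, ad G h x ^ 2 ≤ r ^ 2 * ∑ x ∈ B, h x ^ 2 := by
  set C := nb G B with hC
  set u := ad G h with hu
  have hus : ∀ x, x ∉ C → u x = 0 := ad_supp G hh
  have hhs : ∀ x, x ∉ C → h x = 0 := fun x hx => hh x (fun hB => hx (sub_nb G B hB))
  have hF : ∑ x ∈ C, h x ^ 2 = ∑ x ∈ B, h x ^ 2 :=
    sum_ext (sub_nb G B) (fun x hx => by rw [hh x hx]; ring)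
  have hsym : ∑ x ∈ C, h x * ad G u x = ∑ x ∈ C, u x ^ 2 := by
    rw [← ad_symm G hus hhs]
    apply Finset.sum_congr rfl
    intro x _
    rw [← hu]; ring
  have key : ∀ a : ℝ, 0 ≤ a → 4 * a * ∑ x ∈ C, u x ^ 2
      ≤ 2 * r * (∑ x ∈ C, u x ^ 2 + a ^ 2 * ∑ x ∈ B, h x ^ 2) := by
    intro a ha
    have q1 := hQ C (fun x => u x + a * h x) (fun x hx => by simp only [hus x hx, hhs x hx]; ring)
    have q2 := hQ C (fun x => u x + (-a) * h x) (fun x hx => by simp only [hus x hx, hhs x hx]; ring)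
    have ex : ∀ b : ℝ, ∑ x ∈ C, ∑ y ∈ G.neighborFinset x, (u x + b * h x) * (u y + b * h y)
        = ∑ x ∈ C, u x * ad G u x + 2 * b * ∑ x ∈ C, u x ^ 2 + b ^ 2 * ∑ x ∈ C, h x * ad G h x := by
      intro b
      have : ∀ x ∈ C, ∑ y ∈ G.neighborFinset x, (u x + b * h x) * (u y + b * h y)
          = u x * ad G u x + b * (h x * ad G u x) + b * (u x ^ 2) + b ^ 2 * (h x * ad G h x) := by
        intro x _
        rw [← Finset.mul_sum]
        have h1 : ∑ y ∈ G.neighborFinset x, (u y + b * h y) = ad G u x + b * ad G h x :=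
          ad_add G u h b x
        rw [h1]
        have h2 : ad G h x = u x := by rw [hu]
        rw [h2]; ring
      rw [Finset.sum_congr rfl this, Finset.sum_add_distrib, Finset.sum_add_distrib,
        Finset.sum_add_distrib, ← Finset.mul_sum, ← Finset.mul_sum, ← Finset.mul_sum, hsym]
      ring
    have eq2 : ∀ b : ℝ, ∑ x ∈ C, (u x + b * h x) ^ 2
        = ∑ x ∈ C, u x ^ 2 + 2 * b * ∑ x ∈ C, u x * h x + b ^ 2 * ∑ x ∈ B, h x ^ 2 := by
      intro b
      rw [← hF, Finset.mul_sum, Finset.mul_sum, ← Finset.sum_add_distrib, ← Finset.sum_add_distrib]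
      apply Finset.sum_congr rfl
      intro x _
      ring
    rw [ex, eq2] at q1 q2
    have q1' := (abs_le.mp q1).2
    have q2' := (abs_le.mp q2).1
    nlinarith [q1', q2']
  have hu0 : 0 ≤ ∑ x ∈ C, u x ^ 2 := Finset.sum_nonneg (fun x _ => sq_nonneg _)
  rcases eq_or_lt_of_le hr with h0 | h0
  · have := key 1 (by norm_num)
    rw [← h0] at this ⊢
    have h3 : 0 ≤ ∑ x ∈ B, h x ^ 2 := Finset.sum_nonneg (fun x _ => sq_nonneg _)
    nlinarith
  · have := key r hr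
    have h4 : r * ∑ x ∈ C, u x ^ 2 ≤ r * (r ^ 2 * ∑ x ∈ B, h x ^ 2) := by nlinarith
    exact le_of_mul_le_mul_left h4 h0

/-- iterated neighbourhoods -/
def nbk : ℕ → Finset V → Finset V
  | 0, B => B
  | k + 1, B => nb G (nbk k B)

def adk : ℕ → (V → ℝ) → (V → ℝ)
  | 0, h => h
  | k + 1, h => ad G (adk k h)

theorem adk_supp {B : Finset V} {h : V → ℝ} (hh : ∀ x, x ∉ B → h x = 0) (k : ℕ) :
    ∀ x, x ∉ nbk G k B → adk G k h x = 0 := by
  induction k with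
  | zero => exact hh
  | succ k ih => exact ad_supp G ih

theorem adk_norm (r : ℝ) (hr : 0 ≤ r)
    (hQ : ∀ (B : Finset V) (f : V → ℝ), (∀ x, x ∉ B → f x = 0) →
      |∑ x ∈ B, ∑ y ∈ G.neighborFinset x, f x * f y| ≤ r * ∑ x ∈ B, f x ^ 2)
    (B : Finset V) (h : V → ℝ) (hh : ∀ x, x ∉ B → h x = 0) (k : ℕ) :
    ∑ x ∈ nbk G k B, adk G k h x ^ 2 ≤ (r ^ k) ^ 2 * ∑ x ∈ B, h x ^ 2 := by
  induction k with
  | zero => simp [nbk, adk]
  | succ k ih =>
    have h1 := ad_norm G r hr hQ (nbk G k B) (adk G k h) (adk_supp G hh k)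
    calc ∑ x ∈ nbk G (k+1) B, adk G (k+1) h x ^ 2
        = ∑ x ∈ nb G (nbk G k B), ad G (adk G k h) x ^ 2 := rfl
      _ ≤ r ^ 2 * ∑ x ∈ nbk G k B, adk G k h x ^ 2 := h1
      _ ≤ r ^ 2 * ((r ^ k) ^ 2 * ∑ x ∈ B, h x ^ 2) := by
          apply mul_le_mul_of_nonneg_left ih (sq_nonneg r)
      _ = (r ^ (k+1)) ^ 2 * ∑ x ∈ B, h x ^ 2 := by ring

theorem adk_norm' (r : ℝ) (hr : 0 ≤ r)
    (hQ : ∀ (B : Finset V) (f : V → ℝ), (∀ x, x ∉ B → f x = 0) →
      |∑ x ∈ B, ∑ y ∈ G.neighborFinset x, f x * f y| ≤ r * ∑ x ∈ B, f x ^ 2)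
    (B : Finset V) (h : V → ℝ) (hh : ∀ x, x ∉ B → h x = 0) (k : ℕ) (T : Finset V) :
    ∑ x ∈ T, adk G k h x ^ 2 ≤ (r ^ k) ^ 2 * ∑ x ∈ B, h x ^ 2 := by
  refine le_trans ?_ (adk_norm G r hr hQ B h hh k)
  have h1 : ∑ x ∈ T ∪ nbk G k B, adk G k h x ^ 2 = ∑ x ∈ nbk G k B, adk G k h x ^ 2 :=
    sum_ext Finset.subset_union_right (fun x hx => by rw [adk_supp G hh k x hx]; ring)
  rw [← h1]
  exact Finset.sum_le_sum_of_subset_of_nonneg Finset.subset_union_left (fun x _ _ => sq_nonneg _)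

/-- bilinear form bound -/
theorem form_le (r : ℝ) (hr : 0 ≤ r)
    (hQ : ∀ (B : Finset V) (f : V → ℝ), (∀ x, x ∉ B → f x = 0) →
      |∑ x ∈ B, ∑ y ∈ G.neighborFinset x, f x * f y| ≤ r * ∑ x ∈ B, f x ^ 2)
    (B : Finset V) (h : V → ℝ) (hh : ∀ x, x ∉ B → h x = 0) (k : ℕ) (T : Finset V) (f : V → ℝ) :
    ∑ x ∈ T, f x * adk G k h x ≤ r ^ k * (Real.sqrt (∑ x ∈ T, f x ^ 2) * Real.sqrt (∑ x ∈ B, h x ^ 2)) := by
  have h1 := Finset.sum_mul_sq_le_sq_mul_sq T f (adk G k h)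
  have h2 := adk_norm' G r hr hQ B h hh k T
  have hT : 0 ≤ ∑ x ∈ T, f x ^ 2 := Finset.sum_nonneg (fun x _ => sq_nonneg _)
  have hB : 0 ≤ ∑ x ∈ B, h x ^ 2 := Finset.sum_nonneg (fun x _ => sq_nonneg _)
  have h0 : 0 ≤ r ^ k * (Real.sqrt (∑ x ∈ T, f x ^ 2) * Real.sqrt (∑ x ∈ B, h x ^ 2)) := by
    positivity
  refine le_of_abs_le (abs_le_of_sq_le_sq ?_ h0)
  rw [mul_pow, mul_pow, Real.sq_sqrt hT, Real.sq_sqrt hB]
  calc (∑ x ∈ T, f x * adk G k h x) ^ 2
      ≤ (∑ x ∈ T, f x ^ 2) * ∑ x ∈ T, adk G k h x ^ 2 := h1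
    _ ≤ (∑ x ∈ T, f x ^ 2) * ((r ^ k) ^ 2 * ∑ x ∈ B, h x ^ 2) :=
        mul_le_mul_of_nonneg_left h2 hT
    _ = (r ^ k) ^ 2 * ((∑ x ∈ T, f x ^ 2) * ∑ x ∈ B, h x ^ 2) := by ring

/-- walk counts as matrix coefficients of the powers of the adjacency operator -/
theorem adk_nwk (B : Finset V) (h : V → ℝ) (hh : ∀ x, x ∉ B → h x = 0) (k : ℕ) :
    ∀ x, adk G k h x = ∑ y ∈ B, nwk G k x y * h y := by
  induction k with
  | zero =>
    intro x
    by_cases hx : x ∈ B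
    · rw [Finset.sum_eq_single x]
      · simp [adk, nwk]
      · intro y _ hy
        simp [nwk, Ne.symm hy]
      · intro h; exact absurd hx h
    · rw [show adk G 0 h x = 0 from hh x hx]
      symm
      apply Finset.sum_eq_zero
      intro y hy
      have : x ≠ y := by rintro rfl; exact hx hy
      simp [nwk, this]
  | succ k ih =>
    intro x
    show ad G (adk G k h) x = _
    unfold ad
    rw [Finset.sum_congr rfl (fun z _ => ih z), Finset.sum_comm]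
    apply Finset.sum_congr rfl
    intro y _
    show _ = (∑ z ∈ G.neighborFinset x, nwk G k z y) * h y
    rw [Finset.sum_mul]

/-- sums of walk counts -/
theorem nwk_sum_le (r : ℝ) (hr : 0 ≤ r)
    (hQ : ∀ (B : Finset V) (f : V → ℝ), (∀ x, x ∉ B → f x = 0) →
      |∑ x ∈ B, ∑ y ∈ G.neighborFinset x, f x * f y| ≤ r * ∑ x ∈ B, f x ^ 2)
    (T B : Finset V) (k : ℕ) :
    ∑ x ∈ T, ∑ y ∈ B, nwk G k x y ≤ r ^ k * (Real.sqrt T.card * Real.sqrt B.card) := by
  have h1 := form_le G r hr hQ B (fun x => if x ∈ B then 1 else 0)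
    (fun x hx => by simp [hx]) k T (fun _ => 1)
  have h2 : ∀ x ∈ T, (1:ℝ) * adk G k (fun x => if x ∈ B then 1 else 0) x = ∑ y ∈ B, nwk G k x y := by
    intro x _
    rw [one_mul, adk_nwk G B _ (fun x hx => by simp [hx]) k x]
    apply Finset.sum_congr rfl
    intro y hy
    simp [hy]
  rw [Finset.sum_congr rfl h2] at h1
  have h3 : ∑ x ∈ B, (if x ∈ B then (1:ℝ) else 0) ^ 2 = B.card := by
    rw [Finset.sum_congr rfl (g := fun _ => (1:ℝ)) (fun x hx => by simp [hx])]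
    simp
  rw [h3] at h1
  simpa using h1

theorem nwk_sum_le' (r : ℝ) (hr : 0 ≤ r)
    (hQ : ∀ (B : Finset V) (f : V → ℝ), (∀ x, x ∉ B → f x = 0) →
      |∑ x ∈ B, ∑ y ∈ G.neighborFinset x, f x * f y| ≤ r * ∑ x ∈ B, f x ^ 2)
    (B : Finset V) (k : ℕ) :
    ∑ x ∈ B, ∑ y ∈ B, nwk G k x y ≤ r ^ k * B.card := by
  have := nwk_sum_le G r hr hQ B B k
  rwa [Real.mul_self_sqrt (Nat.cast_nonneg _)] at this

theorem nwk_le (r : ℝ) (hr : 0 ≤ r)
    (hQ : ∀ (B : Finset V) (f : V → ℝ), (∀ x, x ∉ B → f x = 0) →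
      |∑ x ∈ B, ∑ y ∈ G.neighborFinset x, f x * f y| ≤ r * ∑ x ∈ B, f x ^ 2)
    (x y : V) (k : ℕ) : nwk G k x y ≤ r ^ k := by
  have := nwk_sum_le G r hr hQ {x} {y} k
  simpa using this

theorem nwk_nonneg (k : ℕ) (x y : V) : 0 ≤ nwk G k x y := by
  induction k generalizing x with
  | zero => unfold nwk; split_ifs <;> norm_num
  | succ k ih => exact Finset.sum_nonneg (fun z _ => ih z)

end Ch
end Vale.Agent.P165
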