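import Vale.Agent.P165.Green
import Vale.Agent.P165.BonX

/-!
# P165, round 2, row PHW: `phi` from below, in an arbitrary locally finite graph with weights

If `1 ≤ w ≤ R`, `Lam * w y ≤ ∑ x ∈ N y, w x` and `R * crit G p y ≤ p * Lam - 1` for all `y`, then
`1 ≤ R * phi G p S o` for all finite sets `S` containing `o`.
-/

open Finset

namespace Vale.Agent.P165

namespace PHW

variable {V : Type*} [DecidableEq V] {G : SimpleGraph V}

omit [DecidableEq V] in
theorem Cn_symm {ω : Finset (Sym2 V)} {S : Finset V} {x y : V} (h : Cn ω S x y) :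
    Cn ω S y x := by
  obtain ⟨hx, h⟩ := h
  induction h with
  | refl => exact ⟨hx, Relation.ReflTransGen.refl⟩
  | @tail b c hb hbc ih =>
    have hbS : b ∈ S := ih.1
    refine ⟨hbc.2, Relation.ReflTransGen.head ⟨?_, hbS⟩ ih.2⟩
    rw [Sym2.eq_swap]
    exact hbc.1

omit [DecidableEq V] in
theorem tau_symm (p : ℝ) (S : Finset V) (x y : V) : tau G p S x y = tau G p S y x := by
  unfold tau
  congr 1
  funext ω
  exact propext ⟨Cn_symm, Cn_symm⟩

variable [G.LocallyFinite] {p r : ℝ}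

section
variable (hp : 0 ≤ p) (hr0 : 0 ≤ r) (hr : ∀ k x y, nw G k x y ≤ r ^ k) (hpr : p * r < 1)
include hp hr0 hr hpr

/-- The Green function without its first term. -/
theorem step_eq (x u : V) :
    p * ∑ v ∈ G.neighborFinset x, gr G p v u = ∑' k : ℕ, p ^ (k + 1) * nw G (k + 1) x u := by
  have hs := Green.term_summable hp hr0 hr hpr (G := G) x u
  have h1 := Green.gr_step hp hr0 hr hpr (G := G) x u
  have h2 : gr G p x u = (if x = u then (1 : ℝ) else 0) +
      ∑' k : ℕ, p ^ (k + 1) * nw G (k + 1) x u := by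
    have h3 := hs.tsum_eq_zero_add
    rw [pow_zero, one_mul] at h3
    exact h3
  linarith

/-- The third identity (as an inequality, for a finite set `L`). -/
theorem third_identity (L : Finset V) (u : V) :
    ∑ x ∈ L, (p * ∑ v ∈ G.neighborFinset x, gr G p v u) ^ 2 ≤
      ∑' k : ℕ, ((k : ℝ) + 1) * (p ^ (k + 2) * nw G (k + 2) u u) := by
  have hs : ∀ x, Summable (fun k : ℕ => p ^ (k + 1) * nw G (k + 1) x u) := by
    intro x
    have h := Green.term_summable hp hr0 hr hpr (G := G) x u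
    exact (summable_nat_add_iff (f := fun k : ℕ => p ^ k * nw G k x u) 1).2 h
  have hnn : ∀ (k : ℕ) x, 0 ≤ p ^ (k + 1) * nw G (k + 1) x u := fun k x =>
    Green.term_nonneg hp (k + 1) x u
  have hn : ∀ x, Summable (fun k : ℕ => ‖p ^ (k + 1) * nw G (k + 1) x u‖) := fun x =>
    (hs x).congr fun k => (Real.norm_of_nonneg (hnn k x)).symm
  have h1 : ∀ x, (p * ∑ v ∈ G.neighborFinset x, gr G p v u) ^ 2 =
      ∑' n, ∑ kl ∈ antidiagonal n,
      (p ^ (kl.1 + 1) * nw G (kl.1 + 1) x u) * (p ^ (kl.2 + 1) * nw G (kl.2 + 1) x u) := by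
    intro x
    rw [step_eq hp hr0 hr hpr x u, pow_two]
    exact tsum_mul_tsum_eq_tsum_sum_antidiagonal_of_summable_norm (hn x) (hn x)
  have h2 : ∀ x, Summable (fun n => ∑ kl ∈ antidiagonal n,
      (p ^ (kl.1 + 1) * nw G (kl.1 + 1) x u) * (p ^ (kl.2 + 1) * nw G (kl.2 + 1) x u)) :=
    fun x => (summable_norm_sum_mul_antidiagonal_of_summable_norm (hn x) (hn x)).of_norm
  rw [sum_congr rfl fun x _ => h1 x, ← Summable.tsum_finsetSum (fun x _ => h2 x)]
  refine Summable.tsum_le_tsum (fun n => ?_) (summable_sum fun x _ => h2 x) ?_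
  · rw [sum_comm]
    have h5 : ∀ kl ∈ antidiagonal n, ∑ x ∈ L,
        (p ^ (kl.1 + 1) * nw G (kl.1 + 1) x u) * (p ^ (kl.2 + 1) * nw G (kl.2 + 1) x u) ≤
        p ^ (n + 2) * nw G (n + 2) u u := by
      intro kl hkl
      have hk := mem_antidiagonal.1 hkl
      have h6 : ∑ x ∈ L,
          (p ^ (kl.1 + 1) * nw G (kl.1 + 1) x u) * (p ^ (kl.2 + 1) * nw G (kl.2 + 1) x u) =
          p ^ (n + 2) * ∑ x ∈ L, nw G (kl.1 + 1) u x * nw G (kl.2 + 1) x u := by
        rw [mul_sum]
        refine sum_congr rfl fun x _ => ?_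
        rw [Green.nw_symm G (kl.1 + 1) x u, ← hk,
          show kl.1 + kl.2 + 2 = (kl.1 + 1) + (kl.2 + 1) by ring, pow_add p (kl.1 + 1)]
        ring
      rw [h6]
      have h7 := Green.nw_conv_le G L (kl.1 + 1) (kl.2 + 1) u u
      rw [show kl.1 + 1 + (kl.2 + 1) = n + 2 by omega] at h7
      exact mul_le_mul_of_nonneg_left h7 (pow_nonneg hp _)
    refine (sum_le_sum h5).trans (le_of_eq ?_)
    rw [sum_const, Nat.card_antidiagonal, nsmul_eq_mul]
    push_cast
    ring
  · have := Green.summable_weighted hp hr0 hr hpr (G := G) 1 1 u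
    exact this.congr fun k => by ring

/-- The two error terms of the proof add up to at most `crit`. -/
theorem le_crit' (L : Finset V) (u : V) :
    p * ∑ v ∈ G.neighborFinset u, gr G p v u +
      1 / 2 * ∑ x ∈ L, (p * ∑ v ∈ G.neighborFinset x, gr G p v u) ^ 2 ≤ crit G p u := by
  have h1 := Green.first_identity hp hr0 hr hpr (G := G) u
  have h2 := third_identity hp hr0 hr hpr (G := G) L u
  have hs1 : Summable (fun k : ℕ => p ^ (k + 2) * nw G (k + 2) u u) :=
    (Green.summable_weighted hp hr0 hr hpr (G := G) 0 1 u).congr fun k => by ring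
  have hs2 : Summable (fun k : ℕ => ((k : ℝ) + 1) * (p ^ (k + 2) * nw G (k + 2) u u)) :=
    (Green.summable_weighted hp hr0 hr hpr (G := G) 1 1 u).congr fun k => by ring
  have h3 : crit G p u = (∑' k : ℕ, p ^ (k + 2) * nw G (k + 2) u u) +
      1 / 2 * ∑' k : ℕ, ((k : ℝ) + 1) * (p ^ (k + 2) * nw G (k + 2) u u) := by
    unfold crit
    rw [← tsum_mul_left, ← hs1.tsum_add (hs2.mul_left _)]
    exact tsum_congr fun k => by ring
  rw [h3, h1]
  linarith

end

end PHW

open PHW in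
/-- **Row PHW.** The weighted form of PH. -/
theorem phi_ge_weighted {V : Type*} [DecidableEq V] {G : SimpleGraph V} [G.LocallyFinite]
    {p r : ℝ} (h0 : 0 ≤ p) (h1 : p ≤ 1) (hr0 : 0 ≤ r) (hpr : p * r < 1)
    (hnw : ∀ k x y, nw G k x y ≤ r ^ k) {w : V → ℝ} {R Lam : ℝ}
    (hw1 : ∀ x, 1 ≤ w x) (hwR : ∀ x, w x ≤ R)
    (hLam : ∀ y, Lam * w y ≤ ∑ x ∈ G.neighborFinset y, w x)
    (hc : ∀ y, R * crit G p y ≤ p * Lam - 1) {o : V} {S : Finset V} (ho : o ∈ S) :
    1 ≤ R * phi G p S o := by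
  have hs : ∀ x y, Summable fun k => p ^ k * nw G k x y :=
    Green.term_summable h0 hr0 hnw hpr
  have hR1 : 1 ≤ R := le_trans (hw1 o) (hwR o)
  set τ : V → ℝ := fun x => tau G p S x o with hτ
  have hτ0 : ∀ x, 0 ≤ τ x := fun x => BonX.tau_nonneg G h0 h1 S x o
  have hgr : ∀ x y, 0 ≤ gr G p x y := fun x y => BonX.gr_nonneg G h0 x y
  have hcrit0 : ∀ u, 0 ≤ crit G p u := by
    intro u
    refine le_trans ?_ (le_crit' h0 hr0 hnw hpr (G := G) ∅ u)
    rw [sum_empty, mul_zero, add_zero]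
    exact mul_nonneg h0 (sum_nonneg fun v _ => hgr v u)
  have hpL : 0 ≤ p * Lam - 1 :=
    le_trans (mul_nonneg (by linarith) (hcrit0 o)) (hc o)
  -- the pointwise inequality
  have hB : ∀ x ∈ S, (if o = x then (1 : ℝ) else 0) +
      p * ∑ v ∈ G.neighborFinset x ∩ S, (τ v - gr G p v x * τ x) -
      p ^ 2 / 2 * ∑ v ∈ G.neighborFinset x ∩ S, ∑ v' ∈ (G.neighborFinset x ∩ S).erase v,
        ∑ u ∈ S, gr G p v u * gr G p v' u * τ u ≤ τ x := fun x hx =>
    BonX.B_point G h0 h1 (fun S o v y _ => tau_U1 h0 h1 hs S o v y)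
      (fun S v v' y => tau_U2 h0 h1 hs S v v' y) S x hx o
  -- lower bounds of the left side
  have hB2 : ∀ x ∈ S, (if o = x then (1 : ℝ) else 0) +
      p * ∑ v ∈ G.neighborFinset x ∩ S, τ v -
      τ x * (p * ∑ v ∈ G.neighborFinset x, gr G p v x) -
      1 / 2 * ∑ u ∈ S, τ u * (p * ∑ v ∈ G.neighborFinset x, gr G p v u) ^ 2 ≤ τ x := by
    intro x hx
    refine le_trans ?_ (hB x hx)
    have e1 : p * ∑ v ∈ G.neighborFinset x ∩ S, (τ v - gr G p v x * τ x) =
        p * ∑ v ∈ G.neighborFinset x ∩ S, τ v -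
          τ x * (p * ∑ v ∈ G.neighborFinset x ∩ S, gr G p v x) := by
      rw [sum_sub_distrib, ← sum_mul]
      ring
    have e2 : p * ∑ v ∈ G.neighborFinset x ∩ S, gr G p v x ≤
        p * ∑ v ∈ G.neighborFinset x, gr G p v x :=
      mul_le_mul_of_nonneg_left (sum_le_sum_of_subset_of_nonneg inter_subset_left
        fun v _ _ => hgr v x) h0
    have e3 := mul_le_mul_of_nonneg_left e2 (hτ0 x)
    have e4 : ∑ v ∈ G.neighborFinset x ∩ S, ∑ v' ∈ (G.neighborFinset x ∩ S).erase v,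
        ∑ u ∈ S, gr G p v u * gr G p v' u * τ u ≤
        ∑ u ∈ S, τ u * (∑ v ∈ G.neighborFinset x, gr G p v u) ^ 2 := by
      calc ∑ v ∈ G.neighborFinset x ∩ S, ∑ v' ∈ (G.neighborFinset x ∩ S).erase v,
            ∑ u ∈ S, gr G p v u * gr G p v' u * τ u
          ≤ ∑ v ∈ G.neighborFinset x ∩ S, ∑ v' ∈ G.neighborFinset x,
            ∑ u ∈ S, gr G p v u * gr G p v' u * τ u := by
            refine sum_le_sum fun v _ => ?_
            refine sum_le_sum_of_subset_of_nonneg
              ((erase_subset _ _).trans inter_subset_left) fun v' _ _ => ?_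
            exact sum_nonneg fun u _ => mul_nonneg (mul_nonneg (hgr _ _) (hgr _ _)) (hτ0 u)
        _ ≤ ∑ v ∈ G.neighborFinset x, ∑ v' ∈ G.neighborFinset x,
            ∑ u ∈ S, gr G p v u * gr G p v' u * τ u := by
            refine sum_le_sum_of_subset_of_nonneg inter_subset_left fun v _ _ => ?_
            exact sum_nonneg fun v' _ => sum_nonneg fun u _ =>
              mul_nonneg (mul_nonneg (hgr _ _) (hgr _ _)) (hτ0 u)
        _ = ∑ u ∈ S, τ u * (∑ v ∈ G.neighborFinset x, gr G p v u) ^ 2 := by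
            have : ∀ u ∈ S, τ u * (∑ v ∈ G.neighborFinset x, gr G p v u) ^ 2 =
                ∑ v ∈ G.neighborFinset x, ∑ v' ∈ G.neighborFinset x,
                  gr G p v u * gr G p v' u * τ u := by
              intro u _
              rw [pow_two, sum_mul_sum, mul_sum]
              refine sum_congr rfl fun v _ => ?_
              rw [mul_sum]
              exact sum_congr rfl fun v' _ => by ring
            symm
            rw [sum_congr rfl this, sum_comm]
            exact sum_congr rfl fun v _ => sum_comm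
    have e5 := mul_le_mul_of_nonneg_left e4 (by positivity : (0 : ℝ) ≤ p ^ 2 / 2)
    have e6 : p ^ 2 / 2 * ∑ u ∈ S, τ u * (∑ v ∈ G.neighborFinset x, gr G p v u) ^ 2 =
        1 / 2 * ∑ u ∈ S, τ u * (p * ∑ v ∈ G.neighborFinset x, gr G p v u) ^ 2 := by
      rw [mul_sum, mul_sum]
      exact sum_congr rfl fun u _ => by ring
    rw [e6] at e5
    rw [e1]
    linarith
  -- sum with weights
  have hsum := sum_le_sum fun x (hx : x ∈ S) =>
    mul_le_mul_of_nonneg_left (hB2 x hx) (le_trans zero_le_one (hw1 x))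
  set A : ℝ := ∑ x ∈ S, τ x * w x with hA
  set Q : ℝ := ∑ x ∈ S, τ x * crit G p x with hQ
  set P : ℝ := ∑ v ∈ S, τ v * ∑ x ∈ G.neighborFinset v \ S, w x with hP
  have f0 : ∑ x ∈ S, w x * τ x = A := sum_congr rfl fun x _ => mul_comm _ _
  have f1 : ∑ x ∈ S, w x * (if o = x then (1 : ℝ) else 0) = w o := by
    have : ∀ x ∈ S, w x * (if o = x then (1 : ℝ) else 0) = if o = x then w x else 0 := by
      intro x _; split_ifs <;> simp
    rw [sum_congr rfl this, sum_ite_eq, if_pos ho]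
  have f2 : Lam * A - P ≤ ∑ x ∈ S, w x * ∑ v ∈ G.neighborFinset x ∩ S, τ v := by
    have g1 : ∑ x ∈ S, w x * ∑ v ∈ G.neighborFinset x ∩ S, τ v =
        ∑ v ∈ S, τ v * ∑ x ∈ G.neighborFinset v ∩ S, w x := by
      have k1 : ∀ x, ∑ v ∈ G.neighborFinset x ∩ S, τ v =
          ∑ v ∈ S, if v ∈ G.neighborFinset x then τ v else 0 := by
        intro x
        rw [← sum_filter]
        refine sum_congr ?_ fun _ _ => rfl
        ext v
        simp only [mem_inter, mem_filter]
        tauto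
      have k2 : ∀ v, ∑ x ∈ G.neighborFinset v ∩ S, w x =
          ∑ x ∈ S, if x ∈ G.neighborFinset v then w x else 0 := by
        intro v
        rw [← sum_filter]
        refine sum_congr ?_ fun _ _ => rfl
        ext x
        simp only [mem_inter, mem_filter]
        tauto
      simp only [k1, k2, mul_sum]
      rw [sum_comm]
      refine sum_congr rfl fun v _ => sum_congr rfl fun x _ => ?_
      have k3 : v ∈ G.neighborFinset x ↔ x ∈ G.neighborFinset v := by
        rw [SimpleGraph.mem_neighborFinset, SimpleGraph.mem_neighborFinset, SimpleGraph.adj_comm]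
      by_cases h : x ∈ G.neighborFinset v
      · rw [if_pos (k3.2 h), if_pos h]; ring
      · rw [if_neg (fun h' => h (k3.1 h')), if_neg h]; ring
    rw [g1, hA, hP, mul_sum, ← sum_sub_distrib]
    refine sum_le_sum fun v _ => ?_
    have g2 : ∑ x ∈ G.neighborFinset v ∩ S, w x + ∑ x ∈ G.neighborFinset v \ S, w x =
        ∑ x ∈ G.neighborFinset v, w x := by
      exact sum_inter_add_sum_sdiff (G.neighborFinset v) S w
    have g3 := hLam v
    have g4 := mul_le_mul_of_nonneg_left g3 (hτ0 v)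
    rw [← g2] at g4
    nlinarith
  have f3 : ∑ x ∈ S, w x * (τ x * (p * ∑ v ∈ G.neighborFinset x, gr G p v x)) +
      ∑ x ∈ S, w x * (1 / 2 * ∑ u ∈ S, τ u * (p * ∑ v ∈ G.neighborFinset x, gr G p v u) ^ 2)
      ≤ R * Q := by
    have g1 : ∑ x ∈ S, w x * (τ x * (p * ∑ v ∈ G.neighborFinset x, gr G p v x)) ≤
        R * ∑ x ∈ S, τ x * (p * ∑ v ∈ G.neighborFinset x, gr G p v x) := by
      rw [mul_sum]
      exact sum_le_sum fun x _ => mul_le_mul_of_nonneg_right (hwR x)
        (mul_nonneg (hτ0 x) (mul_nonneg h0 (sum_nonneg fun v _ => hgr v x)))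
    have g2 : ∑ x ∈ S, w x * (1 / 2 * ∑ u ∈ S, τ u *
        (p * ∑ v ∈ G.neighborFinset x, gr G p v u) ^ 2) ≤
        R * ∑ u ∈ S, τ u * (1 / 2 * ∑ x ∈ S, (p * ∑ v ∈ G.neighborFinset x, gr G p v u) ^ 2) := by
      have k1 : R * ∑ u ∈ S, τ u * (1 / 2 * ∑ x ∈ S,
          (p * ∑ v ∈ G.neighborFinset x, gr G p v u) ^ 2) =
          ∑ x ∈ S, R * (1 / 2 * ∑ u ∈ S, τ u *
            (p * ∑ v ∈ G.neighborFinset x, gr G p v u) ^ 2) := by
        simp only [mul_sum]
        rw [sum_comm]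
        exact sum_congr rfl fun x _ => sum_congr rfl fun u _ => by ring
      rw [k1]
      exact sum_le_sum fun x _ => mul_le_mul_of_nonneg_right (hwR x)
        (mul_nonneg (by norm_num) (sum_nonneg fun u _ => mul_nonneg (hτ0 u) (sq_nonneg _)))
    have g3 : ∑ x ∈ S, τ x * (p * ∑ v ∈ G.neighborFinset x, gr G p v x) +
        ∑ u ∈ S, τ u * (1 / 2 * ∑ x ∈ S, (p * ∑ v ∈ G.neighborFinset x, gr G p v u) ^ 2) ≤ Q := by
      rw [← sum_add_distrib, hQ]
      refine sum_le_sum fun u _ => ?_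
      have := mul_le_mul_of_nonneg_left (le_crit' h0 hr0 hnw hpr (G := G) S u) (hτ0 u)
      linarith
    have g4 := mul_le_mul_of_nonneg_left g3 (by linarith : (0 : ℝ) ≤ R)
    linarith
  have f4 : R * Q ≤ (p * Lam - 1) * A := by
    rw [hQ, hA, mul_sum, mul_sum]
    refine sum_le_sum fun x _ => ?_
    have g1 := mul_le_mul_of_nonneg_left (hc x) (hτ0 x)
    have g2 : τ x * (p * Lam - 1) ≤ τ x * (p * Lam - 1) * w x :=
      le_mul_of_one_le_right (mul_nonneg (hτ0 x) hpL) (hw1 x)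
    nlinarith
  have f5 : P ≤ R * ∑ x ∈ S, ∑ _z ∈ G.neighborFinset x \ S, tau G p S o x := by
    rw [hP, mul_sum]
    refine sum_le_sum fun v _ => ?_
    rw [sum_const, nsmul_eq_mul, ← tau_symm p S v o]
    have g1 : ∑ x ∈ G.neighborFinset v \ S, w x ≤ ((G.neighborFinset v \ S).card : ℝ) * R := by
      refine (sum_le_sum fun x _ => hwR x).trans (le_of_eq ?_)
      rw [sum_const, nsmul_eq_mul]
    have g2 := mul_le_mul_of_nonneg_left g1 (hτ0 v)
    calc τ v * ∑ x ∈ G.neighborFinset v \ S, w x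
        ≤ τ v * (((G.neighborFinset v \ S).card : ℝ) * R) := g2
      _ = R * (((G.neighborFinset v \ S).card : ℝ) * tau G p S v o) := by rw [hτ]; ring
  have f6 : ∑ x ∈ S, w x * ((if o = x then (1 : ℝ) else 0) +
      p * ∑ v ∈ G.neighborFinset x ∩ S, τ v -
      τ x * (p * ∑ v ∈ G.neighborFinset x, gr G p v x) -
      1 / 2 * ∑ u ∈ S, τ u * (p * ∑ v ∈ G.neighborFinset x, gr G p v u) ^ 2) =
      w o + p * ∑ x ∈ S, w x * ∑ v ∈ G.neighborFinset x ∩ S, τ v -
      (∑ x ∈ S, w x * (τ x * (p * ∑ v ∈ G.neighborFinset x, gr G p v x)) +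
      ∑ x ∈ S, w x * (1 / 2 * ∑ u ∈ S, τ u *
        (p * ∑ v ∈ G.neighborFinset x, gr G p v u) ^ 2)) := by
    rw [← f1, mul_sum, ← sum_add_distrib, ← sum_add_distrib, ← sum_sub_distrib]
    exact sum_congr rfl fun x _ => by ring
  rw [f6, f0] at hsum
  have f7 := mul_le_mul_of_nonneg_left f2 h0
  have f8 := mul_le_mul_of_nonneg_left f5 h0
  have f9 : p * (R * ∑ x ∈ S, ∑ _z ∈ G.neighborFinset x \ S, tau G p S o x) =
      R * phi G p S o := by
    unfold phi; ring
  rw [f9] at f8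
  have f10 := hw1 o
  nlinarith

end Vale.Agent.P165
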