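import Vale.Agent.P165.PQ

/-! P165: row PN: nonuniqueness without any symmetry, from a uniform lower bound for the
probability that the cluster of a vertex is infinite. -/

open Finset MeasureTheory

namespace Vale.Agent.P165

variable {V : Type*} [DecidableEq V] {G : SimpleGraph V} [G.LocallyFinite]

/-- **Row PN**: no symmetry: if all vertices of an infinite set have percolation probability at
least `c > 0` and `p r < 1` then there is not almost surely a unique infinite cluster. -/
theorem not_unique_of_theta (hG : G.Connected) {X : Set V} (hX : X.Infinite)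
    {r : ℝ} (hr : 0 ≤ r) (hnw : ∀ k x y, nw G k x y ≤ r ^ k)
    (hB : ∀ (k : ℕ) (B : Finset V), ∑ x ∈ B, ∑ y ∈ B, nw G k x y ≤ r ^ k * B.card)
    (p : unitInterval) (hp : (p : ℝ) * r < 1) {c : ℝ} (hc : 0 < c)
    (hθ : ∀ x ∈ X, ∀ S : Finset V, x ∈ S → c ≤ theta G p S x) :
    ¬ ∀ᵐ ω ∂(perc V p), ∃! C : (opn G ω).ConnectedComponent, C.supp.Infinite := by
  intro hu
  have hT1 : ∀ S x y, tau G p S x y ≤ gr G p x y :=
    fun S x y => U12.tau_le_gr p.2.1 p.2.2 (PUaux.sum_summable p.2.1 hr hp hnw) S x y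
  set K := 1 / (1 - (p : ℝ) * r) with hKdef
  have hK : ∀ B : Finset V, ∑ x ∈ B, ∑ y ∈ B, gr G p x y ≤ K * B.card :=
    PUaux.gr_sum_le p.2.1 hr hp hnw hB
  have hxy : ∀ x y, (perc V p).real (Inf.I G x ∩ Inf.I G y) ≤ gr G p x y := by
    intro x y
    refine le_trans ?_ (Inf.perc_R_le hG p (fun S => hT1 S x y))
    have h1 : (perc V p) (Inf.I G x ∩ Inf.I G y) ≤ (perc V p) (Inf.R G x y) := by
      refine measure_mono_ae ?_
      filter_upwards [hu] with ω hω h
      obtain ⟨C, _, hC⟩ := hω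
      have h2 : (opn G ω).connectedComponentMk x = (opn G ω).connectedComponentMk y :=
        (hC _ h.1).trans (hC _ h.2).symm
      exact SimpleGraph.ConnectedComponent.eq.1 h2
    exact ENNReal.toReal_mono (measure_ne_top _ _) h1
  obtain ⟨n, hn⟩ := exists_nat_gt (K / c ^ 2)
  obtain ⟨B, hBo, hBc⟩ := hX.exists_subset_card_eq (n + 1)
  have h1 := Inf.second_moment (perc V p) B (fun x => Inf.I G x)
    (fun x => Inf.measurable_I hG x)
  have h2 : c * B.card ≤ ∑ x ∈ B, (perc V p).real (Inf.I G x) := by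
    rw [mul_comm, ← nsmul_eq_mul]
    exact Finset.card_nsmul_le_sum B _ c fun x hx => Inf.le_perc_I hG p (hθ x (hBo hx))
  have h3 : (c * B.card) ^ 2 ≤ K * B.card := by
    have h4 : (c * B.card) ^ 2 ≤ (∑ x ∈ B, (perc V p).real (Inf.I G x)) ^ 2 :=
      pow_le_pow_left₀ (by positivity) h2 2
    refine h4.trans (h1.trans (le_trans ?_ (hK B)))
    exact Finset.sum_le_sum fun x _ => Finset.sum_le_sum fun y _ => hxy x y
  rw [hBc] at h3
  have h5 : K < c ^ 2 * n := by
    rw [div_lt_iff₀ (by positivity)] at hn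
    linarith
  push_cast at h3
  have hn0 : (0 : ℝ) ≤ n := Nat.cast_nonneg n
  nlinarith [mul_pos hc hc, mul_nonneg (mul_nonneg hc.le hc.le) hn0,
    mul_nonneg (mul_nonneg (mul_nonneg hc.le hc.le) hn0) hn0]

end Vale.Agent.P165
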