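import Mathlib

/-!
P165: the Perron vector of a finite matrix with positive entries.
-/

open Finset

namespace Vale.Agent.P165

namespace PF

variable {ι : Type*} [Fintype ι]

theorem bound {T : ι → ι → ℝ} (hT : ∀ i j, 0 < T i j) {w : ι → ℝ} (hw : w ∈ stdSimplex ℝ ι)
    {L : ℝ} (h : ∀ i, L * w i ≤ ∑ j, T i j * w j) : L ≤ ∑ i, ∑ j, T i j := by
  have h1 : L = ∑ i, L * w i := by rw [← mul_sum, hw.2, mul_one]
  have h2 : ∀ j, w j ≤ 1 := fun j => by
    rw [← hw.2]
    exact single_le_sum (fun i _ => hw.1 i) (mem_univ j)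
  rw [h1]
  refine (sum_le_sum fun i _ => h i).trans ?_
  refine sum_le_sum fun i _ => sum_le_sum fun j _ => ?_
  exact mul_le_of_le_one_right (hT i j).le (h2 j)

theorem perron [Nonempty ι] (T : ι → ι → ℝ) (hT : ∀ i j, 0 < T i j) :
    ∃ (L : ℝ) (w : ι → ℝ), 0 < L ∧ (∀ i, 0 < w i) ∧ ∀ i, ∑ j, T i j * w j = L * w i := by
  classical
  set M : ℝ := ∑ i, ∑ j, T i j with hM
  have hM0 : 0 ≤ M := sum_nonneg fun i _ => sum_nonneg fun j _ => (hT i j).le
  set K : Set ((ι → ℝ) × ℝ) := (stdSimplex ℝ ι ×ˢ Set.Icc 0 M) ∩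
    {q | ∀ i, q.2 * q.1 i ≤ ∑ j, T i j * q.1 j} with hK
  have hclosed : IsClosed {q : (ι → ℝ) × ℝ | ∀ i, q.2 * q.1 i ≤ ∑ j, T i j * q.1 j} := by
    rw [Set.ofPred_forall]
    refine isClosed_iInter fun i => ?_
    apply isClosed_le
    · fun_prop
    · fun_prop
  have hcomp : IsCompact K := ((isCompact_stdSimplex ℝ ι).prod isCompact_Icc).inter_right hclosed
  obtain ⟨i0⟩ : Nonempty ι := inferInstance
  have hne : K.Nonempty := by
    refine ⟨(Pi.single i0 1, 0), ⟨⟨single_mem_stdSimplex ℝ i0, le_rfl, hM0⟩, fun i => ?_⟩⟩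
    simp only [zero_mul]
    refine sum_nonneg fun j _ => mul_nonneg (hT i j).le ?_
    exact (single_mem_stdSimplex ℝ i0).1 j
  obtain ⟨⟨w, L⟩, hwK, hmax⟩ := hcomp.exists_isMaxOn hne (f := Prod.snd) continuous_snd.continuousOn
  obtain ⟨⟨hw, hL⟩, hfe⟩ := hwK
  simp only at hw hL
  have hfe' : ∀ i, L * w i ≤ ∑ j, T i j * w j := hfe
  set v : ι → ℝ := fun i => ∑ j, T i j * w j with hv
  have hv0 : ∀ i, 0 < v i := by
    intro i
    have : ∃ j, 0 < w j := by
      by_contra hcon
      push Not at hcon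
      have h1 : ∑ j, w j ≤ 0 := sum_nonpos fun j _ => hcon j
      rw [hw.2] at h1
      linarith
    obtain ⟨j, hj⟩ := this
    exact sum_pos' (fun j _ => mul_nonneg (hT i j).le (hw.1 j)) ⟨j, mem_univ j, mul_pos (hT i j) hj⟩
  have heq : ∀ i, v i = L * w i := by
    by_contra hcon
    push Not at hcon
    obtain ⟨i1, hi1⟩ := hcon
    have hi1' : L * w i1 < v i1 := lt_of_le_of_ne (hfe' i1) hi1.symm
    have hTv : ∀ i, L * v i < ∑ j, T i j * v j := by
      intro i
      have h1 : ∑ j, T i j * v j - L * v i = ∑ j, T i j * (v j - L * w j) := by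
        have h2 : L * v i = ∑ j, T i j * (L * w j) := by
          rw [hv]
          simp only
          rw [mul_sum]
          exact sum_congr rfl fun j _ => by ring
        rw [h2, ← sum_sub_distrib]
        exact sum_congr rfl fun j _ => by ring
      have h3 : 0 < ∑ j, T i j * (v j - L * w j) := by
        refine sum_pos' (fun j _ => mul_nonneg (hT i j).le ?_) ⟨i1, mem_univ i1, ?_⟩
        · linarith [hfe' j]
        · exact mul_pos (hT i i1) (by linarith)
      linarith
    obtain ⟨i2, -, hi2⟩ := exists_min_image univ (fun i => (∑ j, T i j * v j) / v i)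
      ⟨i1, mem_univ i1⟩
    set L' : ℝ := (∑ j, T i2 j * v j) / v i2 with hL'
    have hLL : L < L' := by
      rw [hL', lt_div_iff₀ (hv0 i2)]
      exact hTv i2
    have hfe2 : ∀ i, L' * v i ≤ ∑ j, T i j * v j := by
      intro i
      have := hi2 i (mem_univ i)
      rw [le_div_iff₀ (hv0 i)] at this
      exact this
    set s : ℝ := ∑ i, v i with hs
    have hs0 : 0 < s := sum_pos (fun i _ => hv0 i) ⟨i1, mem_univ i1⟩
    set u : ι → ℝ := fun i => v i / s with hu
    have huS : u ∈ stdSimplex ℝ ι := by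
      refine ⟨fun i => (div_pos (hv0 i) hs0).le, ?_⟩
      rw [hu]
      simp only
      rw [← sum_div, div_self hs0.ne']
    have hfe3 : ∀ i, L' * u i ≤ ∑ j, T i j * u j := by
      intro i
      have h1 : ∑ j, T i j * u j = (∑ j, T i j * v j) / s := by
        rw [sum_div]
        exact sum_congr rfl fun j _ => by rw [hu]; ring
      rw [h1, hu]
      simp only
      rw [mul_div_assoc', div_le_div_iff_of_pos_right hs0]
      exact hfe2 i
    have hmem : ((u, L') : (ι → ℝ) × ℝ) ∈ K := by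
      refine ⟨⟨huS, ?_, bound hT huS hfe3⟩, hfe3⟩
      exact hL.1.trans hLL.le
    have h := hmax hmem
    simp only [Set.mem_ofPred_eq] at h
    linarith
  have hLpos : 0 < L := by
    rcases hL.1.lt_or_eq with h | h
    · exact h
    · exfalso
      have := heq i0
      rw [← h, zero_mul] at this
      linarith [hv0 i0]
  refine ⟨L, w, hLpos, fun i => ?_, heq⟩
  have h1 := heq i
  have h2 := hv0 i
  rw [h1] at h2
  exact (pos_iff_pos_of_mul_pos h2).1 hLpos

end PF

end Vale.Agent.P165
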