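import Vale.Agent.P165.Defs

/-!
P165: powers of a graph. For a nonamenable transitive graph `G` the powers `G^(k)` have a
normalised edge expansion which is bounded below uniformly in `k`.
-/

open Finset

namespace Vale.Agent.P165

variable {V : Type*}

/-- the `k`-th power of `G`: two different vertices are adjacent iff they are joined in `G` by a
walk of length at most `k`, that is, iff their distance in `G` is at most `k` -/
def pw (G : SimpleGraph V) (k : ℕ) : SimpleGraph V where
  Adj x y := x ≠ y ∧ ∃ w : G.Walk x y, w.length ≤ k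
  symm := ⟨fun _ _ h => ⟨h.1.symm, h.2.elim fun w hw => ⟨w.reverse, by simpa using hw⟩⟩⟩
  loopless := ⟨fun _ h => h.1 rfl⟩

namespace Pow

variable [DecidableEq V]

/-- closed ball -/
def ball (G : SimpleGraph V) [G.LocallyFinite] : ℕ → V → Finset V
  | 0, x => {x}
  | k + 1, x => ball G k x ∪ (G.neighborFinset x).biUnion (fun y => ball G k y)

/-- outer vertex boundary -/
def vbd (G : SimpleGraph V) [G.LocallyFinite] (A : Finset V) : Finset V :=
  A.biUnion (fun x => G.neighborFinset x) \ A

theorem self_mem (G : SimpleGraph V) [G.LocallyFinite] (k : ℕ) (x : V) : x ∈ ball G k x := by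
  induction k with
  | zero => simp [ball]
  | succ k ih => rw [ball]; exact mem_union_left _ ih

theorem mem_ball {G : SimpleGraph V} [G.LocallyFinite] {k : ℕ} {x y : V} :
    y ∈ ball G k x ↔ ∃ w : G.Walk x y, w.length ≤ k := by
  induction k generalizing x with
  | zero =>
    simp only [ball, mem_singleton, Nat.le_zero]
    constructor
    · rintro rfl
      exact ⟨SimpleGraph.Walk.nil, rfl⟩
    · rintro ⟨w, hw⟩
      exact (SimpleGraph.Walk.eq_of_length_eq_zero hw).symm
  | succ k ih =>
    rw [ball, mem_union, mem_biUnion, ih]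
    constructor
    · rintro (⟨w, hw⟩ | ⟨z, hz, h⟩)
      · exact ⟨w, by omega⟩
      · rw [ih] at h
        obtain ⟨w, hw⟩ := h
        rw [SimpleGraph.mem_neighborFinset] at hz
        exact ⟨SimpleGraph.Walk.cons hz w, by simpa using hw⟩
    · rintro ⟨w, hw⟩
      cases w with
      | nil => exact Or.inl ⟨SimpleGraph.Walk.nil, by simp⟩
      | cons h w =>
        refine Or.inr ⟨_, by rwa [SimpleGraph.mem_neighborFinset], ?_⟩
        rw [ih]
        exact ⟨w, by simpa using hw⟩

theorem ball_symm {G : SimpleGraph V} [G.LocallyFinite] {k : ℕ} {x y : V}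
    (h : y ∈ ball G k x) : x ∈ ball G k y := by
  rw [mem_ball] at h ⊢
  obtain ⟨w, hw⟩ := h
  exact ⟨w.reverse, by simpa using hw⟩

theorem ball_succ_sub {G : SimpleGraph V} [G.LocallyFinite] (k : ℕ) (x : V) :
    ball G k x ⊆ ball G (k + 1) x := by
  rw [ball]; exact subset_union_left

theorem ball_adj_sub {G : SimpleGraph V} [G.LocallyFinite] (k : ℕ) {x y : V}
    (h : G.Adj x y) : ball G k x ⊆ ball G (k + 1) y := by
  intro z hz
  rw [ball, mem_union, mem_biUnion]
  exact Or.inr ⟨x, by rw [SimpleGraph.mem_neighborFinset]; exact h.symm, hz⟩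

/-- the balls are mapped to each other -/
theorem card_ball {G : SimpleGraph V} [G.LocallyFinite]
    (ht : ∀ x y : V, ∃ φ : G ≃g G, φ x = y) (k : ℕ) (x y : V) :
    (ball G k x).card = (ball G k y).card := by
  have key : ∀ x y : V, (ball G k x).card ≤ (ball G k y).card := by
    intro x y
    obtain ⟨φ, hφ⟩ := ht x y
    have h1 : (ball G k x).image φ ⊆ ball G k y := by
      intro z hz
      rw [mem_image] at hz
      obtain ⟨u, hu, rfl⟩ := hz
      rw [mem_ball] at hu ⊢
      obtain ⟨w, hw⟩ := hu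
      subst hφ
      exact ⟨w.map φ.toHom, by simpa using hw⟩
    rw [← card_image_of_injective (ball G k x) φ.injective]
    exact card_le_card h1
  exact le_antisymm (key x y) (key y x)

theorem nbr_sdiff {G : SimpleGraph V} [G.LocallyFinite] (k : ℕ) [(pw G k).LocallyFinite]
    {A : Finset V} {x : V} (hx : x ∈ A) :
    (pw G k).neighborFinset x \ A = ball G k x \ A := by
  ext y
  simp only [mem_sdiff, SimpleGraph.mem_neighborFinset, mem_ball]
  constructor
  · rintro ⟨⟨-, h⟩, h2⟩
    exact ⟨h, h2⟩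
  · rintro ⟨h, h2⟩
    exact ⟨⟨fun e => h2 (e ▸ hx), h⟩, h2⟩

theorem card_nbr {G : SimpleGraph V} [G.LocallyFinite] (k : ℕ) [(pw G k).LocallyFinite] (x : V) :
    ((pw G k).neighborFinset x).card + 1 = (ball G k x).card := by
  have h : (pw G k).neighborFinset x = (ball G k x).erase x := by
    ext y
    simp only [SimpleGraph.mem_neighborFinset, mem_erase, mem_ball]
    exact ⟨fun h => ⟨h.1.symm, h.2⟩, fun h => ⟨h.1.symm, h.2⟩⟩
  rw [h, card_erase_add_one (self_mem G k x)]

/-- THE UNIFORM EXPANSION OF THE POWERS -/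
theorem cheeger {G : SimpleGraph V} [G.LocallyFinite] {d : ℕ} {h : ℝ}
    (hd : ∀ x, (G.neighborFinset x).card = d)
    (ht : ∀ x y : V, ∃ φ : G ≃g G, φ x = y)
    (hA : ∀ A : Finset V, h * (A.card : ℝ) ≤ ((vbd G A).card : ℝ))
    (k : ℕ) (hk : 1 ≤ k) [(pw G k).LocallyFinite] (o : V) (A : Finset V) :
    h * ((ball G k o).card : ℝ) * (A.card : ℝ) ≤ ((d : ℝ) + 1) ^ 2 * (ebd (pw G k) A : ℝ) := by
  obtain ⟨m, rfl⟩ : ∃ m, k = m + 1 := ⟨k - 1, by omega⟩
  -- growth
  have hg : (ball G (m + 1) o).card ≤ (d + 1) * (ball G m o).card := by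
    rw [ball]
    calc (ball G m o ∪ (G.neighborFinset o).biUnion (fun y => ball G m y)).card
        ≤ (ball G m o).card + ((G.neighborFinset o).biUnion (fun y => ball G m y)).card :=
          card_union_le _ _
      _ ≤ (ball G m o).card + ∑ y ∈ G.neighborFinset o, (ball G m y).card :=
          Nat.add_le_add_left card_biUnion_le _
      _ = (ball G m o).card + ∑ _y ∈ G.neighborFinset o, (ball G m o).card := by
          congr 1
          exact sum_congr rfl fun y _ => card_ball ht m y o
      _ = (d + 1) * (ball G m o).card := by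
          rw [sum_const, hd, smul_eq_mul]; ring
  set e : ℕ := ebd (pw G (m + 1)) A with he
  have he' : e = ∑ x ∈ A, (ball G (m + 1) x \ A).card := by
    rw [he, ebd]
    exact sum_congr rfl fun x hx => by rw [nbr_sdiff (m + 1) hx]
  -- the chosen neighbour
  have hch : ∀ y ∈ vbd G A, ∃ x ∈ A, G.Adj x y := by
    intro y hy
    rw [vbd, mem_sdiff, mem_biUnion] at hy
    obtain ⟨⟨x, hx, hxy⟩, -⟩ := hy
    exact ⟨x, hx, by rwa [SimpleGraph.mem_neighborFinset] at hxy⟩
  classical
  let c : V → V := fun y => if hy : y ∈ vbd G A then (hch y hy).choose else y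
  have hc : ∀ y ∈ vbd G A, c y ∈ A ∧ G.Adj (c y) y := by
    intro y hy
    have : c y = (hch y hy).choose := dif_pos hy
    rw [this]
    exact (hch y hy).choose_spec
  -- local inequality
  have hloc : ∀ y ∈ vbd G A, (ball G m o).card ≤
      (A.filter (fun z => y ∈ ball G (m + 1) z)).card + (ball G (m + 1) (c y) \ A).card := by
    intro y hy
    obtain ⟨hcA, hadj⟩ := hc y hy
    rw [card_ball ht m o (c y)]
    have h1 : ball G m (c y) ⊆ A.filter (fun z => y ∈ ball G (m + 1) z) ∪
        (ball G (m + 1) (c y) \ A) := by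
      intro z hz
      rw [mem_union]
      by_cases hzA : z ∈ A
      · left
        rw [mem_filter]
        exact ⟨hzA, ball_symm (ball_adj_sub m hadj hz)⟩
      · right
        rw [mem_sdiff]
        exact ⟨ball_succ_sub m _ hz, hzA⟩
    exact (card_le_card h1).trans (card_union_le _ _)
  -- sum of the local inequality
  have hsum : (vbd G A).card * (ball G m o).card ≤
      ∑ y ∈ vbd G A, (A.filter (fun z => y ∈ ball G (m + 1) z)).card
        + ∑ y ∈ vbd G A, (ball G (m + 1) (c y) \ A).card := by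
    rw [← sum_add_distrib]
    calc (vbd G A).card * (ball G m o).card = ∑ _y ∈ vbd G A, (ball G m o).card := by
          rw [sum_const, smul_eq_mul]
      _ ≤ _ := sum_le_sum hloc
  have hs1 : ∑ y ∈ vbd G A, (A.filter (fun z => y ∈ ball G (m + 1) z)).card ≤ e := by
    rw [he']
    have h1 : ∑ y ∈ vbd G A, (A.filter (fun z => y ∈ ball G (m + 1) z)).card =
        ∑ z ∈ A, ((vbd G A).filter (fun y => y ∈ ball G (m + 1) z)).card := by
      simp only [card_filter]
      exact sum_comm
    rw [h1]
    refine sum_le_sum fun z _ => card_le_card ?_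
    intro y hy
    rw [mem_filter] at hy
    rw [mem_sdiff]
    refine ⟨hy.2, ?_⟩
    have := hy.1
    rw [vbd, mem_sdiff] at this
    exact this.2
  have hs2 : ∑ y ∈ vbd G A, (ball G (m + 1) (c y) \ A).card ≤ d * e := by
    rw [he', mul_sum]
    rw [← sum_fiberwise_of_maps_to (g := c) (t := A) (fun y hy => (hc y hy).1)]
    refine sum_le_sum fun x _ => ?_
    calc ∑ y ∈ (vbd G A).filter (fun y => c y = x), (ball G (m + 1) (c y) \ A).card
        = ∑ _y ∈ (vbd G A).filter (fun y => c y = x), (ball G (m + 1) x \ A).card :=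
          sum_congr rfl fun y hy => by rw [(mem_filter.1 hy).2]
      _ = ((vbd G A).filter (fun y => c y = x)).card * (ball G (m + 1) x \ A).card := by
          rw [sum_const, smul_eq_mul]
      _ ≤ d * (ball G (m + 1) x \ A).card := by
          apply Nat.mul_le_mul_right
          rw [← hd x]
          apply card_le_card
          intro y hy
          rw [mem_filter] at hy
          rw [SimpleGraph.mem_neighborFinset]
          have := (hc y hy.1).2
          rwa [hy.2] at this
  have hfin : (vbd G A).card * (ball G m o).card ≤ (d + 1) * e := by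
    calc (vbd G A).card * (ball G m o).card ≤ e + d * e := hsum.trans (Nat.add_le_add hs1 hs2)
      _ = (d + 1) * e := by ring
  have hfinR : ((vbd G A).card : ℝ) * ((ball G m o).card : ℝ) ≤ ((d : ℝ) + 1) * (e : ℝ) := by
    exact_mod_cast hfin
  have hgR : ((ball G (m + 1) o).card : ℝ) ≤ ((d : ℝ) + 1) * ((ball G m o).card : ℝ) := by
    exact_mod_cast hg
  calc h * ((ball G (m + 1) o).card : ℝ) * (A.card : ℝ)
      = (h * (A.card : ℝ)) * ((ball G (m + 1) o).card : ℝ) := by ring
    _ ≤ ((vbd G A).card : ℝ) * (((d : ℝ) + 1) * ((ball G m o).card : ℝ)) :=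
        mul_le_mul (hA A) hgR (Nat.cast_nonneg _) (Nat.cast_nonneg _)
    _ = ((d : ℝ) + 1) * (((vbd G A).card : ℝ) * ((ball G m o).card : ℝ)) := by ring
    _ ≤ ((d : ℝ) + 1) * (((d : ℝ) + 1) * (e : ℝ)) :=
        mul_le_mul_of_nonneg_left hfinR (by positivity)
    _ = ((d : ℝ) + 1) ^ 2 * (e : ℝ) := by ring

/-- the balls exhaust the graph -/
theorem ball_large {G : SimpleGraph V} [G.LocallyFinite] [Infinite V] (hc : G.Connected)
    (o : V) (N : ℕ) : ∃ k0, ∀ k, k0 ≤ k → N ≤ (ball G k o).card := by
  obtain ⟨S, hS⟩ := Infinite.exists_subset_card_eq V N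
  have h1 : ∀ y, ∃ n, ∀ k, n ≤ k → y ∈ ball G k o := by
    intro y
    obtain ⟨w⟩ := hc.preconnected o y
    exact ⟨w.length, fun k hk => mem_ball.2 ⟨w, hk⟩⟩
  choose n hn using h1
  refine ⟨S.sup n, fun k hk => ?_⟩
  rw [← hS]
  apply card_le_card
  intro y hy
  exact hn y k ((le_sup hy).trans hk)

omit [DecidableEq V] in
theorem le_pw (G : SimpleGraph V) {k : ℕ} (hk : 1 ≤ k) : G ≤ pw G k := by
  intro x y h
  exact ⟨h.ne, SimpleGraph.Walk.cons h SimpleGraph.Walk.nil, by simpa using hk⟩

omit [DecidableEq V] in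
theorem pw_connected {G : SimpleGraph V} (hc : G.Connected) {k : ℕ} (hk : 1 ≤ k) :
    (pw G k).Connected := hc.mono (le_pw G hk)

omit [DecidableEq V] in
theorem pw_trans {G : SimpleGraph V} (ht : ∀ x y : V, ∃ φ : G ≃g G, φ x = y) (k : ℕ) :
    ∀ x y : V, ∃ φ : pw G k ≃g pw G k, φ x = y := by
  intro x y
  obtain ⟨φ, hφ⟩ := ht x y
  refine ⟨⟨φ.toEquiv, ?_⟩, hφ⟩
  intro a b
  constructor
  · rintro ⟨h1, w, hw⟩
    refine ⟨fun e => h1 (by rw [e]), ?_⟩
    have h2 : ∀ z, φ.symm (φ.toEquiv z) = z := fun z => φ.symm_apply_apply z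
    have w' := w.map φ.symm.toHom
    refine ⟨((w.map φ.symm.toHom).copy (h2 a) (h2 b)), ?_⟩
    simpa using hw
  · rintro ⟨h1, w, hw⟩
    exact ⟨fun e => h1 (φ.injective e), w.map φ.toHom, by simpa using hw⟩

/-- the powers are locally finite -/
@[instance_reducible]
noncomputable def pwLF (G : SimpleGraph V) [G.LocallyFinite] (k : ℕ) : (pw G k).LocallyFinite :=
  fun x => ((ball G k x).finite_toSet.subset (fun y hy => by
    have h : (pw G k).Adj x y := hy
    exact mem_coe.2 (mem_ball.2 h.2))).fintype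

end Pow

end Vale.Agent.P165
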