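import Vale.Agent.P165.Pow

/-!
P165: from the main theorem to the powers of an arbitrary nonamenable transitive graph.
-/

open Finset

namespace Vale.Agent.P165

namespace Pow

/-- the statement of the main theorem: large degree and normalised edge expansion -/
def MainStmt : Prop := ∀ ε : ℝ, 0 < ε → ∃ D0 : ℕ, ∀ (V : Type) (_ : DecidableEq V) (_ : Infinite V)
    (G : SimpleGraph V) (_ : G.LocallyFinite) (d : ℕ), G.Connected →
    (∀ x y : V, ∃ φ : G ≃g G, φ x = y) → G.IsRegularOfDegree d → D0 ≤ d →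
    (∀ A : Finset V, ε * (d : ℝ) * (A.card : ℝ) ≤ (ebd G A : ℝ)) → pc G < pu G

/-- powers of nonamenable transitive graphs -/
theorem of_main (hM : MainStmt) (V : Type) [DecidableEq V] [Infinite V] (G : SimpleGraph V)
    [G.LocallyFinite] (hc : G.Connected) (ht : ∀ x y : V, ∃ φ : G ≃g G, φ x = y)
    {h : ℝ} (h0 : 0 < h) (hA : ∀ A : Finset V, h * (A.card : ℝ) ≤ ((vbd G A).card : ℝ)) :
    ∃ k0 : ℕ, ∀ k, k0 ≤ k → pc (pw G k) < pu (pw G k) := by
  obtain ⟨o⟩ : Nonempty V := inferInstance
  have hd : ∀ x, (G.neighborFinset x).card = (G.neighborFinset o).card := by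
    intro x
    obtain ⟨φ, hφ⟩ := ht x o
    have h1 := Fintype.card_congr (φ.mapNeighborSet x)
    rw [SimpleGraph.card_neighborSet_eq_degree, SimpleGraph.card_neighborSet_eq_degree] at h1
    subst hφ
    rw [SimpleGraph.card_neighborFinset_eq_degree, SimpleGraph.card_neighborFinset_eq_degree]
    exact h1
  set d := (G.neighborFinset o).card with hdd
  have hpos : 0 < h / ((d : ℝ) + 1) ^ 2 := by positivity
  obtain ⟨D0, hD0⟩ := hM (h / ((d : ℝ) + 1) ^ 2) hpos
  obtain ⟨k0, hk0⟩ := ball_large hc o (D0 + 1)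
  refine ⟨max 1 k0, fun k hk => ?_⟩
  have hk1 : 1 ≤ k := (le_max_left _ _).trans hk
  have hk2 : k0 ≤ k := (le_max_right _ _).trans hk
  let _ : (pw G k).LocallyFinite := pwLF G k
  have hcard : ∀ x, (pw G k).degree x = (ball G k o).card - 1 := by
    intro x
    rw [← SimpleGraph.card_neighborFinset_eq_degree]
    have := card_nbr (G := G) k x
    rw [card_ball ht k x o] at this
    omega
  refine hD0 V inferInstance inferInstance (pw G k) inferInstance ((ball G k o).card - 1)
    (pw_connected hc hk1) (pw_trans ht k) hcard ?_ ?_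
  · have := hk0 k hk2
    omega
  · intro A
    have h1 := cheeger hd ht hA k hk1 o A
    have h2 : (((ball G k o).card - 1 : ℕ) : ℝ) ≤ ((ball G k o).card : ℝ) := by
      exact_mod_cast Nat.sub_le _ _
    calc h / ((d : ℝ) + 1) ^ 2 * (((ball G k o).card - 1 : ℕ) : ℝ) * (A.card : ℝ)
        ≤ h / ((d : ℝ) + 1) ^ 2 * ((ball G k o).card : ℝ) * (A.card : ℝ) := by gcongr
      _ = (h * ((ball G k o).card : ℝ) * (A.card : ℝ)) / ((d : ℝ) + 1) ^ 2 := by ring
      _ ≤ (ebd (pw G k) A : ℝ) := by
          rw [div_le_iff₀ (by positivity)]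
          linarith

end Pow

end Vale.Agent.P165
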