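import Vale.Agent.P165.CH
import Vale.Agent.P165.Green

/-!
# P165, row RET: bounds on return numbers imply bounds on the adjacency operator
-/

namespace Vale.Agent.P165
namespace RET

open Finset

variable {V : Type*} [DecidableEq V] (G : SimpleGraph V) [G.LocallyFinite]

/-- squared norm of the `k`-th power applied to `f` -/
noncomputable def b (B : Finset V) (f : V → ℝ) (k : ℕ) : ℝ :=
  ∑ x ∈ Ch.nbk G k B, Ch.adk G k f x ^ 2

theorem b_nonneg (B : Finset V) (f : V → ℝ) (k : ℕ) : 0 ≤ b G B f k :=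
  sum_nonneg fun _ _ => sq_nonneg _

theorem b_zero (B : Finset V) (f : V → ℝ) : b G B f 0 = ∑ x ∈ B, f x ^ 2 := rfl

/-- log-convexity -/
theorem b_convex {B : Finset V} {f : V → ℝ} (hf : ∀ x, x ∉ B → f x = 0) (k : ℕ) :
    b G B f (k + 1) ^ 2 ≤ b G B f k * b G B f (k + 2) := by
  have h1 : b G B f (k + 1) = ∑ x ∈ Ch.nbk G k B, Ch.adk G k f x * Ch.adk G (k + 2) f x := by
    have h2 := Ch.ad_symm G (B := Ch.nbk G k B) (C := Ch.nbk G (k + 1) B)
      (u := Ch.adk G (k + 1) f) (h := Ch.adk G k f) (Ch.adk_supp G hf (k + 1))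
      (Ch.adk_supp G hf k)
    have h3 : b G B f (k + 1) =
        ∑ x ∈ Ch.nbk G (k + 1) B, Ch.adk G (k + 1) f x * Ch.ad G (Ch.adk G k f) x := by
      unfold b
      refine sum_congr rfl fun x _ => ?_
      rw [sq]
      rfl
    rw [h3, h2]
    rfl
  rw [h1]
  refine (Finset.sum_mul_sq_le_sq_mul_sq _ _ _).trans ?_
  refine mul_le_mul_of_nonneg_left ?_ (b_nonneg G B f k)
  refine sum_le_sum_of_subset_of_nonneg ?_ fun _ _ _ => sq_nonneg _
  exact (Ch.sub_nb G _).trans (Ch.sub_nb G _)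

/-- growth -/
theorem b_growth {r : ℝ} (hret : ∀ k x, nw G k x x ≤ r ^ k) {B : Finset V} {f : V → ℝ}
    (hf : ∀ x, x ∉ B → f x = 0) (k : ℕ) :
    b G B f k ≤ (B.card * ∑ x ∈ B, f x ^ 2) * (r ^ 2) ^ k := by
  unfold b
  have h1 : ∀ x, Ch.adk G k f x ^ 2 ≤ (∑ y ∈ B, nw G k x y ^ 2) * ∑ y ∈ B, f y ^ 2 := by
    intro x
    rw [Ch.adk_nwk G B f hf k x]
    simp only [← CH.nw_eq]
    exact Finset.sum_mul_sq_le_sq_mul_sq _ _ _
  refine (sum_le_sum fun x _ => h1 x).trans ?_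
  rw [← sum_mul, sum_comm]
  have h2 : ∀ y ∈ B, ∑ x ∈ Ch.nbk G k B, nw G k x y ^ 2 ≤ (r ^ 2) ^ k := by
    intro y _
    have h3 := Green.nw_conv_le G (Ch.nbk G k B) k k y y
    have h4 : ∑ x ∈ Ch.nbk G k B, nw G k x y ^ 2 = ∑ w ∈ Ch.nbk G k B, nw G k y w * nw G k w y := by
      refine sum_congr rfl fun w _ => ?_
      rw [Green.nw_symm G k y w, sq]
    rw [h4]
    refine h3.trans ((hret (k + k) y).trans (le_of_eq ?_))
    rw [← pow_mul, two_mul]
  have h5 := sum_le_sum h2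
  rw [sum_const, nsmul_eq_mul] at h5
  have h6 : 0 ≤ ∑ y ∈ B, f y ^ 2 := sum_nonneg fun _ _ => sq_nonneg _
  have h7 := mul_le_mul_of_nonneg_right h5 h6
  linarith

/-- an abstract lemma on log-convex sequences -/
theorem seq_le {c : ℕ → ℝ} {M s : ℝ} (hs : 0 ≤ s) (h0 : ∀ k, 0 ≤ c k)
    (hc : ∀ k, c (k + 1) ^ 2 ≤ c k * c (k + 2)) (hM : ∀ k, c k ≤ (M * c 0) * s ^ k) :
    c 1 ≤ s * c 0 := by
  by_contra hcon
  rw [not_le] at hcon
  have hc0 : 0 < c 0 := by
    rcases (h0 0).eq_or_lt with h | h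
    · have := hM 1
      rw [← h, mul_zero, zero_mul] at this
      rw [← h, mul_zero] at hcon
      linarith
    · exact h
  obtain ⟨q, hq⟩ : ∃ q, q = c 1 / c 0 := ⟨_, rfl⟩
  have hqs : s < q := by
    rw [hq, lt_div_iff₀ hc0]
    exact hcon
  have hq0 : 0 < q := lt_of_le_of_lt hs hqs
  have key : ∀ k, 0 < c k ∧ q * c k ≤ c (k + 1) := by
    intro k
    induction k with
    | zero =>
      refine ⟨hc0, ?_⟩
      rw [hq, div_mul_cancel₀ _ hc0.ne']
    | succ k ih =>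
      have h1 : 0 < c (k + 1) := lt_of_lt_of_le (mul_pos hq0 ih.1) ih.2
      refine ⟨h1, ?_⟩
      have h2 := hc k
      have h3 : c k * (q * c (k + 1)) ≤ c k * c (k + 2) := by
        refine le_trans ?_ h2
        have h4 := mul_le_mul_of_nonneg_right ih.2 h1.le
        nlinarith
      exact le_of_mul_le_mul_left h3 ih.1
  have hgrow : ∀ k, q ^ k * c 0 ≤ c k := by
    intro k
    induction k with
    | zero => simp
    | succ k ih =>
      refine le_trans ?_ (key k).2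
      rw [pow_succ]
      nlinarith [mul_le_mul_of_nonneg_left ih hq0.le]
  rcases hs.eq_or_lt with h | h
  · have h1 := hM 1
    have h2 := hgrow 1
    rw [← h, pow_one, mul_zero] at h1
    rw [pow_one] at h2
    have := mul_pos hq0 hc0
    linarith
  · have h1 : 1 < q / s := (one_lt_div h).2 hqs
    obtain ⟨k, hk⟩ := pow_unbounded_of_one_lt M h1
    have h2 := (hgrow k).trans (hM k)
    have h3 : q ^ k ≤ M * s ^ k := by
      have : q ^ k * c 0 ≤ (M * s ^ k) * c 0 := by linarith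
      exact le_of_mul_le_mul_right this hc0
    rw [div_pow, lt_div_iff₀ (pow_pos h k)] at hk
    linarith

theorem norm_le {r : ℝ} (hret : ∀ k x, nw G k x x ≤ r ^ k) {B : Finset V} {f : V → ℝ}
    (hf : ∀ x, x ∉ B → f x = 0) : b G B f 1 ≤ r ^ 2 * b G B f 0 :=
  seq_le (sq_nonneg r) (b_nonneg G B f) (b_convex G hf)
    (fun k => by rw [b_zero]; exact b_growth G hret hf k)

/-- row RET: the quadratic form bound from the return numbers -/
theorem ret_form {r : ℝ} (hr : 0 ≤ r) (hret : ∀ k x, nw G k x x ≤ r ^ k) (B : Finset V)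
    (f : V → ℝ) (hf : ∀ x, x ∉ B → f x = 0) :
    |∑ x ∈ B, ∑ y ∈ G.neighborFinset x, f x * f y| ≤ r * ∑ x ∈ B, f x ^ 2 := by
  have h1 : ∑ x ∈ B, ∑ y ∈ G.neighborFinset x, f x * f y = ∑ x ∈ B, f x * Ch.ad G f x := by
    refine sum_congr rfl fun x _ => ?_
    unfold Ch.ad
    rw [mul_sum]
  have h2 : ∑ x ∈ B, Ch.ad G f x ^ 2 ≤ r ^ 2 * ∑ x ∈ B, f x ^ 2 := by
    have h3 := norm_le G hret hf
    rw [b_zero] at h3
    refine le_trans ?_ h3
    exact sum_le_sum_of_subset_of_nonneg (Ch.sub_nb G B) fun _ _ _ => sq_nonneg _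
  have h4 : 0 ≤ ∑ x ∈ B, f x ^ 2 := sum_nonneg fun _ _ => sq_nonneg _
  rw [h1]
  refine abs_le_of_sq_le_sq ?_ (mul_nonneg hr h4)
  refine (Finset.sum_mul_sq_le_sq_mul_sq _ _ _).trans ?_
  rw [mul_pow, sq (∑ x ∈ B, f x ^ 2)]
  have h5 := mul_le_mul_of_nonneg_left h2 h4
  linarith

theorem ret_nw {r : ℝ} (hr : 0 ≤ r) (hret : ∀ k x, nw G k x x ≤ r ^ k) (k : ℕ) (x y : V) :
    nw G k x y ≤ r ^ k := by
  rw [CH.nw_eq]
  exact Ch.nwk_le G r hr (ret_form G hr hret) x y k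

theorem ret_sum {r : ℝ} (hr : 0 ≤ r) (hret : ∀ k x, nw G k x x ≤ r ^ k) (k : ℕ)
    (B : Finset V) : ∑ x ∈ B, ∑ y ∈ B, nw G k x y ≤ r ^ k * B.card := by
  have := Ch.nwk_sum_le' G r hr (ret_form G hr hret) B k
  simpa only [CH.nw_eq] using this

/-- supermultiplicativity of the return numbers -/
theorem nw_pow_le (x : V) (k m : ℕ) : nw G k x x ^ m ≤ nw G (k * m) x x := by
  induction m with
  | zero => simp [nw]
  | succ m ih =>
    have h1 := Green.nw_conv_le G {x} (k * m) k x x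
    rw [sum_singleton] at h1
    rw [pow_succ, Nat.mul_succ]
    exact (mul_le_mul_of_nonneg_right ih (CH.nw_nonneg G k x x)).trans h1

/-- a constant in front of the growth rate does not matter -/
theorem ret_of_const {r : ℝ} (hr : 0 ≤ r) (h : ∀ x, ∃ C : ℝ, ∀ k, nw G k x x ≤ C * r ^ k)
    (k : ℕ) (x : V) : nw G k x x ≤ r ^ k := by
  obtain ⟨C, hC⟩ := h x
  by_contra hcon
  rw [not_le] at hcon
  have hn : 0 < nw G k x x := lt_of_le_of_lt (pow_nonneg hr k) hcon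
  have hb : ∀ m : ℕ, nw G k x x ^ m ≤ C * (r ^ k) ^ m := by
    intro m
    rw [← pow_mul]
    exact (nw_pow_le G x k m).trans (hC (k * m))
  rcases (pow_nonneg hr k).eq_or_lt with h0 | h0
  · have h1 := hb 1
    rw [← h0, pow_one, pow_one, mul_zero] at h1
    linarith
  · have h1 : 1 < nw G k x x / r ^ k := (one_lt_div h0).2 hcon
    obtain ⟨m, hm⟩ := pow_unbounded_of_one_lt C h1
    rw [div_pow, lt_div_iff₀ (pow_pos h0 m)] at hm
    linarith [hb m]

end RET
end Vale.Agent.P165
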