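import Vale.Agent.P165.PHW
import Vale.Agent.P165.DBW
import Vale.Agent.P165.FIN2
import Vale.Agent.P165.RET
import Vale.Agent.P165.PQ
import Vale.Agent.P165.PN

/-!
# P165: the main theorem in spectral form for quasi-transitive graphs
-/

open Finset MeasureTheory

namespace Vale.Agent.P165

namespace ThmA

variable {V : Type*} [DecidableEq V] {G : SimpleGraph V} [G.LocallyFinite]

/-- uniform lower bound for the exit probabilities -/
theorem theta_lower {w : V → ℝ} {R Lam δ : ℝ} (hw1 : ∀ x, 1 ≤ w x) (hwR : ∀ x, w x ≤ R)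
    (hLam : ∀ y, Lam * w y ≤ ∑ x ∈ G.neighborFinset y, w x)
    (hdeg : ∀ y, (G.degree y : ℝ) ≤ R * Lam) (h0 : 0 < δ) (h1 : δ < 1) (hR : 1 ≤ R)
    (hL : 54 * R ^ 2 ≤ Lam * δ ^ 3) (hLpos : 0 < Lam)
    (hret : ∀ k x, nw G k x x ≤ ((1 - δ) * Lam) ^ k) {p : ℝ}
    (hp1 : (1 + δ / 4) / Lam < p) (hp0 : p ≤ (1 + δ / 2) / Lam) (o : V) (L : Finset V)
    (ho : o ∈ L) : 1 - ((1 + δ / 4) / Lam / p) ^ (1 / R) ≤ theta G p L o := by
  have hr0 : 0 ≤ (1 - δ) * Lam := mul_nonneg (by linarith) hLpos.le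
  have hnw := RET.ret_nw G hr0 hret
  have hB := RET.ret_sum G hr0 hret
  obtain ⟨ha, hb, hc, hd, he⟩ := fin3 G h0 h1 hR hL hdeg hB
  refine theta_ge_w ha hp1.le (hp0.trans hc) (fun q hq S hS => ?_) L ho
  have hq0 : 0 ≤ q := ha.le.trans hq.1
  have hqp : q ≤ (1 + δ / 2) / Lam := hq.2.trans hp0
  have hqr : q * ((1 - δ) * Lam) < 1 :=
    lt_of_le_of_lt (mul_le_mul_of_nonneg_right hqp hr0) hd
  have h3 := phi_ge_weighted (G := G) hq0 (hqp.trans hc) hr0 hqr hnw hw1 hwR hLam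
    (he q hq.1 hqp) hS
  rw [div_le_iff₀ (by linarith : (0 : ℝ) < R)]
  linarith

end ThmA

/-- **Theorem A, weighted.** Quasi-transitive graphs, spectral form. -/
theorem main_weighted {V : Type*} [DecidableEq V] [Infinite V] {G : SimpleGraph V}
    [G.LocallyFinite] (hG : G.Connected)
    (hq : ∃ T : Finset V, ∀ x, ∃ t ∈ T, ∃ f : G ≃g G, f t = x)
    {w : V → ℝ} {R Lam δ : ℝ} (hw1 : ∀ x, 1 ≤ w x) (hwR : ∀ x, w x ≤ R)
    (hLam : ∀ y, Lam * w y ≤ ∑ x ∈ G.neighborFinset y, w x)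
    (hdeg : ∀ y, (G.degree y : ℝ) ≤ R * Lam) (h0 : 0 < δ) (h1 : δ < 1)
    (hL : 54 * R ^ 2 ≤ Lam * δ ^ 3)
    (hret : ∀ k x, nw G k x x ≤ ((1 - δ) * Lam) ^ k) :
    pc G < pu G := by
  obtain ⟨o⟩ := hG.nonempty
  have hR : 1 ≤ R := (hw1 o).trans (hwR o)
  have hLpos : 0 < Lam := by
    by_contra h
    push Not at h
    nlinarith [pow_pos h0 3, mul_nonneg (sub_nonneg.2 hR) (sub_nonneg.2 hR)]
  have hr0 : 0 < (1 - δ) * Lam := mul_pos (by linarith) hLpos
  have hnw := RET.ret_nw G hr0.le hret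
  have hB := RET.ret_sum G hr0.le hret
  obtain ⟨ha, hb, hc, hd, he⟩ := fin3 G h0 h1 hR hL hdeg hB
  have hpos : 0 < (1 + δ / 2) / Lam := ha.trans hb
  set p0 : unitInterval := ⟨(1 + δ / 2) / Lam, hpos.le, hc⟩ with hp0
  have h2 : pc G ≤ (p0 : ℝ) := by
    refine pc_le hG p0 (x := o) (theta_ge_w_pos ha hb (by positivity : (0 : ℝ) < 1 / R)) ?_
    intro S hS
    exact ThmA.theta_lower hw1 hwR hLam hdeg h0 h1 hR hL hLpos hret hb le_rfl o S hS
  have h3 := pu_ge_quasi hG hq hr0 hnw hB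
  have h4 : (p0 : ℝ) < 1 / ((1 - δ) * Lam) := by
    rw [lt_div_iff₀ hr0]
    exact hd
  linarith

/-- **Theorem A.** Every infinite connected quasi-transitive graph, regular of degree `d`, with
spectral radius at most `1 - δ` and `54 ≤ δ ^ 3 d` has `p_c < p_u`. -/
theorem main_spectral {V : Type*} [DecidableEq V] [Infinite V] {G : SimpleGraph V}
    [G.LocallyFinite] (hG : G.Connected)
    (hq : ∃ T : Finset V, ∀ x, ∃ t ∈ T, ∃ f : G ≃g G, f t = x) {d : ℕ}
    (hreg : G.IsRegularOfDegree d) {δ : ℝ} (h0 : 0 < δ) (hd : 54 ≤ δ ^ 3 * d)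
    (hret : ∀ k x, nw G k x x ≤ ((1 - δ) * d) ^ k) :
    pc G < pu G := by
  obtain ⟨o⟩ := hG.nonempty
  have h1 : δ < 1 := by
    by_contra h
    push Not at h
    have h2 := hret 2 o
    have h3 := hret 1 o
    have hnn : ∀ k x y, 0 ≤ nw G k x y := U12.nw_nonneg
    have h4 : (0 : ℝ) < d := by
      by_contra h5
      push Not at h5
      nlinarith [pow_pos h0 3]
    have h5 : 0 ≤ (1 - δ) * (d : ℝ) := by
      have h6 := (hnn 1 o o).trans h3
      rwa [pow_one] at h6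
    have h7 : δ = 1 := by
      have : 0 ≤ 1 - δ := nonneg_of_mul_nonneg_left h5 h4
      linarith
    have h8 : nw G 2 o o ≤ 0 := by
      rw [h7] at h2
      simpa using h2
    have h9 : nw G 2 o o = d := by
      have hz : ∀ z ∈ G.neighborFinset o, nw G 1 z o = 1 := by
        intro z hz
        have hzo : o ∈ G.neighborFinset z :=
          (G.mem_neighborFinset _ _).2 ((G.mem_neighborFinset _ _).1 hz).symm
        simp only [nw]
        rw [Finset.sum_ite_eq' (G.neighborFinset z) o (fun _ => (1 : ℝ)), if_pos hzo]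
      show ∑ z ∈ G.neighborFinset o, nw G 1 z o = d
      rw [Finset.sum_congr rfl hz, Finset.sum_const, nsmul_eq_mul, mul_one,
        SimpleGraph.card_neighborFinset_eq_degree, hreg o]
    rw [h9] at h8
    linarith
  refine main_weighted hG hq (w := fun _ => 1) (R := 1) (Lam := d) (δ := δ) (fun _ => le_rfl)
    (fun _ => le_rfl) (fun y => ?_) (fun y => ?_) h0 h1 (by nlinarith) hret
  · rw [Finset.sum_const, nsmul_eq_mul, SimpleGraph.card_neighborFinset_eq_degree, hreg y]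
  · rw [hreg y, one_mul]

/-- **No symmetry**: an interval of `p` with infinite clusters and without uniqueness. -/
theorem interval_weighted {V : Type*} [DecidableEq V] [Infinite V] {G : SimpleGraph V}
    [G.LocallyFinite] (hG : G.Connected)
    {w : V → ℝ} {R Lam δ : ℝ} (hw1 : ∀ x, 1 ≤ w x) (hwR : ∀ x, w x ≤ R)
    (hLam : ∀ y, Lam * w y ≤ ∑ x ∈ G.neighborFinset y, w x)
    (hdeg : ∀ y, (G.degree y : ℝ) ≤ R * Lam) (h0 : 0 < δ) (h1 : δ < 1)
    (hL : 54 * R ^ 2 ≤ Lam * δ ^ 3)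
    (hret : ∀ k x, nw G k x x ≤ ((1 - δ) * Lam) ^ k) (p : unitInterval)
    (hp1 : (1 + δ / 4) / Lam < p) (hp0 : (p : ℝ) ≤ (1 + δ / 2) / Lam) :
    0 < perc V p {ω | ∃ C : (opn G ω).ConnectedComponent, C.supp.Infinite} ∧
      ¬ ∀ᵐ ω ∂(perc V p), ∃! C : (opn G ω).ConnectedComponent, C.supp.Infinite := by
  obtain ⟨o⟩ := hG.nonempty
  have hR : 1 ≤ R := (hw1 o).trans (hwR o)
  have hLpos : 0 < Lam := by
    by_contra h
    push Not at h
    nlinarith [pow_pos h0 3, mul_nonneg (sub_nonneg.2 hR) (sub_nonneg.2 hR)]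
  have hr0 : 0 < (1 - δ) * Lam := mul_pos (by linarith) hLpos
  have hnw := RET.ret_nw G hr0.le hret
  have hB := RET.ret_sum G hr0.le hret
  obtain ⟨ha, hb, hc, hd, he⟩ := fin3 G h0 h1 hR hL hdeg hB
  have hcpos := theta_ge_w_pos ha hp1 (by positivity : (0 : ℝ) < 1 / R)
  have hθ : ∀ x : V, ∀ S : Finset V, x ∈ S →
      1 - ((1 + δ / 4) / Lam / (p : ℝ)) ^ (1 / R) ≤ theta G p S x := fun x S hS =>
    ThmA.theta_lower hw1 hwR hLam hdeg h0 h1 hR hL hLpos hret hp1 hp0 x S hS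
  refine ⟨perc_infinite_pos hG p hcpos (hθ o), ?_⟩
  exact not_unique_of_theta hG (X := Set.univ) Set.infinite_univ hr0.le hnw hB p
    (lt_of_le_of_lt (mul_le_mul_of_nonneg_right hp0 hr0.le) hd) hcpos (fun x _ => hθ x)

end Vale.Agent.P165
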